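import Vale.Agent.P141.H784.BMnode
import Vale.Agent.P141.H652.ThetaW
import Vale.Agent.P141.H103.PlaneW

/-!
# P141, line (A), (TI): the payers of the pair at the hub `x1`, plane sums, summed over `x0`

Hub `x1` (middle variable, root `S`), outer variables `x2` (root `R`) and `x3` (root `T`); plane
`n + n' + m = o - 2 - ix k x0`.

* `payB_ah`, `payB_eb` : the side `b`, rows dominated by `φ k (x0, x, y) • u x y`;
* `payC_ah`, `payC_eb` : the side `C = φ k (x0, x, z) • v x z`.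
-/

namespace Vale.Agent.P141.H784

set_option linter.unusedSectionVars false

open Matrix Finset
open Vale.Agent.P141.PL (Pt iv mem_iv card_iv ix ix_ix)
open Vale.Agent.P141.H420 (Tr quad_nonneg)
open Vale.Agent.P141.H103 (GW)
open Vale.Agent.P141.H652 (ah eb half_allW eb_allW)

noncomputable section

variable {ι : Type*} [Fintype ι] [DecidableEq ι]

/-- averages over the cells of scale `k` of `x1` and of an outer variable -/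
def av (k : ℕ) (n m : ℤ) (f : ℤ → ℤ → ℝ) : ℝ :=
  ((2 : ℝ) ^ k * 2 ^ k)⁻¹ * ∑ x ∈ iv k m, ∑ y ∈ iv k n, f x y

theorem four_av (k : ℕ) (n m : ℤ) (f : ℤ → ℤ → ℝ) :
    (4 : ℝ) ^ k * av k n m f = ∑ x ∈ iv k m, ∑ y ∈ iv k n, f x y := by
  have h4 : (4 : ℝ) ^ k = 2 ^ k * 2 ^ k := by
    rw [show (4 : ℝ) = 2 * 2 by norm_num, mul_pow]
  rw [av, h4, ← mul_assoc, mul_inv_cancel₀ (by positivity), one_mul]

/-- sums over the points of the root by cells -/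
theorem sum_cells {k K : ℕ} (hk : k ≤ K) (S : ℤ) (g : ℤ → ℝ) :
    ∑ x ∈ iv K S, g x = ∑ p ∈ iv (K - k) S, ∑ x ∈ iv k p, g x := by
  have h2 : ∀ x ∈ iv K S, ix k x ∈ iv (K - k) S := by
    intro x hx
    rw [mem_iv] at hx ⊢
    rw [ix_ix, Nat.add_sub_cancel' hk]
    exact hx
  rw [← sum_fiberwise_of_maps_to h2]
  refine sum_congr rfl fun p hp => sum_congr ?_ fun _ _ => rfl
  ext x
  rw [mem_filter, mem_iv, mem_iv]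
  constructor
  · exact fun h => h.2
  · intro h
    refine ⟨?_, h⟩
    rw [mem_iv, ← h, ix_ix, Nat.add_sub_cancel' hk] at hp
    exact hp

/-- **plane sum of averages over `x1` and `x2`** -/
theorem GW_B {k K : ℕ} (hk : k ≤ K) (R S T o x0 : ℤ) (f : ℤ → ℤ → ℤ → ℝ) :
    GW K R S T k (o - 2 - ix k x0) (fun n n' m => av k n m fun x y => f x y n') =
      ∑ x ∈ iv K S, ∑ m3 ∈ iv (K - k) T,
        ∑ y ∈ (iv K R).filter (fun y => Tie k 0 (o - 2) x0 x y m3), f x y m3 := by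
  unfold GW
  rw [sum_cells hk S, mul_sum]
  refine sum_congr rfl fun m _ => ?_
  have e1 : ∀ n ∈ iv (K - k) R, (4 : ℝ) ^ k * (if o - 2 - ix k x0 - m - n ∈ iv (K - k) T then
      av k n m (fun x y => f x y (o - 2 - ix k x0 - m - n)) else 0) =
      ∑ x ∈ iv k m, ∑ y ∈ iv k n, (if o - 2 - ix k x0 - ix k x - ix k y ∈ iv (K - k) T then
        f x y (o - 2 - ix k x0 - ix k x - ix k y) else 0) := by
    intro n _
    rw [mul_ite, four_av, mul_zero]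
    split_ifs with h
    · refine sum_congr rfl fun x hx => sum_congr rfl fun y hy => ?_
      rw [mem_iv.1 hx, mem_iv.1 hy, if_pos h]
    · refine (sum_eq_zero fun x hx => sum_eq_zero fun y hy => ?_).symm
      rw [mem_iv.1 hx, mem_iv.1 hy, if_neg h]
  rw [mul_sum, sum_congr rfl e1, sum_comm]
  refine sum_congr rfl fun x _ => ?_
  rw [← sum_cells hk R (fun y => if o - 2 - ix k x0 - ix k x - ix k y ∈ iv (K - k) T then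
        f x y (o - 2 - ix k x0 - ix k x - ix k y) else 0)]
  have e2 : ∀ m3 ∈ iv (K - k) T, ∑ y ∈ (iv K R).filter (fun y => Tie k 0 (o - 2) x0 x y m3),
      f x y m3 = ∑ y ∈ iv K R, if m3 = o - 2 - ix k x0 - ix k x - ix k y then f x y m3 else 0 := by
    intro m3 _
    rw [sum_filter]
    refine sum_congr rfl fun y _ => ?_
    have h : Tie k 0 (o - 2) x0 x y m3 ↔ m3 = o - 2 - ix k x0 - ix k x - ix k y := by
      unfold Tie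
      rw [Nat.cast_zero, abs_nonpos_iff]
      constructor
      · intro h; linarith
      · intro h; linarith
    by_cases h3 : Tie k 0 (o - 2) x0 x y m3
    · rw [if_pos h3, if_pos (h.1 h3)]
    · rw [if_neg h3, if_neg fun h4 => h3 (h.2 h4)]
  rw [sum_congr rfl e2, sum_comm]
  refine sum_congr rfl fun y _ => ?_
  rw [sum_ite_eq' (iv (K - k) T) (o - 2 - ix k x0 - ix k x - ix k y) (fun m3 => f x y m3)]

/-- **plane sum of averages over `x1` and `x3`** -/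
theorem GW_C {k K : ℕ} (hk : k ≤ K) (R S T c : ℤ) {f : ℤ → ℤ → ℤ → ℝ}
    (hf : ∀ x z n', 0 ≤ f x z n') :
    GW K R S T k c (fun _ n' m => av k n' m fun x z => f x z n') ≤
      ∑ x ∈ iv K S, ∑ z ∈ iv K T, f x z (ix k z) := by
  unfold GW
  rw [sum_cells hk S, mul_sum]
  refine sum_le_sum fun m _ => ?_
  have e1 : ∀ n ∈ iv (K - k) R, (4 : ℝ) ^ k * (if c - m - n ∈ iv (K - k) T then
      av k (c - m - n) m (fun x z => f x z (c - m - n)) else 0) =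
      (if c - m - n ∈ iv (K - k) T then
        ∑ x ∈ iv k m, ∑ z ∈ iv k (c - m - n), f x z (ix k z) else 0) := by
    intro n _
    rw [mul_ite, four_av, mul_zero]
    refine if_congr Iff.rfl (sum_congr rfl fun x _ => sum_congr rfl fun z hz => ?_) rfl
    rw [mem_iv.1 hz]
  rw [mul_sum, sum_congr rfl e1, ← sum_filter, sum_comm (s := iv k m)]
  have e3 : ∑ z ∈ iv K T, ∑ x ∈ iv k m, f x z (ix k z) =
      ∑ n' ∈ iv (K - k) T, ∑ x ∈ iv k m, ∑ z ∈ iv k n', f x z (ix k z) := by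
    rw [sum_cells hk T]
    exact sum_congr rfl fun n' _ => sum_comm
  rw [e3]
  have e4 : ∑ n ∈ (iv (K - k) R).filter (fun n => c - m - n ∈ iv (K - k) T),
      ∑ x ∈ iv k m, ∑ z ∈ iv k (c - m - n), f x z (ix k z) =
      ∑ n' ∈ ((iv (K - k) R).filter (fun n => c - m - n ∈ iv (K - k) T)).image
        (fun n => c - m - n), ∑ x ∈ iv k m, ∑ z ∈ iv k n', f x z (ix k z) := by
    rw [sum_image]
    intro a _ b _ hab
    simp only at hab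
    omega
  rw [e4]
  refine sum_le_sum_of_subset_of_nonneg (fun n' hn => ?_) fun n' _ _ =>
    sum_nonneg fun x _ => sum_nonneg fun z _ => hf _ _ _
  rw [mem_image] at hn
  obtain ⟨n, hn, rfl⟩ := hn
  exact (mem_filter.1 hn).2

/-- forms of rows -/
theorem rows_form {Z : Finset ℤ} {B U : ℤ → ι → ℝ} {a : ℤ → ℝ}
    (h : ∀ w : ι → ℝ, ∑ y ∈ Z, (B y ⬝ᵥ w) ^ 2 ≤ ∑ y ∈ Z, a y * (U y ⬝ᵥ w) ^ 2)
    {F : Matrix ι ι ℝ} (hF : F.PosSemidef) :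
    ∑ y ∈ Z, B y ⬝ᵥ F *ᵥ B y ≤ ∑ y ∈ Z, a y * (U y ⬝ᵥ F *ᵥ U y) := by
  obtain ⟨L, hL, hLF⟩ := P075.exists_sq hF
  have hLs := P075.psd_isSymm hL
  have e : ∀ v : ι → ℝ, v ⬝ᵥ F *ᵥ v = ∑ i, (v ⬝ᵥ L i) ^ 2 := by
    intro v
    rw [← hLF, ← mulVec_mulVec, dotProduct_mulVec, ← mulVec_transpose, hLs]
    unfold dotProduct Matrix.mulVec dotProduct
    refine sum_congr rfl fun i _ => ?_
    rw [pow_two]
    congr 1 <;> exact sum_congr rfl fun j _ => mul_comm _ _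
  simp only [e]
  rw [sum_comm]
  have e2 : ∑ y ∈ Z, a y * ∑ i, (U y ⬝ᵥ L i) ^ 2 = ∑ i, ∑ y ∈ Z, a y * (U y ⬝ᵥ L i) ^ 2 := by
    rw [sum_comm]
    exact sum_congr rfl fun y _ => mul_sum _ _ _
  rw [e2]
  exact sum_le_sum fun i _ => h (L i)

/-- `⟪v, M W⁻¹ M v⟫ ≤ β⁻¹ |M v|²` -/
theorem inv_quad_le {β : ℝ} (hβ : 0 < β) {W M : Matrix ι ι ℝ} (hM : Mᵀ = M)
    (hW : (W - β • 1).PosSemidef) (v : ι → ℝ) :
    v ⬝ᵥ (M * W⁻¹ * M) *ᵥ v ≤ β⁻¹ * ((M *ᵥ v) ⬝ᵥ (M *ᵥ v)) := by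
  have hWd : W.PosDef := by
    have e : W = β • 1 + (W - β • 1) := by abel
    rw [e]
    exact (PosDef.one.smul hβ).add_posSemidef hW
  have hu : IsUnit W.det := (Matrix.isUnit_iff_isUnit_det _).1 hWd.isUnit
  have h1 : W⁻¹ * W = 1 := Matrix.nonsing_inv_mul _ hu
  have h2 : W * W⁻¹ = 1 := Matrix.mul_nonsing_inv _ hu
  have hWi := hWd.inv.posSemidef
  have hWis : (W⁻¹)ᵀ = W⁻¹ := P075.psd_isSymm hWi
  -- `β W⁻² ≤ W⁻¹`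
  have a1 := P075.psd_conj_symm hW hWis
  have e1 : W⁻¹ * (W - β • 1) * W⁻¹ = W⁻¹ - β • (W⁻¹ * W⁻¹) := by
    rw [Matrix.mul_sub, Matrix.sub_mul, h1, Matrix.one_mul, Matrix.mul_smul, Matrix.mul_one,
      Matrix.smul_mul]
  rw [e1] at a1
  -- `W⁻¹ ≤ β⁻¹`
  have a2 : (β⁻¹ • (1 : Matrix ι ι ℝ) - W⁻¹).PosSemidef := by
    have hq : ((1 : Matrix ι ι ℝ) - β • W⁻¹)ᵀ = 1 - β • W⁻¹ := by
      rw [transpose_sub, transpose_one, transpose_smul, hWis]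
    have b1 := (P075.psd_sq hq).smul (inv_nonneg.2 hβ.le)
    have e : β⁻¹ • (1 : Matrix ι ι ℝ) - W⁻¹ =
        β⁻¹ • ((1 - β • W⁻¹) * (1 - β • W⁻¹)) + (W⁻¹ - β • (W⁻¹ * W⁻¹)) := by
      have e1 : ((1 : Matrix ι ι ℝ) - β • W⁻¹) * (1 - β • W⁻¹) =
          1 - (2 * β) • W⁻¹ + (β * β) • (W⁻¹ * W⁻¹) := by
        simp only [Matrix.mul_sub, Matrix.sub_mul, Matrix.mul_smul, Matrix.smul_mul,
          Matrix.mul_one, Matrix.one_mul]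
        module
      rw [e1, smul_add, smul_sub, smul_smul, smul_smul]
      have e2 : β⁻¹ * (2 * β) = 2 := by field_simp
      have e3 : β⁻¹ * (β * β) = β := by field_simp
      rw [e2, e3]
      module
    rw [e]
    exact b1.add a1
  have a3 := quad_nonneg a2 (M *ᵥ v)
  rw [sub_mulVec, dotProduct_sub, smul_mulVec, one_mulVec, dotProduct_smul, smul_eq_mul] at a3
  have e5 : v ⬝ᵥ (M * W⁻¹ * M) *ᵥ v = (M *ᵥ v) ⬝ᵥ W⁻¹ *ᵥ (M *ᵥ v) := by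
    rw [← mulVec_mulVec, ← mulVec_mulVec, dotProduct_mulVec, ← mulVec_transpose, hM]
  rw [e5]
  linarith

section pay

variable {l : ℝ} {K : ℕ} {R S T : ℤ} {G Kq : ℤ → ℕ → ℤ → Matrix ι ι ℝ} {u v : ℤ → ℤ → ι → ℝ}
  {φ : ℕ → Pt → ℝ} {e : ℝ}

/-- common form of the two payers of the side `b` -/
theorem payB_gen (X : Finset ℤ) {B : ℤ → ℕ → ℤ → ℤ → ι → ℝ}
    (hB : ∀ x0 ∈ X, ∀ k ∈ Icc 1 K, ∀ x ∈ iv K S, ∀ n ∈ iv (K - k) R, ∀ w : ι → ℝ,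
      ∑ y ∈ iv k n, (B x0 k x y ⬝ᵥ w) ^ 2 ≤
        ∑ y ∈ iv k n, φ k (x0, x, y) ^ 2 * (u x y ⬝ᵥ w) ^ 2)
    {F : ℤ → ℤ → ℕ → ℤ → Matrix ι ι ℝ}
    (hF : ∀ x0 ∈ X, ∀ x ∈ iv K S, ∀ k ∈ Icc 1 K, ∀ m, (F x0 x k m).PosSemidef)
    {f : ℕ → ℤ → ℤ → ℤ → ℤ → ℝ}
    (hf : ∀ x0 ∈ X, ∀ x ∈ iv K S, ∀ k ∈ Icc 1 K, ∀ y m,
      u x y ⬝ᵥ F x0 x k m *ᵥ u x y ≤ f k x0 x y m) (o : ℤ) :
    ∑ x0 ∈ X, ∑ k ∈ Icc 1 K, GW K R S T k (o - 2 - ix k x0) (fun n n' m =>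
      av k n m fun x y => B x0 k x y ⬝ᵥ F x0 x k n' *ᵥ B x0 k x y) ≤
    ∑ x0 ∈ X, ∑ x ∈ iv K S, ∑ k ∈ Icc 1 K, ∑ m ∈ iv (K - k) T,
      ∑ y ∈ (iv K R).filter (fun y => Tie k 0 (o - 2) x0 x y m),
        φ k (x0, x, y) ^ 2 * f k x0 x y m := by
  refine sum_le_sum fun x0 h0 => ?_
  rw [sum_comm (s := iv K S)]
  refine sum_le_sum fun k hk => ?_
  have hk' := (mem_Icc.1 hk).2
  rw [GW_B hk' R S T o x0 (fun x y n' => B x0 k x y ⬝ᵥ F x0 x k n' *ᵥ B x0 k x y)]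
  refine sum_le_sum fun x hx => sum_le_sum fun m _ => ?_
  have e1 : ∀ g : ℤ → ℝ, ∑ y ∈ (iv K R).filter (fun y => Tie k 0 (o - 2) x0 x y m), g y =
      ∑ n ∈ iv (K - k) R, if ix k x0 + ix k x + n + m - (o - 2) = 0 then
        ∑ y ∈ iv k n, g y else 0 := by
    intro g
    rw [sum_filter, sum_cells hk' R]
    refine sum_congr rfl fun n _ => ?_
    split_ifs with h
    · refine sum_congr rfl fun y hy => ?_
      rw [if_pos]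
      unfold Tie
      rw [mem_iv.1 hy, h]
      simp
    · refine sum_eq_zero fun y hy => ?_
      rw [if_neg]
      unfold Tie
      rw [mem_iv.1 hy, Nat.cast_zero, abs_nonpos_iff]
      exact h
  rw [e1, e1]
  refine sum_le_sum fun n hn => ?_
  split_ifs with h
  · refine (rows_form (hB x0 h0 k hk x hx n hn) (hF x0 h0 x hx k hk m)).trans ?_
    exact sum_le_sum fun y _ => mul_le_mul_of_nonneg_left (hf x0 h0 x hx k hk y m) (sq_nonneg _)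
  · exact le_rfl

/-- **the half differences on the side `b`**, plane sums at all `x0` -/
theorem payB_ah {o : ℤ} (ho : o = 1 ∨ o = -1) (X : Finset ℤ)
    (hT : ∀ x ∈ iv K S, Tr l K (G x) (Kq x))
    (hG : ∀ x ∈ iv K S, ∀ k ≤ K, ∀ p, G x k p =
      ((2 : ℝ) ^ k)⁻¹ • ∑ y ∈ iv k p, vecMulVec (u x y) (u x y))
    (he : 0 ≤ e) (hφ : ∀ k ∈ Icc 1 K, ∀ j x y, ∑ x0 ∈ iv k j, φ k (x0, x, y) ^ 2 ≤ e * 2 ^ k)
    {B : ℤ → ℕ → ℤ → ℤ → ι → ℝ}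
    (hB : ∀ x0 ∈ X, ∀ k ∈ Icc 1 K, ∀ x ∈ iv K S, ∀ n ∈ iv (K - k) R, ∀ w : ι → ℝ,
      ∑ y ∈ iv k n, (B x0 k x y ⬝ᵥ w) ^ 2 ≤
        ∑ y ∈ iv k n, φ k (x0, x, y) ^ 2 * (u x y ⬝ᵥ w) ^ 2)
    {F : ℤ → ℤ → ℕ → ℤ → Matrix ι ι ℝ} {g : ℝ} (hg : 0 ≤ g)
    (hF : ∀ x0 ∈ X, ∀ x ∈ iv K S, ∀ k ∈ Icc 1 K, ∀ m, (F x0 x k m).PosSemidef)
    (hFa : ∀ x0 ∈ X, ∀ x ∈ iv K S, ∀ k ∈ Icc 1 K, ∀ m, ∀ w : ι → ℝ, w ⬝ᵥ F x0 x k m *ᵥ w ≤
      g * ((ah l K R (Kq x) (o - 2) x0 x (k - 1) m *ᵥ w) ⬝ᵥ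
        (ah l K R (Kq x) (o - 2) x0 x (k - 1) m *ᵥ w))) :
    ∑ x0 ∈ X, ∑ k ∈ Icc 1 K, GW K R S T k (o - 2 - ix k x0) (fun n n' m =>
      av k n m fun x y => B x0 k x y ⬝ᵥ F x0 x k n' *ᵥ B x0 k x y) ≤
    g * (e * (2 ^ K * ∑ x ∈ iv K S, 515625000 * (DK K R (Kq x) + Bd K R (G x)))) := by
  refine (payB_gen X hB hF (f := fun k x0 x y m =>
    g * ((ah l K R (Kq x) (o - 2) x0 x (k - 1) m *ᵥ u x y) ⬝ᵥ
      (ah l K R (Kq x) (o - 2) x0 x (k - 1) m *ᵥ u x y)))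
    (fun x0 h0 x hx k hk y m => hFa x0 h0 x hx k hk m (u x y)) o).trans ?_
  have h1 := BM_plane (J := 0) (S := R) (S3 := T) ho X (iv K S) hT hG
    (W := fun k x0 x y => φ k (x0, x, y) ^ 2) he (fun _ _ _ _ => sq_nonneg _) hφ
  have h2 := mul_le_mul_of_nonneg_left h1 hg
  refine le_trans (le_of_eq ?_) (h2.trans (le_of_eq ?_))
  · rw [mul_sum]
    refine sum_congr rfl fun x0 _ => ?_
    rw [mul_sum]
    refine sum_congr rfl fun x _ => ?_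
    rw [mul_sum]
    refine sum_congr rfl fun k _ => ?_
    rw [mul_sum]
    refine sum_congr rfl fun m _ => ?_
    rw [mul_sum]
    refine sum_congr rfl fun y _ => ?_
    ring
  · push_cast
    norm_num

/-- **the losses on the side `b`**, plane sums at all `x0` -/
theorem payB_eb {o : ℤ} (ho : o = 1 ∨ o = -1) (X : Finset ℤ)
    (hT : ∀ x ∈ iv K S, Tr l K (G x) (Kq x))
    (hG : ∀ x ∈ iv K S, ∀ k ≤ K, ∀ p, G x k p =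
      ((2 : ℝ) ^ k)⁻¹ • ∑ y ∈ iv k p, vecMulVec (u x y) (u x y))
    (he : 0 ≤ e) (hφ : ∀ k ∈ Icc 1 K, ∀ j x y, ∑ x0 ∈ iv k j, φ k (x0, x, y) ^ 2 ≤ e * 2 ^ k)
    {B : ℤ → ℕ → ℤ → ℤ → ι → ℝ}
    (hB : ∀ x0 ∈ X, ∀ k ∈ Icc 1 K, ∀ x ∈ iv K S, ∀ n ∈ iv (K - k) R, ∀ w : ι → ℝ,
      ∑ y ∈ iv k n, (B x0 k x y ⬝ᵥ w) ^ 2 ≤
        ∑ y ∈ iv k n, φ k (x0, x, y) ^ 2 * (u x y ⬝ᵥ w) ^ 2)
    {F : ℤ → ℤ → ℕ → ℤ → Matrix ι ι ℝ} {g : ℝ} (hg : 0 ≤ g)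
    (hF : ∀ x0 ∈ X, ∀ x ∈ iv K S, ∀ k ∈ Icc 1 K, ∀ m, (F x0 x k m).PosSemidef)
    (hFa : ∀ x0 ∈ X, ∀ x ∈ iv K S, ∀ k ∈ Icc 1 K, ∀ m, ∀ w : ι → ℝ, w ⬝ᵥ F x0 x k m *ᵥ w ≤
      g * (w ⬝ᵥ eb l K R (Kq x) (o - 2) x0 x k m *ᵥ w)) :
    ∑ x0 ∈ X, ∑ k ∈ Icc 1 K, GW K R S T k (o - 2 - ix k x0) (fun n n' m =>
      av k n m fun x y => B x0 k x y ⬝ᵥ F x0 x k n' *ᵥ B x0 k x y) ≤
    g * (e * (2 ^ K * ∑ x ∈ iv K S, 89180 * (DK K R (Kq x) + Bd K R (G x)))) := by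
  refine (payB_gen X hB hF (f := fun k x0 x y m =>
    g * (u x y ⬝ᵥ eb l K R (Kq x) (o - 2) x0 x k m *ᵥ u x y))
    (fun x0 h0 x hx k hk y m => hFa x0 h0 x hx k hk m (u x y)) o).trans ?_
  have h1 := EB_plane (J := 0) (S := R) (S3 := T) ho X (iv K S) hT hG
    (W := fun k x0 x y => φ k (x0, x, y) ^ 2) he (fun _ _ _ _ => sq_nonneg _) hφ
  have h2 := mul_le_mul_of_nonneg_left h1 hg
  refine le_trans (le_of_eq ?_) (h2.trans (le_of_eq ?_))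
  · rw [mul_sum]
    refine sum_congr rfl fun x0 _ => ?_
    rw [mul_sum]
    refine sum_congr rfl fun x _ => ?_
    rw [mul_sum]
    refine sum_congr rfl fun k _ => ?_
    rw [mul_sum]
    refine sum_congr rfl fun m _ => ?_
    rw [mul_sum]
    refine sum_congr rfl fun y _ => ?_
    ring
  · push_cast
    norm_num

theorem sum_Icc_range (f : ℕ → ℝ) : ∑ k ∈ Icc 1 K, f k = ∑ k ∈ range K, f (k + 1) := by
  rw [range_eq_Ico, sum_Ico_add' f 0 K 1]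
  rfl

/-- **the half differences on the side `C`**, plane sums at all `x0` -/
theorem payC_ah {o : ℤ} (X : Finset ℤ) (hT : ∀ x ∈ iv K S, Tr l K (G x) (Kq x))
    (he : 0 ≤ e) (hφ : ∀ k ∈ Icc 1 K, ∀ j x z, ∑ x0 ∈ iv k j, φ k (x0, x, z) ^ 2 ≤ e * 2 ^ k)
    {C : ℤ → ℕ → ℤ → ℤ → ι → ℝ} (hC : ∀ x0 k z x, C x0 k z x = φ k (x0, x, z) • v x z)
    {F : ℤ → ℤ → ℕ → ℤ → Matrix ι ι ℝ} {g : ℝ} (hg : 0 ≤ g)
    (hF : ∀ x0 x k m, (F x0 x k m).PosSemidef)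
    (hFa : ∀ x0 ∈ X, ∀ x ∈ iv K S, ∀ k ∈ Icc 1 K, ∀ m, ∀ w : ι → ℝ, w ⬝ᵥ F x0 x k m *ᵥ w ≤
      g * ((ah l K R (Kq x) (o - 2) x0 x (k - 1) m *ᵥ w) ⬝ᵥ
        (ah l K R (Kq x) (o - 2) x0 x (k - 1) m *ᵥ w))) (c : ℤ → ℕ → ℤ) :
    ∑ x0 ∈ X, ∑ k ∈ Icc 1 K, GW K R S T k (c x0 k) (fun _ n' m =>
      av k n' m fun x z => C x0 k z x ⬝ᵥ F x0 x k n' *ᵥ C x0 k z x) ≤
    g * (e * (2 ^ K * ∑ x ∈ iv K S, ∑ z ∈ iv K T,
      8192 * l⁻¹ * (v x z ⬝ᵥ G x K R *ᵥ v x z))) := by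
  have h1 : ∀ x0 ∈ X, ∀ k ∈ Icc 1 K, GW K R S T k (c x0 k) (fun _ n' m =>
      av k n' m fun x z => C x0 k z x ⬝ᵥ F x0 x k n' *ᵥ C x0 k z x) ≤
      ∑ x ∈ iv K S, ∑ z ∈ iv K T, φ k (x0, x, z) ^ 2 *
        (g * ((ah l K R (Kq x) (o - 2) x0 x (k - 1) (ix k z) *ᵥ v x z) ⬝ᵥ
        (ah l K R (Kq x) (o - 2) x0 x (k - 1) (ix k z) *ᵥ v x z))) := by
    intro x0 h0 k hk
    refine (GW_C (mem_Icc.1 hk).2 R S T (c x0 k)
      (f := fun x z n' => C x0 k z x ⬝ᵥ F x0 x k n' *ᵥ C x0 k z x)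
      (fun x z n' => quad_nonneg (hF x0 x k n') _)).trans ?_
    refine sum_le_sum fun x hx => sum_le_sum fun z _ => ?_
    have e1 : C x0 k z x ⬝ᵥ F x0 x k (ix k z) *ᵥ C x0 k z x =
        φ k (x0, x, z) ^ 2 * (v x z ⬝ᵥ F x0 x k (ix k z) *ᵥ v x z) := by
      rw [hC, mulVec_smul, smul_dotProduct, dotProduct_smul, smul_eq_mul, smul_eq_mul]
      ring
    rw [e1]
    exact mul_le_mul_of_nonneg_left (hFa x0 h0 x hx k hk _ _) (sq_nonneg _)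
  refine (sum_le_sum fun x0 h0 => sum_le_sum fun k hk => h1 x0 h0 k hk).trans ?_
  have e2 : ∑ x0 ∈ X, ∑ k ∈ Icc 1 K, ∑ x ∈ iv K S, ∑ z ∈ iv K T, φ k (x0, x, z) ^ 2 *
        (g * ((ah l K R (Kq x) (o - 2) x0 x (k - 1) (ix k z) *ᵥ v x z) ⬝ᵥ
        (ah l K R (Kq x) (o - 2) x0 x (k - 1) (ix k z) *ᵥ v x z))) =
      g * ∑ x ∈ iv K S, ∑ z ∈ iv K T, ∑ k ∈ range K, ∑ x0 ∈ X, φ (k + 1) (x0, x, z) ^ 2 *
        ((ah l K R (Kq x) (o - 2) x0 x k (ix (k + 1) z) *ᵥ v x z) ⬝ᵥ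
        (ah l K R (Kq x) (o - 2) x0 x k (ix (k + 1) z) *ᵥ v x z)) := by
    rw [sum_comm, sum_Icc_range (K := K)]
    simp only [Nat.add_sub_cancel, mul_sum]
    have e3 : ∀ k ∈ range K, ∑ x0 ∈ X, ∑ x ∈ iv K S, ∑ z ∈ iv K T,
        φ (k + 1) (x0, x, z) ^ 2 *
        (g * ((ah l K R (Kq x) (o - 2) x0 x k (ix (k + 1) z) *ᵥ v x z) ⬝ᵥ
        (ah l K R (Kq x) (o - 2) x0 x k (ix (k + 1) z) *ᵥ v x z))) =
        ∑ x ∈ iv K S, ∑ z ∈ iv K T, ∑ x0 ∈ X, φ (k + 1) (x0, x, z) ^ 2 *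
        (g * ((ah l K R (Kq x) (o - 2) x0 x k (ix (k + 1) z) *ᵥ v x z) ⬝ᵥ
        (ah l K R (Kq x) (o - 2) x0 x k (ix (k + 1) z) *ᵥ v x z))) := by
      intro k _
      rw [sum_comm]
      exact sum_congr rfl fun x _ => sum_comm
    rw [sum_congr rfl e3, sum_comm]
    refine sum_congr rfl fun x _ => ?_
    rw [sum_comm]
    refine sum_congr rfl fun z _ => sum_congr rfl fun k _ => sum_congr rfl fun x0 _ => ?_
    ring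
  rw [e2]
  refine mul_le_mul_of_nonneg_left ?_ hg
  have h3 : ∀ x ∈ iv K S, ∀ z ∈ iv K T, ∑ k ∈ range K, ∑ x0 ∈ X, φ (k + 1) (x0, x, z) ^ 2 *
        ((ah l K R (Kq x) (o - 2) x0 x k (ix (k + 1) z) *ᵥ v x z) ⬝ᵥ
        (ah l K R (Kq x) (o - 2) x0 x k (ix (k + 1) z) *ᵥ v x z)) ≤
      e * (2 ^ K * (8192 * l⁻¹ * (v x z ⬝ᵥ G x K R *ᵥ v x z))) := fun x hx z _ =>
    half_allW (M := R) (hT x hx) (v x z) (W := fun k x0 => φ k (x0, x, z) ^ 2) he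
      (fun _ _ => sq_nonneg _) (fun k hk j => hφ k hk j x z) X (o - 2) x z
  refine (sum_le_sum fun x hx => sum_le_sum fun z hz => h3 x hx z hz).trans (le_of_eq ?_)
  simp only [mul_sum]

/-- **the losses on the side `C`**, plane sums at all `x0` -/
theorem payC_eb {o : ℤ} (X : Finset ℤ) (hT : ∀ x ∈ iv K S, Tr l K (G x) (Kq x))
    (he : 0 ≤ e) (hφ : ∀ k ∈ Icc 1 K, ∀ j x z, ∑ x0 ∈ iv k j, φ k (x0, x, z) ^ 2 ≤ e * 2 ^ k)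
    {C : ℤ → ℕ → ℤ → ℤ → ι → ℝ} (hC : ∀ x0 k z x, C x0 k z x = φ k (x0, x, z) • v x z)
    {F : ℤ → ℤ → ℕ → ℤ → Matrix ι ι ℝ} {g : ℝ} (hg : 0 ≤ g)
    (hF : ∀ x0 x k m, (F x0 x k m).PosSemidef)
    (hFa : ∀ x0 ∈ X, ∀ x ∈ iv K S, ∀ k ∈ Icc 1 K, ∀ m, ∀ w : ι → ℝ, w ⬝ᵥ F x0 x k m *ᵥ w ≤
      g * (w ⬝ᵥ eb l K R (Kq x) (o - 2) x0 x k m *ᵥ w)) (c : ℤ → ℕ → ℤ) :
    ∑ x0 ∈ X, ∑ k ∈ Icc 1 K, GW K R S T k (c x0 k) (fun _ n' m =>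
      av k n' m fun x z => C x0 k z x ⬝ᵥ F x0 x k n' *ᵥ C x0 k z x) ≤
    g * (e * (2 ^ K * ∑ x ∈ iv K S, ∑ z ∈ iv K T,
      2 * l⁻¹ * (v x z ⬝ᵥ G x K R *ᵥ v x z))) := by
  have h1 : ∀ x0 ∈ X, ∀ k ∈ Icc 1 K, GW K R S T k (c x0 k) (fun _ n' m =>
      av k n' m fun x z => C x0 k z x ⬝ᵥ F x0 x k n' *ᵥ C x0 k z x) ≤
      ∑ x ∈ iv K S, ∑ z ∈ iv K T, φ k (x0, x, z) ^ 2 *
        (g * (v x z ⬝ᵥ eb l K R (Kq x) (o - 2) x0 x k (ix k z) *ᵥ v x z)) := by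
    intro x0 h0 k hk
    refine (GW_C (mem_Icc.1 hk).2 R S T (c x0 k)
      (f := fun x z n' => C x0 k z x ⬝ᵥ F x0 x k n' *ᵥ C x0 k z x)
      (fun x z n' => quad_nonneg (hF x0 x k n') _)).trans ?_
    refine sum_le_sum fun x hx => sum_le_sum fun z _ => ?_
    have e1 : C x0 k z x ⬝ᵥ F x0 x k (ix k z) *ᵥ C x0 k z x =
        φ k (x0, x, z) ^ 2 * (v x z ⬝ᵥ F x0 x k (ix k z) *ᵥ v x z) := by
      rw [hC, mulVec_smul, smul_dotProduct, dotProduct_smul, smul_eq_mul, smul_eq_mul]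
      ring
    rw [e1]
    exact mul_le_mul_of_nonneg_left (hFa x0 h0 x hx k hk _ _) (sq_nonneg _)
  refine (sum_le_sum fun x0 h0 => sum_le_sum fun k hk => h1 x0 h0 k hk).trans ?_
  have e2 : ∑ x0 ∈ X, ∑ k ∈ Icc 1 K, ∑ x ∈ iv K S, ∑ z ∈ iv K T, φ k (x0, x, z) ^ 2 *
        (g * (v x z ⬝ᵥ eb l K R (Kq x) (o - 2) x0 x k (ix k z) *ᵥ v x z)) =
      g * ∑ x ∈ iv K S, ∑ z ∈ iv K T, ∑ k ∈ Icc 1 K, ∑ x0 ∈ X, φ k (x0, x, z) ^ 2 *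
        (v x z ⬝ᵥ eb l K R (Kq x) (o - 2) x0 x k (ix k z) *ᵥ v x z) := by
    rw [sum_comm]
    simp only [mul_sum]
    have e3 : ∀ k ∈ Icc 1 K, ∑ x0 ∈ X, ∑ x ∈ iv K S, ∑ z ∈ iv K T, φ k (x0, x, z) ^ 2 *
        (g * (v x z ⬝ᵥ eb l K R (Kq x) (o - 2) x0 x k (ix k z) *ᵥ v x z)) =
        ∑ x ∈ iv K S, ∑ z ∈ iv K T, ∑ x0 ∈ X, φ k (x0, x, z) ^ 2 *
        (g * (v x z ⬝ᵥ eb l K R (Kq x) (o - 2) x0 x k (ix k z) *ᵥ v x z)) := by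
      intro k _
      rw [sum_comm]
      exact sum_congr rfl fun x _ => sum_comm
    rw [sum_congr rfl e3, sum_comm]
    refine sum_congr rfl fun x _ => ?_
    rw [sum_comm]
    refine sum_congr rfl fun z _ => sum_congr rfl fun k _ => sum_congr rfl fun x0 _ => ?_
    ring
  rw [e2]
  refine mul_le_mul_of_nonneg_left ?_ hg
  have h3 : ∀ x ∈ iv K S, ∀ z ∈ iv K T, ∑ k ∈ Icc 1 K, ∑ x0 ∈ X, φ k (x0, x, z) ^ 2 *
        (v x z ⬝ᵥ eb l K R (Kq x) (o - 2) x0 x k (ix k z) *ᵥ v x z) ≤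
      e * (2 ^ K * (2 * l⁻¹ * (v x z ⬝ᵥ G x K R *ᵥ v x z))) := fun x hx z _ =>
    eb_allW (M := R) (hT x hx) (v x z) (W := fun k x0 => φ k (x0, x, z) ^ 2) he
      (fun _ _ => sq_nonneg _) (fun k hk j => hφ k hk j x z) X (o - 2) x z
  refine (sum_le_sum fun x hx => sum_le_sum fun z hz => h3 x hx z hz).trans (le_of_eq ?_)
  simp only [mul_sum]

end pay

end

end Vale.Agent.P141.H784
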