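import Vale.Agent.P141.H48.En6
import Vale.Agent.P141.H312.ProfF
import Vale.Agent.P141.H498.En4F
import Vale.Agent.P141.H958.PairsE

/-!
# P141, line W: the engine for a finite family of planes, own energies, `prf` form
-/

namespace Vale.Agent.P141.H784

open Finset Vale.Agent.P141.PL
open Vale.Agent.P141.H48 (EngF)
open Vale.Agent.P141.H958 (DE S4E L2E PackQ pwr pairE wp sp)
open Vale.Agent.P141.H736 (Path)
open Vale.Agent.P141.H498 (prf disp disp_le)

noncomputable section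

open scoped Classical

theorem de_of {N : ℕ} {R S : ℤ} {Q : ℕ → ℤ → ℤ → Prop} {F : ℕ → ℤ → ℤ → ℝ} {cP : ℝ}
    (h : Path N R S Q F ∧ F 0 = 0 ∧ PackQ N R S Q cP) :
    DE N R S Q F (pwr N R S Q F) (H48.own4 N R S Q F) cP :=
  ⟨⟨h.1, h.2.1, le_rfl⟩, ⟨h.1, h.2.1, le_rfl, h.2.2⟩⟩

/-- **The engine for a finite family of planes.** -/
theorem engF : EngF (2 * (2160 * 4400)) := by
  intro N R X c hc s hs A B H QA QB QH cP GA GB GH DA DB DH hcP hGA hGB hGH hDA hDB hDH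
    pA pB pH sGA sDA sGB sDB sGH sDH
  have h := H312.prof_fam' (X := X) (w := fun _ => (1 : ℝ)) (N := fun _ => N) (R := fun _ => R)
    (c := c) (s := s) (A := A) (B := B) (C := H) (fun _ _ => zero_le_one) hs
    (κ := 4400 * cP) (by positivity)
    (dA := fun i => pwr N R.1 R.2.1 (QA i) (A i)) (gA := fun i => H48.own4 N R.1 R.2.1 (QA i) (A i))
    (dB := fun i => pwr N R.2.1 R.2.2 (QB i) (B i))
    (gB := fun i => H48.own4 N R.2.1 R.2.2 (QB i) (B i))
    (dC := fun i => pwr N R.1 R.2.2 (QH i) (H i)) (gC := fun i => H48.own4 N R.1 R.2.2 (QH i) (H i))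
    (fun i hi μ ν hμ hν => pairE (hc i hi) hcP (de_of (pA i hi)) (de_of (pB i hi)).swap hμ.le hν.le)
    (fun i hi μ ν hμ hν => pairE (hc i hi) hcP (de_of (pB i hi)) (de_of (pH i hi)) hμ.le hν.le)
    (fun i hi μ ν hμ hν => pairE (hc i hi) hcP (de_of (pA i hi)).swap (de_of (pH i hi)).swap
      hμ.le hν.le)
    hDA hGA hDB hGB hDH hGH (by simpa using sDA) (by simpa using sGA) (by simpa using sDB)
    (by simpa using sGB) (by simpa using sDH) (by simpa using sGH)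
  have h2 : ∑ i ∈ X, ∑ k ∈ Icc 1 N, (2 ^ k : ℝ)⁻¹ * ∑ m ∈ s i k, |tri k m (A i k) (B i k) (H i k)| =
      ∑ i ∈ X, (1 : ℝ) * ∑ k ∈ Icc 1 N, (2 ^ k : ℝ)⁻¹ *
        ∑ m ∈ s i k, |tri k m (A i k) (B i k) (H i k)| :=
    sum_congr rfl fun i _ => (one_mul _).symm
  rw [h2]
  refine h.trans ?_
  have h3 := disp_le (dA := DA) (dB := DB) (dC := DH) hGA hGB hGH
  unfold disp at h3
  have h4 := mul_le_mul_of_nonneg_left h3 (by positivity : (0 : ℝ) ≤ 2160 * (4400 * cP))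
  refine le_trans (le_of_eq ?_) (h4.trans (le_of_eq ?_)) <;> ring

end

end Vale.Agent.P141.H784
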