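import Vale.Agent.P141.H505.Chg

/-!
# P141, line (A): variation of the partner `Θ c (1 + ν cᵀ W c)⁻¹ cᵀ Θ` in an outer halving

`W` and `Θ` move by the same symmetric matrices `δ₀`, `δ₁`.

* `PW`, `pw` : the operator and the partner;
* `PW_psd`, `PW_le`, `PW_quad`, `PW_diff`, `PW_phi`;
* `pw_step` : squares of the variation.
-/

namespace Vale.Agent.P141.H784

set_option linter.unusedSectionVars false

open Finset Matrix Vale.Agent.P075 Vale.Agent.P141.H505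

noncomputable section

variable {m n n₀ n₁ : Type*} [Fintype m] [DecidableEq m] [Fintype n] [DecidableEq n]
  [Fintype n₀] [DecidableEq n₀] [Fintype n₁] [DecidableEq n₁]

/-- `(X⁻¹ + ν W)⁻¹` for `X = c cᵀ` -/
def PW (ν : ℝ) (W : Matrix m m ℝ) (c : Matrix m n ℝ) : Matrix m m ℝ :=
  c * res (ν • (cᵀ * W * c)) * cᵀ

/-- the partner -/
def pw (ν : ℝ) (Θ W : Matrix m m ℝ) (c : Matrix m n ℝ) : Matrix m m ℝ :=
  Θ * c * (1 + ν • (cᵀ * W * c))⁻¹ * cᵀ * Θ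

omit [Fintype m] [DecidableEq m] in
theorem pw_eq [Fintype m] (ν : ℝ) (Θ W : Matrix m m ℝ) (c : Matrix m n ℝ) :
    pw ν Θ W c = Θ * PW ν W c * Θ := by
  rw [pw, PW, res]
  simp only [Matrix.mul_assoc]

section basic

variable {ν : ℝ} (hν : 0 < ν) {W : Matrix m m ℝ} (hW : W.PosSemidef) (c : Matrix m n ℝ)

omit [DecidableEq m] in
include hν hW in
theorem cWc_psd : (ν • (cᵀ * W * c)).PosSemidef := by
  have := psd_conj hW cᵀ
  rw [transpose_transpose] at this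
  exact this.smul hν.le

omit [DecidableEq m] in
include hν hW in
theorem PW_psd : (PW ν W c).PosSemidef := psd_conj (res_psd (cWc_psd hν hW c)) c

omit [DecidableEq m] in
include hν hW in
/-- `P ≤ X` -/
theorem PW_le : (c * cᵀ - PW ν W c).PosSemidef := by
  have h := psd_conj (one_sub_res_psd (cWc_psd hν hW c)) c
  rw [Matrix.mul_sub, Matrix.mul_one, Matrix.sub_mul] at h
  exact h

omit [DecidableEq m] in
include hν hW in
/-- `P (ν W) P ≤ P` -/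
theorem PW_quad : (PW ν W c - ν • (PW ν W c * W * PW ν W c)).PosSemidef := by
  have hX := cWc_psd hν hW c
  have e : ν • (PW ν W c * W * PW ν W c) =
      c * (res (ν • (cᵀ * W * c)) * (ν • (cᵀ * W * c)) * res (ν • (cᵀ * W * c))) * cᵀ := by
    rw [PW]
    simp only [Matrix.mul_smul, Matrix.smul_mul, Matrix.mul_assoc]
  rw [e, ← res_sub_sq hX]
  have e2 : PW ν W c - c * (res (ν • (cᵀ * W * c)) - res (ν • (cᵀ * W * c)) *
      res (ν • (cᵀ * W * c))) * cᵀ =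
      c * (res (ν • (cᵀ * W * c)) * res (ν • (cᵀ * W * c))) * cᵀ := by
    rw [PW, Matrix.mul_sub, Matrix.sub_mul]
    abel
  rw [e2]
  exact psd_conj (psd_sq (res_symm hX)) c

omit [DecidableEq m] in
include hν hW in
/-- the resolvent identity -/
theorem PW_diff {W' : Matrix m m ℝ} (hW' : W'.PosSemidef) :
    PW ν W' c - PW ν W c = -(ν • (PW ν W' c * (W' - W) * PW ν W c)) := by
  have hX := cWc_psd hν hW c
  have hX' := cWc_psd hν hW' c
  have e1 : res (ν • (cᵀ * W' * c)) - res (ν • (cᵀ * W * c)) =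
      -(res (ν • (cᵀ * W' * c)) * (ν • (cᵀ * (W' - W) * c)) * res (ν • (cᵀ * W * c))) := by
    have a := one_add_mul_res hX
    have b := res_mul_one_add hX'
    have e2 : ν • (cᵀ * (W' - W) * c) = (1 + ν • (cᵀ * W' * c)) - (1 + ν • (cᵀ * W * c)) := by
      rw [Matrix.mul_sub, Matrix.sub_mul, smul_sub]
      abel
    rw [e2, Matrix.mul_sub, Matrix.sub_mul, b, Matrix.mul_assoc (res (ν • (cᵀ * W' * c))) _
      (res (ν • (cᵀ * W * c))), a, Matrix.mul_one, Matrix.one_mul]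
    abel
  have e3 : PW ν W' c - PW ν W c =
      c * (res (ν • (cᵀ * W' * c)) - res (ν • (cᵀ * W * c))) * cᵀ := by
    rw [PW, PW, Matrix.mul_sub, Matrix.sub_mul]
  rw [e3, e1, PW, PW]
  simp only [Matrix.mul_neg, Matrix.neg_mul, Matrix.mul_smul, Matrix.smul_mul, Matrix.mul_assoc]

include hν in
/-- push through -/
theorem PW_phi {S Si : Matrix m m ℝ} (hS : Sᵀ = S) (_hSi : Siᵀ = Si) (h1 : Si * S = 1)
    (h2 : S * Si = 1) : PW ν (S * S) c = ν⁻¹ • (Si * phi (ν • (S * (c * cᵀ) * S)) * Si) := by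
  set D : Matrix m n ℝ := S * c with hD
  have eD : Dᵀ = cᵀ * S := by rw [hD, transpose_mul, hS]
  have e1 : cᵀ * (S * S) * c = Dᵀ * D := by rw [eD, hD]; simp only [Matrix.mul_assoc]
  have e2 : S * (c * cᵀ) * S = D * Dᵀ := by rw [eD, hD]; simp only [Matrix.mul_assoc]
  have ec : c = Si * D := by rw [hD, ← Matrix.mul_assoc, h1, Matrix.one_mul]
  have ect : cᵀ = Dᵀ * Si := by rw [eD, Matrix.mul_assoc, h2, Matrix.mul_one]
  have hX : (ν • (Dᵀ * D)).PosSemidef := (psd_transpose_mul D).smul hν.le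
  have hY : (ν • (D * Dᵀ)).PosSemidef := (psd_mul_transpose D).smul hν.le
  have e3 : D * (ν • (Dᵀ * D)) = ν • (D * Dᵀ) * D := by
    simp only [Matrix.mul_smul, Matrix.smul_mul, Matrix.mul_assoc]
  have e4 := res_inter hX hY e3
  have e5 : D * res (ν • (Dᵀ * D)) * Dᵀ = ν⁻¹ • phi (ν • (D * Dᵀ)) := by
    rw [e4, ← res_mul_phi hY, Matrix.mul_smul, smul_smul, inv_mul_cancel₀ hν.ne', one_smul,
      Matrix.mul_assoc]
  rw [PW, e1, e2]
  have e6 : c * res (ν • (Dᵀ * D)) * cᵀ = Si * (D * res (ν • (Dᵀ * D)) * Dᵀ) * Si := by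
    conv_lhs => rw [ect, ec]
    simp only [Matrix.mul_assoc]
  rw [e6, e5]
  simp only [Matrix.mul_smul, Matrix.smul_mul]

end basic

/-! ### Hilbert-Schmidt norms -/

/-- square of the Hilbert-Schmidt norm -/
def hs2 (A : Matrix m n ℝ) : ℝ := (Aᵀ * A).trace

omit [DecidableEq m] [DecidableEq n] in
theorem hs2_nonneg (A : Matrix m n ℝ) : 0 ≤ hs2 A := hs_nonneg A

omit [DecidableEq m] [DecidableEq n] in
theorem hs2_eq (A : Matrix m n ℝ) : hs2 A = ∑ j, ∑ i, A i j ^ 2 := by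
  rw [hs2, trace_tmul]
  exact sum_congr rfl fun j _ => sum_congr rfl fun i _ => (pow_two _).symm

omit [DecidableEq m] [DecidableEq n] in
theorem hs2_add (A B : Matrix m n ℝ) : hs2 (A + B) ≤ 2 * hs2 A + 2 * hs2 B := by
  rw [hs2_eq, hs2_eq, hs2_eq, mul_sum, mul_sum, ← sum_add_distrib]
  refine sum_le_sum fun j _ => ?_
  rw [mul_sum, mul_sum, ← sum_add_distrib]
  refine sum_le_sum fun i _ => ?_
  rw [Matrix.add_apply]
  nlinarith [sq_nonneg (A i j - B i j)]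

omit [DecidableEq m] [DecidableEq n] in
theorem hs2_neg (A : Matrix m n ℝ) : hs2 (-A) = hs2 A := by
  rw [hs2_eq, hs2_eq]
  refine sum_congr rfl fun j _ => sum_congr rfl fun i _ => ?_
  rw [Matrix.neg_apply, neg_sq]

omit [DecidableEq m] [DecidableEq n] in
theorem hs2_smul (a : ℝ) (A : Matrix m n ℝ) : hs2 (a • A) = a ^ 2 * hs2 A := by
  rw [hs2_eq, hs2_eq, mul_sum]
  refine sum_congr rfl fun j _ => ?_
  rw [mul_sum]
  refine sum_congr rfl fun i _ => ?_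
  rw [Matrix.smul_apply, smul_eq_mul]
  ring

omit [DecidableEq n] in
/-- `|L A|² ≤ c |S A|²` if `LᵀL ≤ c SᵀS` -/
theorem hs2_left {L S : Matrix m m ℝ} {t : ℝ} (h : (t • (Sᵀ * S) - Lᵀ * L).PosSemidef)
    (A : Matrix m n ℝ) : hs2 (L * A) ≤ t * hs2 (S * A) := by
  have h1 := (psd_conj h Aᵀ).trace_nonneg
  rw [transpose_transpose] at h1
  have e : Aᵀ * (t • (Sᵀ * S) - Lᵀ * L) * A = t • ((S * A)ᵀ * (S * A)) - (L * A)ᵀ * (L * A) := by
    rw [transpose_mul, transpose_mul, Matrix.mul_sub, Matrix.sub_mul, Matrix.mul_smul,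
      Matrix.smul_mul]
    simp only [Matrix.mul_assoc]
  rw [e, trace_sub, trace_smul, smul_eq_mul] at h1
  rw [hs2, hs2]
  linarith

omit [DecidableEq m] [DecidableEq n] in
theorem hs2_transpose (A : Matrix m n ℝ) : hs2 Aᵀ = hs2 A := by
  rw [hs2, hs2, transpose_transpose, trace_mul_comm]

section moved

variable {ν β τ : ℝ} (hν : 0 < ν) (hβ : 0 < β) (hτ : 0 ≤ τ) {W Θ : Matrix m m ℝ}
  (hW : (W - β • 1).PosSemidef) (hΘs : Θᵀ = Θ) (hΘ : (τ • W - Θ * Θ).PosSemidef)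
  (c : Matrix m n ℝ)

include hβ hW in
theorem W_psd : W.PosSemidef := by
  have e : W = (W - β • 1) + β • 1 := by abel
  rw [e]
  exact hW.add (PosSemidef.one.smul hβ.le)

include hν hβ hτ hW hΘs hΘ in
/-- `|Θ P Z|² ≤ τ ν⁻¹ tr (Zᵀ P Z)` -/
theorem ThP (Z : Matrix m m ℝ) : hs2 (Θ * (PW ν W c * Z)) ≤
    τ * ν⁻¹ * (Zᵀ * PW ν W c * Z).trace := by
  have hWp := W_psd hβ hW
  obtain ⟨S, hS, hSW⟩ := exists_sq hWp
  have hSs := psd_isSymm hS
  have h1 := hs2_left (L := Θ) (S := S) (t := τ) (by rw [hSs, hSW, hΘs]; exact hΘ)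
    (PW ν W c * Z)
  have h2 := (psd_conj (PW_quad hν hWp c) Zᵀ).trace_nonneg
  rw [transpose_transpose] at h2
  have hPs := psd_isSymm (PW_psd hν hWp c)
  have e : hs2 (S * (PW ν W c * Z)) = (Zᵀ * (PW ν W c * W * PW ν W c) * Z).trace := by
    rw [hs2, transpose_mul, transpose_mul, hPs, hSs, ← hSW]
    simp only [Matrix.mul_assoc]
  rw [Matrix.mul_sub, Matrix.sub_mul, trace_sub, Matrix.mul_smul, Matrix.smul_mul, trace_smul,
    smul_eq_mul] at h2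
  have h3 : hs2 (S * (PW ν W c * Z)) ≤ ν⁻¹ * (Zᵀ * PW ν W c * Z).trace := by
    rw [e, inv_mul_eq_div, le_div_iff₀ hν]
    linarith
  calc _ ≤ τ * hs2 (S * (PW ν W c * Z)) := h1
    _ ≤ τ * (ν⁻¹ * (Zᵀ * PW ν W c * Z).trace) := mul_le_mul_of_nonneg_left h3 hτ
    _ = _ := by ring

include hν hβ hW in
/-- `tr (Zᵀ P Z) ≤ (ν β)⁻¹ |Z|²` -/
theorem PW_op (Z : Matrix m m ℝ) : (Zᵀ * PW ν W c * Z).trace ≤ (ν * β)⁻¹ * hs2 Z := by
  have hWp := W_psd hβ hW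
  have hP := PW_psd hν hWp c
  have hPs := psd_isSymm hP
  set P := PW ν W c with hPd
  set γ := ν * β with hγ
  have hγ0 : 0 < γ := mul_pos hν hβ
  have h1 : (P - γ • (P * P)).PosSemidef := by
    have a1 := PW_quad hν hWp c
    have a2 := (psd_conj_symm hW hPs).smul hν.le
    have e : P - γ • (P * P) = P - ν • (P * W * P) + ν • (P * (W - β • 1) * P) := by
      rw [Matrix.mul_sub, Matrix.sub_mul, Matrix.mul_smul, Matrix.mul_one, Matrix.smul_mul,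
        smul_sub, smul_smul, ← hγ]
      abel
    rw [e]
    exact a1.add a2
  have h2 : (γ⁻¹ • (1 : Matrix m m ℝ) - P).PosSemidef := by
    have hq : ((1 : Matrix m m ℝ) - γ • P)ᵀ = 1 - γ • P := by
      rw [transpose_sub, transpose_one, transpose_smul, hPs]
    have a1 := (psd_sq hq).smul (inv_nonneg.2 hγ0.le)
    have e : γ⁻¹ • (1 : Matrix m m ℝ) - P =
        γ⁻¹ • ((1 - γ • P) * (1 - γ • P)) + (P - γ • (P * P)) := by
      have e1 : ((1 : Matrix m m ℝ) - γ • P) * (1 - γ • P) =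
          1 - (2 * γ) • P + (γ * γ) • (P * P) := by
        simp only [Matrix.mul_sub, Matrix.sub_mul, Matrix.mul_smul, Matrix.smul_mul,
          Matrix.mul_one, Matrix.one_mul]
        module
      rw [e1, smul_add, smul_sub, smul_smul, smul_smul]
      have e2 : γ⁻¹ * (2 * γ) = 2 := by field_simp
      have e3 : γ⁻¹ * (γ * γ) = γ := by field_simp
      rw [e2, e3]
      module
    rw [e]
    exact a1.add h1
  have h3 := (psd_conj h2 Zᵀ).trace_nonneg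
  rw [transpose_transpose, Matrix.mul_sub, Matrix.sub_mul, trace_sub, Matrix.mul_smul,
    Matrix.mul_one, Matrix.smul_mul, trace_smul, smul_eq_mul] at h3
  rw [hs2]
  linarith

omit [DecidableEq m] in
include hν in
theorem PW_X {W : Matrix m m ℝ} (hWp : W.PosSemidef) (Z : Matrix m m ℝ) :
    (Zᵀ * PW ν W c * Z).trace ≤ hs2 (cᵀ * Z) := by
  have h1 := (psd_conj (PW_le hν hWp c) Zᵀ).trace_nonneg
  rw [transpose_transpose, Matrix.mul_sub, Matrix.sub_mul, trace_sub] at h1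
  have e : hs2 (cᵀ * Z) = (Zᵀ * (c * cᵀ) * Z).trace := by
    rw [hs2, transpose_mul, transpose_transpose]
    simp only [Matrix.mul_assoc]
  rw [e]
  linarith

theorem hs2_add3 (A B C : Matrix m n ℝ) : hs2 (A + B + C) ≤ 3 * (hs2 A + hs2 B + hs2 C) := by
  rw [hs2_eq, hs2_eq, hs2_eq, hs2_eq, ← sum_add_distrib, ← sum_add_distrib, mul_sum]
  refine sum_le_sum fun j _ => ?_
  rw [← sum_add_distrib, ← sum_add_distrib, mul_sum]
  refine sum_le_sum fun i _ => ?_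
  rw [Matrix.add_apply, Matrix.add_apply]
  nlinarith [sq_nonneg (A i j - B i j), sq_nonneg (A i j - C i j), sq_nonneg (B i j - C i j)]

/-- **the moved part** -/
theorem pw_moved (hν : 0 < ν) (hβ : 0 < β) (hτ : 0 ≤ τ) (hW : (W - β • 1).PosSemidef)
    (hΘs : Θᵀ = Θ) (hΘ : (τ • W - Θ * Θ).PosSemidef) {δ : Matrix m m ℝ} (hδ : δᵀ = δ)
    (hW' : (W + δ - β • 1).PosSemidef)
    (hΘ' : (τ • (W + δ) - (Θ + δ) * (Θ + δ)).PosSemidef) :
    hs2 (pw ν (Θ + δ) (W + δ) c - pw ν Θ W c) ≤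
      3 * (τ * ν⁻¹) * (2 + τ * β⁻¹) * hs2 (δ * c) := by
  have hWp := W_psd hβ hW
  have hWp' := W_psd hβ hW'
  have hΘs' : (Θ + δ)ᵀ = Θ + δ := by rw [transpose_add, hΘs, hδ]
  set P := PW ν W c with hP
  set P' := PW ν (W + δ) c with hP'
  have hPs : Pᵀ = P := psd_isSymm (PW_psd hν hWp c)
  have hPs' : P'ᵀ = P' := psd_isSymm (PW_psd hν hWp' c)
  have hd := PW_diff hν hWp' c hWp
  rw [← hP, ← hP'] at hd
  have hd' : P' = P - ν • (P * δ * P') := by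
    have e : W - (W + δ) = -δ := by abel
    rw [e, Matrix.mul_neg, Matrix.neg_mul, smul_neg, neg_neg] at hd
    rw [← hd]
    abel
  have key : pw ν (Θ + δ) (W + δ) c - pw ν Θ W c =
      δ * P' * (Θ + δ) + -(ν • (Θ * (P * (δ * P' * (Θ + δ))))) + Θ * (P * δ) := by
    rw [pw_eq, pw_eq, ← hP, ← hP']
    have e1 : Θ * P' * (Θ + δ) = Θ * P * (Θ + δ) - ν • (Θ * (P * (δ * P' * (Θ + δ)))) := by
      conv_lhs => rw [hd']
      simp only [Matrix.mul_sub, Matrix.sub_mul, Matrix.mul_smul, Matrix.smul_mul,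
        Matrix.mul_assoc]
    rw [Matrix.add_mul Θ δ P', Matrix.add_mul, e1, Matrix.mul_add (Θ * P)]
    simp only [Matrix.mul_assoc]
    abel
  have hX : hs2 (cᵀ * δ) = hs2 (δ * c) := by
    rw [← hs2_transpose, transpose_mul, transpose_transpose, hδ]
  have b1 : hs2 (δ * P' * (Θ + δ)) ≤ τ * ν⁻¹ * hs2 (δ * c) := by
    have h1 := ThP hν hβ hτ hW' hΘs' hΘ' c δ
    have h2 := PW_X hν c hWp' δ
    have e : hs2 (δ * P' * (Θ + δ)) = hs2 ((Θ + δ) * (P' * δ)) := by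
      rw [← hs2_transpose, transpose_mul, transpose_mul, hΘs', hPs', hδ]
    rw [e]
    refine h1.trans ?_
    rw [hX] at h2
    exact mul_le_mul_of_nonneg_left h2 (mul_nonneg hτ (inv_nonneg.2 hν.le))
  have b2 : hs2 (-(ν • (Θ * (P * (δ * P' * (Θ + δ)))))) ≤
      τ * β⁻¹ * hs2 (δ * P' * (Θ + δ)) := by
    rw [hs2_neg, hs2_smul]
    have h1 := ThP hν hβ hτ hW hΘs hΘ c (δ * P' * (Θ + δ))
    have h2 := PW_op hν hβ hW c (δ * P' * (Θ + δ))
    have h3 := mul_le_mul_of_nonneg_left (h1.trans (mul_le_mul_of_nonneg_left h2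
      (mul_nonneg hτ (inv_nonneg.2 hν.le)))) (sq_nonneg ν)
    refine h3.trans (le_of_eq ?_)
    rw [mul_inv]
    field_simp
  have b3 : hs2 (Θ * (P * δ)) ≤ τ * ν⁻¹ * hs2 (δ * c) := by
    have h1 := ThP hν hβ hτ hW hΘs hΘ c δ
    have h2 := PW_X hν c hWp δ
    rw [hX] at h2
    exact h1.trans (mul_le_mul_of_nonneg_left h2 (mul_nonneg hτ (inv_nonneg.2 hν.le)))
  rw [key]
  refine (hs2_add3 _ _ _).trans ?_
  have b4 := mul_le_mul_of_nonneg_left b1 (mul_nonneg hτ (inv_nonneg.2 hβ.le))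
  have b5 := b2.trans b4
  nlinarith

/-- **the static part** -/
theorem pw_static (hν : 0 < ν) (hβ : 0 < β) (hτ : 0 ≤ τ) (hW : (W - β • 1).PosSemidef)
    (hΘs : Θᵀ = Θ) (hΘ : (τ • W - Θ * Θ).PosSemidef) {S : Matrix m m ℝ} (hS : S.PosSemidef)
    (hSW : S * S = W) (c' : Matrix m n₀ ℝ) :
    hs2 (pw ν Θ W c' - pw ν Θ W c) ≤ τ ^ 2 * (ν⁻¹) ^ 2 *
      hs2 (phi (ν • (S * (c' * c'ᵀ) * S)) - phi (ν • (S * (c * cᵀ) * S))) := by
  have hSs := psd_isSymm hS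
  have hWd : W.PosDef := by
    have e : W = β • 1 + (W - β • 1) := by abel
    rw [e]
    exact (PosDef.one.smul hβ).add_posSemidef hW
  have hSu : IsUnit S.det := by
    have h1 := hWd.det_pos
    rw [← hSW, det_mul] at h1
    exact (ne_of_gt (by nlinarith [h1] : 0 < S.det * S.det) |> fun h =>
      isUnit_iff_ne_zero.2 fun h0 => h (by rw [h0, zero_mul]))
  have h1 : S⁻¹ * S = 1 := Matrix.nonsing_inv_mul _ hSu
  have h2 : S * S⁻¹ = 1 := Matrix.mul_nonsing_inv _ hSu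
  have hSi : (S⁻¹)ᵀ = S⁻¹ := by rw [transpose_nonsing_inv, hSs]
  set H := phi (ν • (S * (c' * c'ᵀ) * S)) - phi (ν • (S * (c * cᵀ) * S)) with hH
  have q1 : (ν • (S * (c' * c'ᵀ) * S)).PosSemidef :=
    (psd_conj_symm (psd_mul_transpose c') hSs).smul hν.le
  have q2 : (ν • (S * (c * cᵀ) * S)).PosSemidef :=
    (psd_conj_symm (psd_mul_transpose c) hSs).smul hν.le
  have hHs : Hᵀ = H := by rw [hH, transpose_sub, phi_symm q1, phi_symm q2]
  have e0 : pw ν Θ W c' - pw ν Θ W c = ν⁻¹ • (Θ * (S⁻¹ * (H * (S⁻¹ * Θ)))) := by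
    rw [pw_eq, pw_eq, ← hSW, PW_phi hν c' hSs hSi h1 h2, PW_phi hν c hSs hSi h1 h2, hH]
    simp only [Matrix.mul_smul, Matrix.smul_mul, Matrix.mul_sub, Matrix.sub_mul, smul_sub,
      Matrix.mul_assoc]
  have hL : (τ • (Sᵀ * S) - Θᵀ * Θ).PosSemidef := by rw [hSs, hSW, hΘs]; exact hΘ
  have a1 := hs2_left hL (S⁻¹ * (H * (S⁻¹ * Θ)))
  have a2 : S * (S⁻¹ * (H * (S⁻¹ * Θ))) = H * (S⁻¹ * Θ) := by
    rw [← Matrix.mul_assoc, h2, Matrix.one_mul]
  have a3 : hs2 (H * (S⁻¹ * Θ)) = hs2 (Θ * (S⁻¹ * H)) := by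
    rw [← hs2_transpose, transpose_mul, transpose_mul, hHs, hSi, hΘs, Matrix.mul_assoc]
  have a4 := hs2_left hL (S⁻¹ * H)
  have a5 : S * (S⁻¹ * H) = H := by rw [← Matrix.mul_assoc, h2, Matrix.one_mul]
  rw [a2, a3] at a1
  rw [a5] at a4
  rw [e0, hs2_smul]
  have a6 := a1.trans (mul_le_mul_of_nonneg_left a4 hτ)
  have a7 := mul_le_mul_of_nonneg_left a6 (sq_nonneg ν⁻¹)
  refine a7.trans (le_of_eq ?_)
  ring

end moved

omit [Fintype n] in
/-- variation of `phi` in a halving -/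
theorem phi_var {X₀ X₁ : Matrix m m ℝ} (h0 : X₀.PosSemidef) (h1 : X₁.PosSemidef) :
    hs2 (phi X₀ - phi ((1 / 2 : ℝ) • (X₀ + X₁))) + hs2 (phi X₁ - phi ((1 / 2 : ℝ) • (X₀ + X₁))) ≤
      4 * (delt X₀ X₁).trace := by
  have hd := delt_psd h0 h1
  have hds := psd_isSymm hd
  have hh : (hdiff X₀ X₁)ᵀ = hdiff X₀ X₁ := by
    rw [hdiff, transpose_smul, transpose_sub, phi_symm h0, phi_symm h1]
  have e0 : phi X₀ - phi ((1 / 2 : ℝ) • (X₀ + X₁)) = hdiff X₀ X₁ - delt X₀ X₁ := by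
    rw [hdiff, delt]; module
  have e1 : phi X₁ - phi ((1 / 2 : ℝ) • (X₀ + X₁)) = -(hdiff X₀ X₁ + delt X₀ X₁) := by
    rw [hdiff, delt]; module
  have t1 := (delt_sub_sq_psd h0 h1).trace_nonneg
  have t2 : (delt X₀ X₁ * delt X₀ X₁).trace ≤ (delt X₀ X₁).trace := by
    have h2 : (1 - delt X₀ X₁).PosSemidef := by
      have e : 1 - delt X₀ X₁ = (1 - phi ((1 / 2 : ℝ) • (X₀ + X₁))) +
          (1 / 2 : ℝ) • (phi X₀ + phi X₁) := by rw [delt]; abel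
      rw [e]
      exact (one_sub_phi_psd (half_psd h0 h1)).add
        (((phi_psd h0).add (phi_psd h1)).smul (by norm_num))
    have h3 := trace_mul_le_right hd h2
    rwa [Matrix.mul_one] at h3
  rw [trace_sub] at t1
  rw [e0, e1, hs2_neg, hs2, hs2, transpose_sub, transpose_add, hh, hds]
  simp only [Matrix.mul_sub, Matrix.sub_mul, Matrix.mul_add, Matrix.add_mul, trace_add, trace_sub]
  linarith

/-- **variation of the partner in an outer halving** -/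
theorem pw_step {ν β τ : ℝ} (hν : 0 < ν) (hβ : 0 < β) (hτ : 0 ≤ τ) {W Θ : Matrix m m ℝ}
    (hW : (W - β • 1).PosSemidef) (hΘs : Θᵀ = Θ) (hΘ : (τ • W - Θ * Θ).PosSemidef)
    {S : Matrix m m ℝ} (hS : S.PosSemidef) (hSW : S * S = W)
    {c₀ : Matrix m n₀ ℝ} {c₁ : Matrix m n₁ ℝ} {cp : Matrix m n ℝ}
    (hc : cp * cpᵀ = (1 / 2 : ℝ) • (c₀ * c₀ᵀ + c₁ * c₁ᵀ)) {δ₀ δ₁ : Matrix m m ℝ}
    (hδ₀ : δ₀ᵀ = δ₀) (hδ₁ : δ₁ᵀ = δ₁)
    (hW₀ : (W + δ₀ - β • 1).PosSemidef) (hΘ₀ : (τ • (W + δ₀) - (Θ + δ₀) * (Θ + δ₀)).PosSemidef)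
    (hW₁ : (W + δ₁ - β • 1).PosSemidef) (hΘ₁ : (τ • (W + δ₁) - (Θ + δ₁) * (Θ + δ₁)).PosSemidef) :
    hs2 (pw ν (Θ + δ₀) (W + δ₀) c₀ - pw ν Θ W cp) +
      hs2 (pw ν (Θ + δ₁) (W + δ₁) c₁ - pw ν Θ W cp) ≤
    8 * (τ ^ 2 * (ν⁻¹) ^ 2) * (delt (ν • (S * (c₀ * c₀ᵀ) * S)) (ν • (S * (c₁ * c₁ᵀ) * S))).trace +
      6 * (τ * ν⁻¹) * (2 + τ * β⁻¹) * (hs2 (δ₀ * c₀) + hs2 (δ₁ * c₁)) := by
  have hSs := psd_isSymm hS
  have m0 := pw_moved (c := c₀) hν hβ hτ hW hΘs hΘ hδ₀ hW₀ hΘ₀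
  have m1 := pw_moved (c := c₁) hν hβ hτ hW hΘs hΘ hδ₁ hW₁ hΘ₁
  have s0 := pw_static (c := cp) hν hβ hτ hW hΘs hΘ hS hSW c₀
  have s1 := pw_static (c := cp) hν hβ hτ hW hΘs hΘ hS hSW c₁
  have q0 : (ν • (S * (c₀ * c₀ᵀ) * S)).PosSemidef :=
    (psd_conj_symm (psd_mul_transpose c₀) hSs).smul hν.le
  have q1 : (ν • (S * (c₁ * c₁ᵀ) * S)).PosSemidef :=
    (psd_conj_symm (psd_mul_transpose c₁) hSs).smul hν.le
  have ep : ν • (S * (cp * cpᵀ) * S) =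
      (1 / 2 : ℝ) • (ν • (S * (c₀ * c₀ᵀ) * S) + ν • (S * (c₁ * c₁ᵀ) * S)) := by
    rw [hc, Matrix.mul_smul, Matrix.smul_mul, Matrix.mul_add, Matrix.add_mul, smul_comm,
      smul_add]
  rw [ep] at s0 s1
  have v := phi_var q0 q1
  have a0 := hs2_add (pw ν (Θ + δ₀) (W + δ₀) c₀ - pw ν Θ W c₀) (pw ν Θ W c₀ - pw ν Θ W cp)
  have a1 := hs2_add (pw ν (Θ + δ₁) (W + δ₁) c₁ - pw ν Θ W c₁) (pw ν Θ W c₁ - pw ν Θ W cp)
  rw [sub_add_sub_cancel] at a0 a1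
  have v2 := mul_le_mul_of_nonneg_left v (show 0 ≤ τ ^ 2 * (ν⁻¹) ^ 2 by positivity)
  linarith

end

end Vale.Agent.P141.H784
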