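import Vale.Agent.P141.H784.PwStep
import Vale.Agent.P141.H419.PairW
import Vale.Agent.P141.H389.PlaneV

/-!
# P141, line (A), (TI): variation of the family `pg` in the halving of `x3`

`H784.pw_step` in the letters of `H419.PairW` (Gram matrices, level `s`, weights moved by `-E ± M`).
-/

namespace Vale.Agent.P141.H784

set_option linter.unusedSectionVars false

open Matrix Vale.Agent.P075 Vale.Agent.P141.H505 Vale.Agent.P141.H419.PairW


noncomputable section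

variable {κ : Type*} [Fintype κ] [DecidableEq κ]

theorem pg_pw {s : ℝ} (hs : 0 < s) {Θ W : Matrix κ κ ℝ} (hW : W.PosSemidef) (c : Matrix κ κ ℝ) :
    pg s Θ W (c * cᵀ) = pw s⁻¹ Θ W c := by
  rw [pg_rect hs hW, pw_eq]
  rfl

theorem sq_hs2 {A : Matrix κ κ ℝ} (hA : Aᵀ = A) : H389.sq A = hs2 A := by
  rw [H389.sq, hs2, hA]

/-- **Variation of the family `pg` in an outer halving with moving weights.** -/
theorem pg_step {s β τ : ℝ} (hs : 0 < s) (hβ : 0 < β) (hτ0 : 0 ≤ τ) {Θ S M E : Matrix κ κ ℝ}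
    (hΘ : Θᵀ = Θ) (hS : S.PosSemidef) (hM : Mᵀ = M) (hE : Eᵀ = E)
    (hW : (S * S - β • 1).PosSemidef) (hτ : (τ • (S * S) - Θ * Θ).PosSemidef)
    {G₀ G₁ : Matrix κ κ ℝ} (h0 : G₀.PosSemidef) (h1 : G₁.PosSemidef)
    (p0 : (S * S - E + M - β • 1).PosSemidef) (p1 : (S * S - E - M - β • 1).PosSemidef)
    (t0 : (τ • (S * S - E + M) - (Θ - E + M) * (Θ - E + M)).PosSemidef)
    (t1 : (τ • (S * S - E - M) - (Θ - E - M) * (Θ - E - M)).PosSemidef) :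
    H389.sq (pg s (Θ - E + M) (S * S - E + M) G₀ - pg s Θ (S * S) ((1 / 2 : ℝ) • (G₀ + G₁))) +
      H389.sq (pg s (Θ - E - M) (S * S - E - M) G₁ - pg s Θ (S * S) ((1 / 2 : ℝ) • (G₀ + G₁))) ≤
    8 * τ ^ 2 * H585.PairCh.dls s (S * G₀ * S) (S * G₁ * S) +
      6 * (τ * s) * (2 + τ * β⁻¹) * (((M - E) * (M - E) * G₀).trace +
        ((M + E) * (M + E) * G₁).trace) := by
  obtain ⟨c₀, hc0, rfl⟩ := exists_sq h0
  obtain ⟨c₁, hc1, rfl⟩ := exists_sq h1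
  have hp := half_psd h0 h1
  obtain ⟨cp, hcp, ecp⟩ := exists_sq hp
  have hc0t := psd_isSymm hc0
  have hc1t := psd_isSymm hc1
  have hcpt := psd_isSymm hcp
  have hν : 0 < s⁻¹ := inv_pos.2 hs
  have hWp : (S * S).PosSemidef := psd_sq (psd_isSymm hS)
  set δ₀ : Matrix κ κ ℝ := -E + M with hδ0
  set δ₁ : Matrix κ κ ℝ := -E - M with hδ1
  have s0 : δ₀ᵀ = δ₀ := by rw [hδ0, transpose_add, transpose_neg, hE, hM]
  have s1 : δ₁ᵀ = δ₁ := by rw [hδ1, transpose_sub, transpose_neg, hE, hM]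
  have e1 : S * S - E + M = S * S + δ₀ := by rw [hδ0]; abel
  have e2 : S * S - E - M = S * S + δ₁ := by rw [hδ1]; abel
  have e3 : Θ - E + M = Θ + δ₀ := by rw [hδ0]; abel
  have e4 : Θ - E - M = Θ + δ₁ := by rw [hδ1]; abel
  rw [e1] at p0 t0 ⊢
  rw [e2] at p1 t1 ⊢
  rw [e3] at t0 ⊢
  rw [e4] at t1 ⊢
  have w0 : (S * S + δ₀).PosSemidef := by
    have e : S * S + δ₀ = (S * S + δ₀ - β • 1) + β • 1 := by abel
    rw [e]
    exact p0.add (PosSemidef.one.smul hβ.le)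
  have w1 : (S * S + δ₁).PosSemidef := by
    have e : S * S + δ₁ = (S * S + δ₁ - β • 1) + β • 1 := by abel
    rw [e]
    exact p1.add (PosSemidef.one.smul hβ.le)
  have q0 := pg_pw (Θ := Θ + δ₀) hs w0 c₀
  have q1 := pg_pw (Θ := Θ + δ₁) hs w1 c₁
  have qp := pg_pw (Θ := Θ) hs hWp cp
  rw [hc0t] at q0
  rw [hc1t] at q1
  rw [hcpt, ecp] at qp
  rw [q0, q1, qp]
  have symP : ∀ {Θ' W' c' : Matrix κ κ ℝ}, Θ'ᵀ = Θ' → W'.PosSemidef →
      (pw s⁻¹ Θ' W' c')ᵀ = pw s⁻¹ Θ' W' c' := by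
    intro Θ' W' c' a b
    rw [pw_eq, transpose_mul, transpose_mul, a, psd_isSymm (PW_psd hν b c'), Matrix.mul_assoc]
  have y0 : (pw s⁻¹ (Θ + δ₀) (S * S + δ₀) c₀ - pw s⁻¹ Θ (S * S) cp)ᵀ =
      pw s⁻¹ (Θ + δ₀) (S * S + δ₀) c₀ - pw s⁻¹ Θ (S * S) cp := by
    rw [transpose_sub, symP (by rw [transpose_add, hΘ, s0]) w0, symP hΘ hWp]
  have y1 : (pw s⁻¹ (Θ + δ₁) (S * S + δ₁) c₁ - pw s⁻¹ Θ (S * S) cp)ᵀ =
      pw s⁻¹ (Θ + δ₁) (S * S + δ₁) c₁ - pw s⁻¹ Θ (S * S) cp := by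
    rw [transpose_sub, symP (by rw [transpose_add, hΘ, s1]) w1, symP hΘ hWp]
  rw [sq_hs2 y0, sq_hs2 y1]
  have key := pw_step (ν := s⁻¹) hν hβ hτ0 hW hΘ hτ hS rfl (c₀ := c₀) (c₁ := c₁) (cp := cp)
    (by rw [hcpt, ecp, hc0t, hc1t]) s0 s1 p0 t0 p1 t1
  rw [inv_inv, hc0t, hc1t] at key
  refine key.trans (le_of_eq ?_)
  have u0 : hs2 (δ₀ * c₀) = ((M - E) * (M - E) * (c₀ * c₀)).trace := by
    have e : M - E = δ₀ := by rw [hδ0]; abel
    rw [e, hs2, transpose_mul, s0, hc0t, Matrix.mul_assoc, trace_mul_comm]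
    simp only [Matrix.mul_assoc]
  have u1 : hs2 (δ₁ * c₁) = ((M + E) * (M + E) * (c₁ * c₁)).trace := by
    have e : M + E = -δ₁ := by rw [hδ1]; abel
    rw [e, hs2, transpose_mul, s1, hc1t, Matrix.mul_assoc, trace_mul_comm, Matrix.neg_mul,
      Matrix.mul_neg, neg_neg]
    simp only [Matrix.mul_assoc]
  rw [u0, u1, H585.PairCh.dls]
  ring

/-- the same, separate terms -/
theorem pg_step' {s β τ : ℝ} (hs : 0 < s) (hβ : 0 < β) (hτ0 : 0 ≤ τ) {Θ S M E : Matrix κ κ ℝ}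
    (hΘ : Θᵀ = Θ) (hS : S.PosSemidef) (hM : Mᵀ = M) (hE : Eᵀ = E)
    (hW : (S * S - β • 1).PosSemidef) (hτ : (τ • (S * S) - Θ * Θ).PosSemidef)
    {G₀ G₁ : Matrix κ κ ℝ} (h0 : G₀.PosSemidef) (h1 : G₁.PosSemidef)
    (p0 : (S * S - E + M - β • 1).PosSemidef) (p1 : (S * S - E - M - β • 1).PosSemidef)
    (t0 : (τ • (S * S - E + M) - (Θ - E + M) * (Θ - E + M)).PosSemidef)
    (t1 : (τ • (S * S - E - M) - (Θ - E - M) * (Θ - E - M)).PosSemidef) :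
    H389.sq (pg s (Θ - E + M) (S * S - E + M) G₀ - pg s Θ (S * S) ((1 / 2 : ℝ) • (G₀ + G₁))) +
      H389.sq (pg s (Θ - E - M) (S * S - E - M) G₁ - pg s Θ (S * S) ((1 / 2 : ℝ) • (G₀ + G₁))) ≤
    8 * τ ^ 2 * H585.PairCh.dls s (S * G₀ * S) (S * G₁ * S) +
      12 * (τ * s) * (2 + τ * β⁻¹) * ((M * M * (G₀ + G₁)).trace + (E * E * (G₀ + G₁)).trace) := by
  refine (pg_step hs hβ hτ0 hΘ hS hM hE hW hτ h0 h1 p0 p1 t0 t1).trans (add_le_add le_rfl ?_)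
  have hk : 0 ≤ 6 * (τ * s) * (2 + τ * β⁻¹) := by positivity
  have a0 : ((M - E) * (M - E) * G₀).trace ≤ 2 * ((M * M * G₀).trace + (E * E * G₀).trace) := by
    have h := trace_mul_nonneg (psd_sq (B := M + E) (by rw [transpose_add, hM, hE])) h0
    simp only [Matrix.mul_add, Matrix.add_mul, Matrix.mul_sub, Matrix.sub_mul, trace_add,
      trace_sub] at h ⊢
    linarith
  have a1 : ((M + E) * (M + E) * G₁).trace ≤ 2 * ((M * M * G₁).trace + (E * E * G₁).trace) := by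
    have h := trace_mul_nonneg (psd_sq (B := M - E) (by rw [transpose_sub, hM, hE])) h1
    simp only [Matrix.mul_add, Matrix.add_mul, Matrix.mul_sub, Matrix.sub_mul, trace_add,
      trace_sub] at h ⊢
    linarith
  have a2 := mul_le_mul_of_nonneg_left (add_le_add a0 a1) hk
  refine a2.trans (le_of_eq ?_)
  rw [Matrix.mul_add (M * M), Matrix.mul_add (E * E), trace_add, trace_add]
  ring

end

end Vale.Agent.P141.H784
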