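import Vale.Agent.P141.H784.BMsum

/-!
# P141, line (A): the moves of `Theta` on the slot `B`, real planes

`x0` in any finite set, all cells of `x3`, the cell of `x2` within `J` of the plane.

* `BM_plane` : the half differences;
* `EB_plane` : the losses.
-/

namespace Vale.Agent.P141.H784

open Matrix Finset
open Vale.Agent.P141.PL (iv mem_iv card_iv ix ix_ix)
open Vale.Agent.P141.H420 (Tr Nd tr_symm trace_mul_nonneg quad_nonneg inv_mul_self' mul_inv_self'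
  inv_G_inv inv_le)
open Vale.Agent.P141.H652 (WT ET WT_in WT_out ET_in ET_out WT_psd WT_le_one in_left in_right
  ET_psd ET_le_WT Fw HdV HdV_nonneg Th Th_mulVec ah eb st st_odd st_even eb_le half_vec'
  drift_vec)

noncomputable section

variable {ι : Type*} [Fintype ι] [DecidableEq ι]
variable {l : ℝ} {N : ℕ} {M : ℤ}

/-- the half difference of the slot is paid by the walk of the cell of its window -/
theorem ah_le (K : ℕ → ℤ → Matrix ι ι ℝ) {k : ℕ} (hk : k < N) (c x0 x1 m : ℤ) (v : ι → ℝ) :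
    (ah l N M K c x0 x1 k m *ᵥ v) ⬝ᵥ (ah l N M K c x0 x1 k m *ᵥ v) ≤
      HdV (fun k q => WT l N M K k q *ᵥ v) (k + 1) (st c x0 x1 (k + 1) m / 2 ^ (k + 1)) := by
  have h2 := half_vec' (drift_vec l N M K v) hk.le
    (a := st c x0 x1 (k + 1) m) (m := st c x0 x1 (k + 1) m / 2 ^ (k + 1)) (by linarith) le_rfl
  have e1 : ah l N M K c x0 x1 k m *ᵥ v =
      -((1 / 2 : ℝ) • (Fw (fun k q => WT l N M K k q *ᵥ v)
        (fun k q => ET l N M K k q *ᵥ v) k (st c x0 x1 (k + 1) m) -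
        Fw (fun k q => WT l N M K k q *ᵥ v)
        (fun k q => ET l N M K k q *ᵥ v) k (st c x0 x1 (k + 1) m + 2 ^ k))) := by
    unfold ah
    rw [smul_mulVec, sub_mulVec, Th_mulVec, Th_mulVec, st_odd, st_even]
    module
  rw [e1, neg_dotProduct, dotProduct_neg, neg_neg]
  exact h2

/-- the cell `m` of `x3` is within `J` of the plane of `x0`, `x1`, `x2` -/
def Tie (k J : ℕ) (c x0 x1 x2 m : ℤ) : Prop := |ix k x0 + ix k x1 + ix k x2 + m - c| ≤ J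

instance (k J : ℕ) (c x0 x1 x2 m : ℤ) : Decidable (Tie k J c x0 x1 x2 m) := by
  unfold Tie; infer_instance

/-- the window of a cell in the plane -/
theorem st_near {k J : ℕ} {o x0 x1 x2 m : ℤ} (ho : o = 1 ∨ o = -1)
    (h : Tie k J (o - 2) x0 x1 x2 m) :
    st (o - 2) x0 x1 k m / 2 ^ k ∈ Icc (ix k x2 - ((J + 3 : ℕ) : ℤ))
      (ix k x2 + ((J + 2 : ℕ) : ℤ)) := by
  have hP : (1 : ℤ) ≤ 2 ^ k := one_le_pow₀ (by norm_num)
  have hP0 : (0 : ℤ) < 2 ^ k := by positivity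
  have h0 := (mem_iv (k := k) (m := ix k x0) (x := x0)).2 rfl
  have h1 := (mem_iv (k := k) (m := ix k x1) (x := x1)).2 rfl
  rw [mem_iv'] at h0 h1
  unfold Tie at h
  unfold st
  rw [abs_le] at h
  generalize ix k x0 = a at *
  generalize ix k x1 = b at *
  generalize ix k x2 = q at *
  generalize (2 : ℤ) ^ k = P at *
  have hc : -3 ≤ o - 2 ∧ o - 2 ≤ -1 := by omega
  have hu : ∀ A B : ℤ, A < (B + 1) * P → A / P ≤ B := by
    intro A B hAB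
    have := (Int.ediv_lt_iff_lt_mul hP0).2 hAB
    omega
  rw [mem_Icc, Int.le_ediv_iff_mul_le hP0]
  refine ⟨?_, hu _ _ ?_⟩ <;> push_cast
  · have h2 : (q - (J + 3)) * P ≤ (o - 2 - 3 - a - b - m) * P :=
      mul_le_mul_of_nonneg_right (by linarith) hP0.le
    rcases ho with rfl | rfl <;> nlinarith
  · have h2 : (o - 2 + 3 - a - b - m) * P ≤ (q + (J + 2) + 1) * P :=
      mul_le_mul_of_nonneg_right (by linarith) hP0.le
    rcases ho with rfl | rfl <;> nlinarith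

/-- weights on the cells near a cell -/
theorem cell_count {W : ℤ → ℝ} (hW0 : ∀ x, 0 ≤ W x) {k : ℕ} {e : ℝ}
    (hW : ∀ j, ∑ x ∈ iv k j, W x ≤ e * 2 ^ k) (X : Finset ℤ) (J : ℕ) (a : ℤ) :
    ∑ x ∈ X.filter (fun x => |ix k x + a| ≤ J), W x ≤ (2 * J + 1) * (e * 2 ^ k) := by
  have h1 : ∀ x ∈ X.filter (fun x => |ix k x + a| ≤ J), ix k x ∈ Icc (-a - (J : ℤ)) (-a + J) := by
    intro x hx
    have h2 := (mem_filter.1 hx).2
    rw [abs_le] at h2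
    rw [mem_Icc]
    omega
  rw [← sum_fiberwise_of_maps_to h1]
  have h3 : ∀ j ∈ Icc (-a - (J : ℤ)) (-a + J),
      ∑ x ∈ (X.filter (fun x => |ix k x + a| ≤ J)).filter (fun x => ix k x = j), W x ≤
        e * 2 ^ k := by
    intro j _
    refine (sum_le_sum_of_subset_of_nonneg (fun x hx => ?_) fun x _ _ => hW0 x).trans (hW j)
    exact mem_iv.2 (mem_filter.1 hx).2
  refine (sum_le_sum h3).trans (le_of_eq ?_)
  rw [sum_const, Int.card_Icc, nsmul_eq_mul]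
  have h4 : (-a + J + 1 - (-a - J)).toNat = 2 * J + 1 := by omega
  rw [h4]
  push_cast
  ring

/-- **sums over the cells near the plane** -/
theorem plane_dom {K J R : ℕ} {S S3 : ℤ} (c : ℤ) (X Y : Finset ℤ)
    {f : ℕ → ℤ → ℤ → ℤ → ℤ → ℝ} {Φ : ℕ → ℤ → ℤ → ℤ → ℝ}
    (hΦ0 : ∀ x1 ∈ Y, ∀ k ∈ Icc 1 K, ∀ q x2, 0 ≤ Φ k q x1 x2)
    (hf : ∀ x1 ∈ Y, ∀ k ∈ Icc 1 K, ∀ x0 x2 m, Tie k J c x0 x1 x2 m →
      f k x0 x1 x2 m ≤ ∑ q ∈ Icc (ix k x2 - (R : ℤ)) (ix k x2 + R), Φ k q x1 x2)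
    {W : ℕ → ℤ → ℤ → ℤ → ℝ} {e : ℝ} (hW0 : ∀ k x0 x1 x2, 0 ≤ W k x0 x1 x2)
    (hW : ∀ k ∈ Icc 1 K, ∀ j x1 x2, ∑ x0 ∈ iv k j, W k x0 x1 x2 ≤ e * 2 ^ k) :
    ∑ x0 ∈ X, ∑ x1 ∈ Y, ∑ k ∈ Icc 1 K, ∑ m ∈ iv (K - k) S3,
      ∑ x2 ∈ (iv K S).filter (fun x2 => Tie k J c x0 x1 x2 m), W k x0 x1 x2 * f k x0 x1 x2 m ≤
    (2 * J + 1) * e * (2 ^ K * ∑ x1 ∈ Y, ∑ k ∈ Icc 1 K, ∑ p ∈ iv (K - k) S,
      ∑ q ∈ Icc (p - (R : ℤ)) (p + R), ∑ x2 ∈ iv k p, Φ k q x1 x2) := by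
  rw [sum_comm, mul_sum, mul_sum]
  refine sum_le_sum fun x1 h1 => ?_
  rw [sum_comm, mul_sum, mul_sum]
  refine sum_le_sum fun k hk => ?_
  have hk' := mem_Icc.1 hk
  -- one scale
  have a1 : ∀ x0 ∈ X, ∑ m ∈ iv (K - k) S3,
      ∑ x2 ∈ (iv K S).filter (fun x2 => Tie k J c x0 x1 x2 m), W k x0 x1 x2 * f k x0 x1 x2 m ≤
      ∑ m ∈ iv (K - k) S3, ∑ x2 ∈ iv K S, (if Tie k J c x0 x1 x2 m then W k x0 x1 x2 else 0) *
        ∑ q ∈ Icc (ix k x2 - (R : ℤ)) (ix k x2 + R), Φ k q x1 x2 := by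
    intro x0 _
    refine sum_le_sum fun m _ => ?_
    rw [sum_filter]
    refine sum_le_sum fun x2 _ => ?_
    split_ifs with ht
    · exact mul_le_mul_of_nonneg_left (hf x1 h1 k hk x0 x2 m ht) (hW0 _ _ _ _)
    · rw [zero_mul]
  refine (sum_le_sum a1).trans ?_
  have a2 : ∑ x0 ∈ X, ∑ m ∈ iv (K - k) S3, ∑ x2 ∈ iv K S,
      (if Tie k J c x0 x1 x2 m then W k x0 x1 x2 else 0) *
        ∑ q ∈ Icc (ix k x2 - (R : ℤ)) (ix k x2 + R), Φ k q x1 x2 =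
      ∑ x2 ∈ iv K S, (∑ m ∈ iv (K - k) S3, ∑ x0 ∈ X.filter (fun x0 =>
        |ix k x0 + (ix k x1 + ix k x2 + m - c)| ≤ J), W k x0 x1 x2) *
        ∑ q ∈ Icc (ix k x2 - (R : ℤ)) (ix k x2 + R), Φ k q x1 x2 := by
    rw [sum_comm]
    have e1 : ∀ m ∈ iv (K - k) S3, ∑ x0 ∈ X, ∑ x2 ∈ iv K S,
        (if Tie k J c x0 x1 x2 m then W k x0 x1 x2 else 0) *
          ∑ q ∈ Icc (ix k x2 - (R : ℤ)) (ix k x2 + R), Φ k q x1 x2 =
        ∑ x2 ∈ iv K S, (∑ x0 ∈ X.filter (fun x0 =>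
          |ix k x0 + (ix k x1 + ix k x2 + m - c)| ≤ J), W k x0 x1 x2) *
          ∑ q ∈ Icc (ix k x2 - (R : ℤ)) (ix k x2 + R), Φ k q x1 x2 := by
      intro m _
      rw [sum_comm]
      refine sum_congr rfl fun x2 _ => ?_
      rw [← sum_mul, sum_filter]
      congr 1
      refine sum_congr rfl fun x0 _ => ?_
      have e2 : ix k x0 + (ix k x1 + ix k x2 + m - c) = ix k x0 + ix k x1 + ix k x2 + m - c := by
        ring
      rw [e2]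
      rfl
    rw [sum_congr rfl e1, sum_comm]
    refine sum_congr rfl fun x2 _ => ?_
    rw [sum_mul]
  rw [a2]
  have a3 : ∀ x2 ∈ iv K S, (∑ m ∈ iv (K - k) S3, ∑ x0 ∈ X.filter (fun x0 =>
        |ix k x0 + (ix k x1 + ix k x2 + m - c)| ≤ J), W k x0 x1 x2) *
        ∑ q ∈ Icc (ix k x2 - (R : ℤ)) (ix k x2 + R), Φ k q x1 x2 ≤
      (2 * J + 1) * e * 2 ^ K * ∑ q ∈ Icc (ix k x2 - (R : ℤ)) (ix k x2 + R), Φ k q x1 x2 := by
    intro x2 _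
    refine mul_le_mul_of_nonneg_right ?_ (sum_nonneg fun q _ => hΦ0 x1 h1 k hk q x2)
    have b1 : ∀ m ∈ iv (K - k) S3, ∑ x0 ∈ X.filter (fun x0 =>
        |ix k x0 + (ix k x1 + ix k x2 + m - c)| ≤ J), W k x0 x1 x2 ≤
        (2 * J + 1) * (e * 2 ^ k) := fun m _ =>
      cell_count (fun x => hW0 k x x1 x2) (fun j => hW k hk j x1 x2) X J _
    refine (sum_le_sum b1).trans (le_of_eq ?_)
    rw [sum_const, card_iv, nsmul_eq_mul]
    have e3 : (2 : ℝ) ^ K = 2 ^ (K - k) * 2 ^ k := by rw [← pow_add]; congr 1; omega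
    rw [e3]
    push_cast
    ring
  refine (sum_le_sum a3).trans (le_of_eq ?_)
  rw [← mul_sum, ← mul_assoc]
  congr 1
  -- the cells of `x2`
  have e4 : ∀ g : ℤ → ℝ, ∑ x2 ∈ iv K S, g x2 = ∑ p ∈ iv (K - k) S, ∑ x2 ∈ iv k p, g x2 := by
    intro g
    have h2 : ∀ x ∈ iv K S, ix k x ∈ iv (K - k) S := by
      intro x hx
      rw [mem_iv] at hx ⊢
      rw [ix_ix, Nat.add_sub_cancel' hk'.2]
      exact hx
    rw [← sum_fiberwise_of_maps_to h2]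
    refine sum_congr rfl fun p hp => sum_congr ?_ fun _ _ => rfl
    ext x
    rw [mem_filter, mem_iv, mem_iv]
    constructor
    · exact fun h => h.2
    · intro h
      refine ⟨?_, h⟩
      rw [mem_iv, ← h, ix_ix, Nat.add_sub_cancel' hk'.2] at hp
      exact hp
  rw [e4]
  refine sum_congr rfl fun p _ => ?_
  rw [sum_comm]
  refine sum_congr rfl fun x2 hx2 => ?_
  rw [mem_iv.1 hx2]

section planes

variable {K J : ℕ} {S S3 : ℤ} {G Kq : ℤ → ℕ → ℤ → Matrix ι ι ℝ} {u : ℤ → ℤ → ι → ℝ}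

/-- **the half differences on the slot `B`**, all cells of `x3` within `J` of the plane -/
theorem BM_plane {o : ℤ} (ho : o = 1 ∨ o = -1) (X Y : Finset ℤ)
    (hT : ∀ x1 ∈ Y, Tr l K (G x1) (Kq x1))
    (hG : ∀ x1 ∈ Y, ∀ k ≤ K, ∀ p, G x1 k p =
      ((2 : ℝ) ^ k)⁻¹ • ∑ x2 ∈ iv k p, vecMulVec (u x1 x2) (u x1 x2))
    {W : ℕ → ℤ → ℤ → ℤ → ℝ} {e : ℝ} (he : 0 ≤ e) (hW0 : ∀ k x0 x1 x2, 0 ≤ W k x0 x1 x2)
    (hW : ∀ k ∈ Icc 1 K, ∀ j x1 x2, ∑ x0 ∈ iv k j, W k x0 x1 x2 ≤ e * 2 ^ k) :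
    ∑ x0 ∈ X, ∑ x1 ∈ Y, ∑ k ∈ Icc 1 K, ∑ m ∈ iv (K - k) S3,
      ∑ x2 ∈ (iv K S).filter (fun x2 => Tie k J (o - 2) x0 x1 x2 m), W k x0 x1 x2 *
        ((ah l K S (Kq x1) (o - 2) x0 x1 (k - 1) m *ᵥ u x1 x2) ⬝ᵥ
        (ah l K S (Kq x1) (o - 2) x0 x1 (k - 1) m *ᵥ u x1 x2)) ≤
    (2 * J + 1) * e * (2 ^ K * ∑ x1 ∈ Y,
      33000 * (4 * J + 25) ^ 3 * (DK K S (Kq x1) + Bd K S (G x1))) := by
  refine (plane_dom (R := J + 3) (o - 2) X Y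
    (f := fun k x0 x1 x2 m => (ah l K S (Kq x1) (o - 2) x0 x1 (k - 1) m *ᵥ u x1 x2) ⬝ᵥ
        (ah l K S (Kq x1) (o - 2) x0 x1 (k - 1) m *ᵥ u x1 x2))
    (Φ := fun k q x1 x2 => HdV (fun k q => WT l K S (Kq x1) k q *ᵥ u x1 x2) k q)
    (fun x1 _ k _ q x2 => HdV_nonneg _ _ _) (fun x1 _ k hk x0 x2 m ht => ?_) hW0 hW).trans ?_
  · obtain ⟨j, rfl⟩ : ∃ j, k = j + 1 := ⟨k - 1, by have := (mem_Icc.1 hk).1; omega⟩
    have hj : j < K := by have := (mem_Icc.1 hk).2; omega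
    have h1 := ah_le (M := S) (l := l) (Kq x1) hj (o - 2) x0 x1 m (u x1 x2)
    have h2 := st_near ho ht
    rw [Nat.add_sub_cancel]
    refine h1.trans (single_le_sum (f := fun q =>
      HdV (fun k q => WT l K S (Kq x1) k q *ᵥ u x1 x2) (j + 1) q)
      (fun q _ => HdV_nonneg _ _ _) ?_)
    rw [mem_Icc] at h2 ⊢
    push_cast at h2 ⊢
    omega
  · refine mul_le_mul_of_nonneg_left (mul_le_mul_of_nonneg_left (sum_le_sum fun x1 h1 => ?_)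
      (by positivity)) (by positivity)
    have h3 := BM_half (M := S) (hT x1 h1) (u := u x1) (hG x1 h1) (J + 3)
    have e1 : ∀ g : ℕ → ℝ, ∑ k ∈ Icc 1 K, g k = ∑ k ∈ range K, g (k + 1) := by
      intro g
      rw [range_eq_Ico, sum_Ico_add' g 0 K 1]
      rfl
    rw [e1]
    refine h3.trans (le_of_eq ?_)
    push_cast
    ring

/-- **the losses on the slot `B`**, all cells of `x3` within `J` of the plane -/
theorem EB_plane {o : ℤ} (ho : o = 1 ∨ o = -1) (X Y : Finset ℤ)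
    (hT : ∀ x1 ∈ Y, Tr l K (G x1) (Kq x1))
    (hG : ∀ x1 ∈ Y, ∀ k ≤ K, ∀ p, G x1 k p =
      ((2 : ℝ) ^ k)⁻¹ • ∑ x2 ∈ iv k p, vecMulVec (u x1 x2) (u x1 x2))
    {W : ℕ → ℤ → ℤ → ℤ → ℝ} {e : ℝ} (he : 0 ≤ e) (hW0 : ∀ k x0 x1 x2, 0 ≤ W k x0 x1 x2)
    (hW : ∀ k ∈ Icc 1 K, ∀ j x1 x2, ∑ x0 ∈ iv k j, W k x0 x1 x2 ≤ e * 2 ^ k) :
    ∑ x0 ∈ X, ∑ x1 ∈ Y, ∑ k ∈ Icc 1 K, ∑ m ∈ iv (K - k) S3,
      ∑ x2 ∈ (iv K S).filter (fun x2 => Tie k J (o - 2) x0 x1 x2 m), W k x0 x1 x2 *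
        (u x1 x2 ⬝ᵥ eb l K S (Kq x1) (o - 2) x0 x1 k m *ᵥ u x1 x2) ≤
    (2 * J + 1) * e * (2 ^ K * ∑ x1 ∈ Y,
      260 * (2 * J + 7) ^ 3 * (DK K S (Kq x1) + Bd K S (G x1))) := by
  refine (plane_dom (R := J + 3) (o - 2) X Y
    (f := fun k x0 x1 x2 m => u x1 x2 ⬝ᵥ eb l K S (Kq x1) (o - 2) x0 x1 k m *ᵥ u x1 x2)
    (Φ := fun k q x1 x2 => u x1 x2 ⬝ᵥ ET l K S (Kq x1) k q *ᵥ u x1 x2)
    (fun x1 h1 k _ q x2 => quad_nonneg (ET_psd (hT x1 h1) k q) _)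
    (fun x1 h1 k hk x0 x2 m ht => ?_) hW0 hW).trans ?_
  · have h2 := st_near ho ht
    have h4 := quad_nonneg (eb_le (M := S) (hT x1 h1) (o - 2) x0 x1 k m) (u x1 x2)
    rw [sub_mulVec, dotProduct_sub, add_mulVec, dotProduct_add] at h4
    have hsub : ({st (o - 2) x0 x1 k m / 2 ^ k, st (o - 2) x0 x1 k m / 2 ^ k + 1} : Finset ℤ) ⊆
        Icc (ix k x2 - ((J + 3 : ℕ) : ℤ)) (ix k x2 + ((J + 3 : ℕ) : ℤ)) := by
      intro y hy
      rw [mem_insert, mem_singleton] at hy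
      rw [mem_Icc] at h2 ⊢
      push_cast at h2 ⊢
      omega
    have h5 := sum_le_sum_of_subset_of_nonneg (f := fun q =>
      u x1 x2 ⬝ᵥ ET l K S (Kq x1) k q *ᵥ u x1 x2) hsub
      (fun q _ _ => quad_nonneg (ET_psd (M := S) (hT x1 h1) k q) _)
    rw [sum_pair (by omega)] at h5
    linarith
  · refine mul_le_mul_of_nonneg_left (mul_le_mul_of_nonneg_left (sum_le_sum fun x1 h1 => ?_)
      (by positivity)) (by positivity)
    have h3 := BM_drift (M := S) (hT x1 h1) (u := u x1) (hG x1 h1) (J + 3)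
    have e1 : ∀ g : ℕ → ℝ, ∑ k ∈ Icc 1 K, g k = ∑ k ∈ range K, g (k + 1) := by
      intro g
      rw [range_eq_Ico, sum_Ico_add' g 0 K 1]
      rfl
    rw [e1]
    refine h3.trans (le_of_eq ?_)
    push_cast
    ring

end planes

end

end Vale.Agent.P141.H784
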