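import Vale.Agent.P141.H784.BMfin

/-!
# P141, line (A): the payers of the pair at the hub `x1`, live cells only

`al x1 k p` : the cell `p` of `x2` of scale `k` is live above `x1`; `a` : height of the live cells.

* `BM_plane_st`, `EB_plane_st` : the planes, weights zero off the live cells;
* `payB_ah_st`, `payB_eb_st` : the plane sums over all `x0`.
-/

namespace Vale.Agent.P141.H784

set_option linter.unusedSectionVars false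

open Matrix Finset
open Vale.Agent.P141.PL (Pt iv mem_iv card_iv ix ix_ix)
open Vale.Agent.P141.H420 (Tr quad_nonneg)
open Vale.Agent.P141.H103 (GW)
open Vale.Agent.P141.H652 (WT ET ET_psd HdV HdV_nonneg ah eb st eb_le)

noncomputable section

variable {ι : Type*} [Fintype ι] [DecidableEq ι]

/-- the number of the slot `B` at one row -/
def numB (l : ℝ) (K : ℕ) (S : ℤ) (G : ℕ → ℤ → Matrix ι ι ℝ) (a : ℝ) (A : ℕ) : ℝ :=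
  2 ^ K * ((2 + Real.log (1 + 4 * a / l) + 2 * A) * (G K S).trace + 16 * a / 2 ^ A)

section planes

variable {l : ℝ} {K J : ℕ} {S S3 : ℤ} {G Kq : ℤ → ℕ → ℤ → Matrix ι ι ℝ} {u : ℤ → ℤ → ι → ℝ}
variable {al : ℤ → ℕ → ℤ → Prop} [∀ x k q, Decidable (al x k q)] {a : ℝ}

/-- sums over live cells -/
theorem live_sum {k : ℕ} (x1 : ℤ) (Φ : ℤ → ℤ → ℝ) (Q : ℤ → Finset ℤ) (I : Finset ℤ) :
    ∑ p ∈ I, ∑ q ∈ Q p, ∑ x2 ∈ iv k p, (if al x1 k (ix k x2) then Φ q x2 else 0) =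
      ∑ p ∈ I.filter (al x1 k), ∑ q ∈ Q p, ∑ x2 ∈ iv k p, Φ q x2 := by
  rw [sum_filter]
  refine sum_congr rfl fun p _ => ?_
  split_ifs with h
  · refine sum_congr rfl fun q _ => sum_congr rfl fun x hx => ?_
    rw [mem_iv.1 hx, if_pos h]
  · refine sum_eq_zero fun q _ => sum_eq_zero fun x hx => ?_
    rw [mem_iv.1 hx, if_neg h]

/-- **the half differences on the slot `B`**, weights zero off the live cells -/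
theorem BM_plane_st {o : ℤ} (ho : o = 1 ∨ o = -1) (X Y : Finset ℤ)
    (hT : ∀ x1 ∈ Y, Tr l K (G x1) (Kq x1))
    (hG : ∀ x1 ∈ Y, ∀ k ≤ K, ∀ p, G x1 k p =
      ((2 : ℝ) ^ k)⁻¹ • ∑ x2 ∈ iv k p, vecMulVec (u x1 x2) (u x1 x2))
    (ha : 0 ≤ a) (hal : ∀ x1 ∈ Y, ∀ k ≤ K, ∀ p ∈ iv (K - k) S, al x1 k p → ∀ i ≤ K - k,
      (G x1 (k + i) (p / 2 ^ i)).trace ≤ a)
    {W : ℕ → ℤ → ℤ → ℤ → ℝ} {e : ℝ} (he : 0 ≤ e) (hW0 : ∀ k x0 x1 x2, 0 ≤ W k x0 x1 x2)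
    (hW : ∀ k ∈ Icc 1 K, ∀ j x1 x2, ∑ x0 ∈ iv k j, W k x0 x1 x2 ≤ e * 2 ^ k)
    (hWa : ∀ k ∈ Icc 1 K, ∀ x0 x1 x2, ¬ al x1 k (ix k x2) → W k x0 x1 x2 = 0) (A : ℕ) :
    ∑ x0 ∈ X, ∑ x1 ∈ Y, ∑ k ∈ Icc 1 K, ∑ m ∈ iv (K - k) S3,
      ∑ x2 ∈ (iv K S).filter (fun x2 => Tie k J (o - 2) x0 x1 x2 m), W k x0 x1 x2 *
        ((ah l K S (Kq x1) (o - 2) x0 x1 (k - 1) m *ᵥ u x1 x2) ⬝ᵥ
        (ah l K S (Kq x1) (o - 2) x0 x1 (k - 1) m *ᵥ u x1 x2)) ≤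
    (2 * J + 1) * e * (2 ^ K * ∑ x1 ∈ Y, 33000 * (4 * J + 25) ^ 3 * numB l K S (G x1) a A) := by
  have e0 : ∑ x0 ∈ X, ∑ x1 ∈ Y, ∑ k ∈ Icc 1 K, ∑ m ∈ iv (K - k) S3,
      ∑ x2 ∈ (iv K S).filter (fun x2 => Tie k J (o - 2) x0 x1 x2 m), W k x0 x1 x2 *
        ((ah l K S (Kq x1) (o - 2) x0 x1 (k - 1) m *ᵥ u x1 x2) ⬝ᵥ
        (ah l K S (Kq x1) (o - 2) x0 x1 (k - 1) m *ᵥ u x1 x2)) =
      ∑ x0 ∈ X, ∑ x1 ∈ Y, ∑ k ∈ Icc 1 K, ∑ m ∈ iv (K - k) S3,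
      ∑ x2 ∈ (iv K S).filter (fun x2 => Tie k J (o - 2) x0 x1 x2 m), W k x0 x1 x2 *
        (if al x1 k (ix k x2) then
          (ah l K S (Kq x1) (o - 2) x0 x1 (k - 1) m *ᵥ u x1 x2) ⬝ᵥ
          (ah l K S (Kq x1) (o - 2) x0 x1 (k - 1) m *ᵥ u x1 x2) else 0) := by
    refine sum_congr rfl fun x0 _ => sum_congr rfl fun x1 _ => sum_congr rfl fun k hk =>
      sum_congr rfl fun m _ => sum_congr rfl fun x2 _ => ?_
    split_ifs with h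
    · rfl
    · rw [hWa k hk x0 x1 x2 h, zero_mul, zero_mul]
  rw [e0]
  refine (plane_dom (R := J + 3) (o - 2) X Y
    (f := fun k x0 x1 x2 m => if al x1 k (ix k x2) then
        (ah l K S (Kq x1) (o - 2) x0 x1 (k - 1) m *ᵥ u x1 x2) ⬝ᵥ
        (ah l K S (Kq x1) (o - 2) x0 x1 (k - 1) m *ᵥ u x1 x2) else 0)
    (Φ := fun k q x1 x2 => if al x1 k (ix k x2) then
      HdV (fun k q => WT l K S (Kq x1) k q *ᵥ u x1 x2) k q else 0)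
    (fun x1 _ k _ q x2 => ?_) (fun x1 _ k hk x0 x2 m ht => ?_) hW0 hW).trans ?_
  · show 0 ≤ if al x1 k (ix k x2) then HdV (fun k q => WT l K S (Kq x1) k q *ᵥ u x1 x2) k q else 0
    split_ifs
    · exact HdV_nonneg _ _ _
    · exact le_rfl
  · show (if al x1 k (ix k x2) then
        (ah l K S (Kq x1) (o - 2) x0 x1 (k - 1) m *ᵥ u x1 x2) ⬝ᵥ
        (ah l K S (Kq x1) (o - 2) x0 x1 (k - 1) m *ᵥ u x1 x2) else 0) ≤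
      ∑ q ∈ Icc (ix k x2 - ((J + 3 : ℕ) : ℤ)) (ix k x2 + ((J + 3 : ℕ) : ℤ)),
        if al x1 k (ix k x2) then HdV (fun k q => WT l K S (Kq x1) k q *ᵥ u x1 x2) k q else 0
    split_ifs with h
    · obtain ⟨j, rfl⟩ : ∃ j, k = j + 1 := ⟨k - 1, by have := (mem_Icc.1 hk).1; omega⟩
      have hj : j < K := by have := (mem_Icc.1 hk).2; omega
      have h1 := ah_le (M := S) (l := l) (Kq x1) hj (o - 2) x0 x1 m (u x1 x2)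
      have h2 := st_near ho ht
      rw [Nat.add_sub_cancel]
      refine h1.trans (single_le_sum (f := fun q =>
        HdV (fun k q => WT l K S (Kq x1) k q *ᵥ u x1 x2) (j + 1) q)
        (fun q _ => HdV_nonneg _ _ _) ?_)
      rw [mem_Icc] at h2 ⊢
      push_cast at h2 ⊢
      omega
    · exact le_of_eq sum_const_zero.symm
  · refine mul_le_mul_of_nonneg_left (mul_le_mul_of_nonneg_left (sum_le_sum fun x1 h1 => ?_)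
      (by positivity)) (by positivity)
    have h3 := BM_half_st (M := S) (hT x1 h1) (u := u x1) (hG x1 h1) (al := al x1) ha
      (hal x1 h1) (J + 3) A
    have e1 : ∀ g : ℕ → ℝ, ∑ k ∈ Icc 1 K, g k = ∑ k ∈ range K, g (k + 1) := by
      intro g
      rw [range_eq_Ico, sum_Ico_add' g 0 K 1]
      rfl
    rw [e1]
    refine (le_of_eq (sum_congr rfl fun k _ => live_sum x1
      (fun q x2 => HdV (fun k q => WT l K S (Kq x1) k q *ᵥ u x1 x2) (k + 1) q)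
      (fun p => Icc (p - ((J + 3 : ℕ) : ℤ)) (p + ((J + 3 : ℕ) : ℤ))) (iv (K - (k + 1)) S))).trans
        (h3.trans (le_of_eq ?_))
    rw [numB]
    push_cast
    ring

/-- **the losses on the slot `B`**, weights zero off the live cells -/
theorem EB_plane_st {o : ℤ} (ho : o = 1 ∨ o = -1) (X Y : Finset ℤ)
    (hT : ∀ x1 ∈ Y, Tr l K (G x1) (Kq x1))
    (hG : ∀ x1 ∈ Y, ∀ k ≤ K, ∀ p, G x1 k p =
      ((2 : ℝ) ^ k)⁻¹ • ∑ x2 ∈ iv k p, vecMulVec (u x1 x2) (u x1 x2))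
    (ha : 0 ≤ a) (hal : ∀ x1 ∈ Y, ∀ k ≤ K, ∀ p ∈ iv (K - k) S, al x1 k p → ∀ i ≤ K - k,
      (G x1 (k + i) (p / 2 ^ i)).trace ≤ a)
    {W : ℕ → ℤ → ℤ → ℤ → ℝ} {e : ℝ} (he : 0 ≤ e) (hW0 : ∀ k x0 x1 x2, 0 ≤ W k x0 x1 x2)
    (hW : ∀ k ∈ Icc 1 K, ∀ j x1 x2, ∑ x0 ∈ iv k j, W k x0 x1 x2 ≤ e * 2 ^ k)
    (hWa : ∀ k ∈ Icc 1 K, ∀ x0 x1 x2, ¬ al x1 k (ix k x2) → W k x0 x1 x2 = 0) (A : ℕ) :
    ∑ x0 ∈ X, ∑ x1 ∈ Y, ∑ k ∈ Icc 1 K, ∑ m ∈ iv (K - k) S3,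
      ∑ x2 ∈ (iv K S).filter (fun x2 => Tie k J (o - 2) x0 x1 x2 m), W k x0 x1 x2 *
        (u x1 x2 ⬝ᵥ eb l K S (Kq x1) (o - 2) x0 x1 k m *ᵥ u x1 x2) ≤
    (2 * J + 1) * e * (2 ^ K * ∑ x1 ∈ Y, 260 * (2 * J + 7) ^ 3 * numB l K S (G x1) a A) := by
  have e0 : ∑ x0 ∈ X, ∑ x1 ∈ Y, ∑ k ∈ Icc 1 K, ∑ m ∈ iv (K - k) S3,
      ∑ x2 ∈ (iv K S).filter (fun x2 => Tie k J (o - 2) x0 x1 x2 m), W k x0 x1 x2 *
        (u x1 x2 ⬝ᵥ eb l K S (Kq x1) (o - 2) x0 x1 k m *ᵥ u x1 x2) =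
      ∑ x0 ∈ X, ∑ x1 ∈ Y, ∑ k ∈ Icc 1 K, ∑ m ∈ iv (K - k) S3,
      ∑ x2 ∈ (iv K S).filter (fun x2 => Tie k J (o - 2) x0 x1 x2 m), W k x0 x1 x2 *
        (if al x1 k (ix k x2) then
          u x1 x2 ⬝ᵥ eb l K S (Kq x1) (o - 2) x0 x1 k m *ᵥ u x1 x2 else 0) := by
    refine sum_congr rfl fun x0 _ => sum_congr rfl fun x1 _ => sum_congr rfl fun k hk =>
      sum_congr rfl fun m _ => sum_congr rfl fun x2 _ => ?_
    split_ifs with h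
    · rfl
    · rw [hWa k hk x0 x1 x2 h, zero_mul, zero_mul]
  rw [e0]
  refine (plane_dom (R := J + 3) (o - 2) X Y
    (f := fun k x0 x1 x2 m => if al x1 k (ix k x2) then
        u x1 x2 ⬝ᵥ eb l K S (Kq x1) (o - 2) x0 x1 k m *ᵥ u x1 x2 else 0)
    (Φ := fun k q x1 x2 => if al x1 k (ix k x2) then
      u x1 x2 ⬝ᵥ ET l K S (Kq x1) k q *ᵥ u x1 x2 else 0)
    (fun x1 h1 k _ q x2 => ?_) (fun x1 h1 k hk x0 x2 m ht => ?_) hW0 hW).trans ?_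
  · show 0 ≤ if al x1 k (ix k x2) then u x1 x2 ⬝ᵥ ET l K S (Kq x1) k q *ᵥ u x1 x2 else 0
    split_ifs
    · exact quad_nonneg (ET_psd (hT x1 h1) k q) _
    · exact le_rfl
  · show (if al x1 k (ix k x2) then
        u x1 x2 ⬝ᵥ eb l K S (Kq x1) (o - 2) x0 x1 k m *ᵥ u x1 x2 else 0) ≤
      ∑ q ∈ Icc (ix k x2 - ((J + 3 : ℕ) : ℤ)) (ix k x2 + ((J + 3 : ℕ) : ℤ)),
        if al x1 k (ix k x2) then u x1 x2 ⬝ᵥ ET l K S (Kq x1) k q *ᵥ u x1 x2 else 0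
    split_ifs with h
    · have h2 := st_near ho ht
      have h4 := quad_nonneg (eb_le (M := S) (hT x1 h1) (o - 2) x0 x1 k m) (u x1 x2)
      rw [sub_mulVec, dotProduct_sub, add_mulVec, dotProduct_add] at h4
      have hsub : ({st (o - 2) x0 x1 k m / 2 ^ k, st (o - 2) x0 x1 k m / 2 ^ k + 1} : Finset ℤ) ⊆
          Icc (ix k x2 - ((J + 3 : ℕ) : ℤ)) (ix k x2 + ((J + 3 : ℕ) : ℤ)) := by
        intro y hy
        rw [mem_insert, mem_singleton] at hy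
        rw [mem_Icc] at h2 ⊢
        push_cast at h2 ⊢
        omega
      have h5 := sum_le_sum_of_subset_of_nonneg (f := fun q =>
        u x1 x2 ⬝ᵥ ET l K S (Kq x1) k q *ᵥ u x1 x2) hsub
        (fun q _ _ => quad_nonneg (ET_psd (M := S) (hT x1 h1) k q) _)
      rw [sum_pair (by omega)] at h5
      linarith
    · exact le_of_eq sum_const_zero.symm
  · refine mul_le_mul_of_nonneg_left (mul_le_mul_of_nonneg_left (sum_le_sum fun x1 h1 => ?_)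
      (by positivity)) (by positivity)
    have h3 := BM_drift_st (M := S) (hT x1 h1) (u := u x1) (hG x1 h1) (al := al x1) ha
      (hal x1 h1) (J + 3) A
    have e1 : ∀ g : ℕ → ℝ, ∑ k ∈ Icc 1 K, g k = ∑ k ∈ range K, g (k + 1) := by
      intro g
      rw [range_eq_Ico, sum_Ico_add' g 0 K 1]
      rfl
    rw [e1]
    refine (le_of_eq (sum_congr rfl fun k _ => live_sum x1
      (fun q x2 => u x1 x2 ⬝ᵥ ET l K S (Kq x1) (k + 1) q *ᵥ u x1 x2)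
      (fun p => Icc (p - ((J + 3 : ℕ) : ℤ)) (p + ((J + 3 : ℕ) : ℤ))) (iv (K - (k + 1)) S))).trans
        (h3.trans (le_of_eq ?_))
    rw [numB]
    push_cast
    ring

end planes

section payers

variable {l e : ℝ} {K : ℕ} {R S T : ℤ} {G Kq : ℤ → ℕ → ℤ → Matrix ι ι ℝ} {u : ℤ → ℤ → ι → ℝ}
  {φ : ℕ → Pt → ℝ}
variable {al : ℤ → ℕ → ℤ → Prop} [∀ x k q, Decidable (al x k q)] {a : ℝ}

/-- the weight on the live cells -/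
def lv (al : ℤ → ℕ → ℤ → Prop) [∀ x k q, Decidable (al x k q)] (φ : ℕ → Pt → ℝ) (k : ℕ) (P : Pt) :
    ℝ := if al P.2.1 k (ix k P.2.2) then φ k P else 0

/-- the rows of `B` off the live cells -/
theorem rows_live {X : Finset ℤ} {B : ℤ → ℕ → ℤ → ℤ → ι → ℝ}
    (hB : ∀ x0 ∈ X, ∀ k ∈ Icc 1 K, ∀ x ∈ iv K S, ∀ n ∈ iv (K - k) R, al x k n → ∀ w : ι → ℝ,
      ∑ y ∈ iv k n, (B x0 k x y ⬝ᵥ w) ^ 2 ≤
        ∑ y ∈ iv k n, φ k (x0, x, y) ^ 2 * (u x y ⬝ᵥ w) ^ 2)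
    (hB0 : ∀ x0 ∈ X, ∀ k ∈ Icc 1 K, ∀ x ∈ iv K S, ∀ n ∈ iv (K - k) R, ¬ al x k n →
      ∀ y ∈ iv k n, B x0 k x y = 0) :
    ∀ x0 ∈ X, ∀ k ∈ Icc 1 K, ∀ x ∈ iv K S, ∀ n ∈ iv (K - k) R, ∀ w : ι → ℝ,
      ∑ y ∈ iv k n, (B x0 k x y ⬝ᵥ w) ^ 2 ≤
        ∑ y ∈ iv k n, lv al φ k (x0, x, y) ^ 2 * (u x y ⬝ᵥ w) ^ 2 := by
  intro x0 h0 k hk x hx n hn w
  by_cases h : al x k n
  · refine (hB x0 h0 k hk x hx n hn h w).trans (le_of_eq ?_)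
    refine sum_congr rfl fun y hy => ?_
    show _ = (if al x k (ix k y) then φ k (x0, x, y) else 0) ^ 2 * _
    rw [mem_iv.1 hy, if_pos h]
  · refine le_trans (le_of_eq (sum_eq_zero fun y hy => ?_)) (sum_nonneg fun y _ =>
      mul_nonneg (sq_nonneg _) (sq_nonneg _))
    rw [hB0 x0 h0 k hk x hx n hn h y hy, zero_dotProduct]
    norm_num

/-- weights of the live cells -/
theorem wt_live (hφ : ∀ k ∈ Icc 1 K, ∀ j x y, ∑ x0 ∈ iv k j, φ k (x0, x, y) ^ 2 ≤ e * 2 ^ k) :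
    ∀ k ∈ Icc 1 K, ∀ j x y, ∑ x0 ∈ iv k j, lv al φ k (x0, x, y) ^ 2 ≤ e * 2 ^ k := by
  intro k hk j x y
  refine (sum_le_sum fun x0 _ => ?_).trans (hφ k hk j x y)
  show (if al x k (ix k y) then φ k (x0, x, y) else 0) ^ 2 ≤ φ k (x0, x, y) ^ 2
  split_ifs
  · exact le_rfl
  · have := sq_nonneg (φ k (x0, x, y))
    norm_num
    exact this

/-- **the half differences on the side `b`, live cells only**: plane sums over all `x0` -/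
theorem payB_ah_st {o : ℤ} (ho : o = 1 ∨ o = -1) (X : Finset ℤ)
    (hT : ∀ x ∈ iv K S, Tr l K (G x) (Kq x))
    (hG : ∀ x ∈ iv K S, ∀ k ≤ K, ∀ p, G x k p =
      ((2 : ℝ) ^ k)⁻¹ • ∑ y ∈ iv k p, vecMulVec (u x y) (u x y))
    (ha : 0 ≤ a) (hal : ∀ x ∈ iv K S, ∀ k ≤ K, ∀ p ∈ iv (K - k) R, al x k p → ∀ i ≤ K - k,
      (G x (k + i) (p / 2 ^ i)).trace ≤ a)
    (he : 0 ≤ e) (hφ : ∀ k ∈ Icc 1 K, ∀ j x y, ∑ x0 ∈ iv k j, φ k (x0, x, y) ^ 2 ≤ e * 2 ^ k)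
    {B : ℤ → ℕ → ℤ → ℤ → ι → ℝ}
    (hB : ∀ x0 ∈ X, ∀ k ∈ Icc 1 K, ∀ x ∈ iv K S, ∀ n ∈ iv (K - k) R, al x k n → ∀ w : ι → ℝ,
      ∑ y ∈ iv k n, (B x0 k x y ⬝ᵥ w) ^ 2 ≤
        ∑ y ∈ iv k n, φ k (x0, x, y) ^ 2 * (u x y ⬝ᵥ w) ^ 2)
    (hB0 : ∀ x0 ∈ X, ∀ k ∈ Icc 1 K, ∀ x ∈ iv K S, ∀ n ∈ iv (K - k) R, ¬ al x k n →
      ∀ y ∈ iv k n, B x0 k x y = 0)
    {F : ℤ → ℤ → ℕ → ℤ → Matrix ι ι ℝ} {g : ℝ} (hg : 0 ≤ g)
    (hF : ∀ x0 ∈ X, ∀ x ∈ iv K S, ∀ k ∈ Icc 1 K, ∀ m, (F x0 x k m).PosSemidef)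
    (hFa : ∀ x0 ∈ X, ∀ x ∈ iv K S, ∀ k ∈ Icc 1 K, ∀ m, ∀ w : ι → ℝ, w ⬝ᵥ F x0 x k m *ᵥ w ≤
      g * ((ah l K R (Kq x) (o - 2) x0 x (k - 1) m *ᵥ w) ⬝ᵥ
        (ah l K R (Kq x) (o - 2) x0 x (k - 1) m *ᵥ w))) (A : ℕ) :
    ∑ x0 ∈ X, ∑ k ∈ Icc 1 K, GW K R S T k (o - 2 - ix k x0) (fun n n' m =>
      av k n m fun x y => B x0 k x y ⬝ᵥ F x0 x k n' *ᵥ B x0 k x y) ≤
    g * (e * (2 ^ K * ∑ x ∈ iv K S, 515625000 * numB l K R (G x) a A)) := by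
  refine (payB_gen (φ := lv al φ) X (rows_live hB hB0) hF (f := fun k x0 x y m =>
    g * ((ah l K R (Kq x) (o - 2) x0 x (k - 1) m *ᵥ u x y) ⬝ᵥ
      (ah l K R (Kq x) (o - 2) x0 x (k - 1) m *ᵥ u x y)))
    (fun x0 h0 x hx k hk y m => hFa x0 h0 x hx k hk m (u x y)) o).trans ?_
  have h1 := BM_plane_st (J := 0) (S := R) (S3 := T) ho X (iv K S) hT hG ha hal
    (W := fun k x0 x y => lv al φ k (x0, x, y) ^ 2)
    he (fun _ _ _ _ => sq_nonneg _) (wt_live hφ) (fun k _ x0 x1 x2 h => by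
      show (if al x1 k (ix k x2) then φ k (x0, x1, x2) else 0) ^ 2 = 0
      rw [if_neg h]
      norm_num) A
  have h2 := mul_le_mul_of_nonneg_left h1 hg
  refine le_trans (le_of_eq ?_) (h2.trans (le_of_eq ?_))
  · rw [mul_sum]
    refine sum_congr rfl fun x0 _ => ?_
    rw [mul_sum]
    refine sum_congr rfl fun x _ => ?_
    rw [mul_sum]
    refine sum_congr rfl fun k _ => ?_
    rw [mul_sum]
    refine sum_congr rfl fun m _ => ?_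
    rw [mul_sum]
    refine sum_congr rfl fun y _ => ?_
    ring
  · norm_num

/-- **the losses on the side `b`, live cells only**: plane sums over all `x0` -/
theorem payB_eb_st {o : ℤ} (ho : o = 1 ∨ o = -1) (X : Finset ℤ)
    (hT : ∀ x ∈ iv K S, Tr l K (G x) (Kq x))
    (hG : ∀ x ∈ iv K S, ∀ k ≤ K, ∀ p, G x k p =
      ((2 : ℝ) ^ k)⁻¹ • ∑ y ∈ iv k p, vecMulVec (u x y) (u x y))
    (ha : 0 ≤ a) (hal : ∀ x ∈ iv K S, ∀ k ≤ K, ∀ p ∈ iv (K - k) R, al x k p → ∀ i ≤ K - k,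
      (G x (k + i) (p / 2 ^ i)).trace ≤ a)
    (he : 0 ≤ e) (hφ : ∀ k ∈ Icc 1 K, ∀ j x y, ∑ x0 ∈ iv k j, φ k (x0, x, y) ^ 2 ≤ e * 2 ^ k)
    {B : ℤ → ℕ → ℤ → ℤ → ι → ℝ}
    (hB : ∀ x0 ∈ X, ∀ k ∈ Icc 1 K, ∀ x ∈ iv K S, ∀ n ∈ iv (K - k) R, al x k n → ∀ w : ι → ℝ,
      ∑ y ∈ iv k n, (B x0 k x y ⬝ᵥ w) ^ 2 ≤
        ∑ y ∈ iv k n, φ k (x0, x, y) ^ 2 * (u x y ⬝ᵥ w) ^ 2)
    (hB0 : ∀ x0 ∈ X, ∀ k ∈ Icc 1 K, ∀ x ∈ iv K S, ∀ n ∈ iv (K - k) R, ¬ al x k n →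
      ∀ y ∈ iv k n, B x0 k x y = 0)
    {F : ℤ → ℤ → ℕ → ℤ → Matrix ι ι ℝ} {g : ℝ} (hg : 0 ≤ g)
    (hF : ∀ x0 ∈ X, ∀ x ∈ iv K S, ∀ k ∈ Icc 1 K, ∀ m, (F x0 x k m).PosSemidef)
    (hFa : ∀ x0 ∈ X, ∀ x ∈ iv K S, ∀ k ∈ Icc 1 K, ∀ m, ∀ w : ι → ℝ, w ⬝ᵥ F x0 x k m *ᵥ w ≤
      g * (w ⬝ᵥ eb l K R (Kq x) (o - 2) x0 x k m *ᵥ w)) (A : ℕ) :
    ∑ x0 ∈ X, ∑ k ∈ Icc 1 K, GW K R S T k (o - 2 - ix k x0) (fun n n' m =>
      av k n m fun x y => B x0 k x y ⬝ᵥ F x0 x k n' *ᵥ B x0 k x y) ≤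
    g * (e * (2 ^ K * ∑ x ∈ iv K S, 89180 * numB l K R (G x) a A)) := by
  refine (payB_gen (φ := lv al φ) X (rows_live hB hB0) hF (f := fun k x0 x y m =>
    g * (u x y ⬝ᵥ eb l K R (Kq x) (o - 2) x0 x k m *ᵥ u x y))
    (fun x0 h0 x hx k hk y m => hFa x0 h0 x hx k hk m (u x y)) o).trans ?_
  have h1 := EB_plane_st (J := 0) (S := R) (S3 := T) ho X (iv K S) hT hG ha hal
    (W := fun k x0 x y => lv al φ k (x0, x, y) ^ 2)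
    he (fun _ _ _ _ => sq_nonneg _) (wt_live hφ) (fun k _ x0 x1 x2 h => by
      show (if al x1 k (ix k x2) then φ k (x0, x1, x2) else 0) ^ 2 = 0
      rw [if_neg h]
      norm_num) A
  have h2 := mul_le_mul_of_nonneg_left h1 hg
  refine le_trans (le_of_eq ?_) (h2.trans (le_of_eq ?_))
  · rw [mul_sum]
    refine sum_congr rfl fun x0 _ => ?_
    rw [mul_sum]
    refine sum_congr rfl fun x _ => ?_
    rw [mul_sum]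
    refine sum_congr rfl fun k _ => ?_
    rw [mul_sum]
    refine sum_congr rfl fun m _ => ?_
    rw [mul_sum]
    refine sum_congr rfl fun y _ => ?_
    ring
  · norm_num

end payers

end

end Vale.Agent.P141.H784
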