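import Vale.Agent.P141.H784.Own
import Vale.Agent.P141.H652.ThetaS

/-!
# P141, line (A): the mass of the moves of `Theta` on the slot `B` (neighbour cells included)

`Kx` = `K` extended by `√l` outside the root, `dlt k q` = Hilbert-Schmidt distance of neighbours.

* `dlt_sum` : `∑ 2^k ∑ dlt² ≤ 128 DK + Bd`;
* `MM`, `MM_form`, `MM_sum` : matrix of `H652.Mx`, own masses at most `86 DK`;
-/

namespace Vale.Agent.P141.H784

open Matrix Finset
open Vale.Agent.P141.PL (iv mem_iv card_iv ix ix_ix)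
open Vale.Agent.P141.H420 (Tr Nd tr_symm trace_mul_nonneg quad_nonneg inv_mul_self' mul_inv_self'
  inv_G_inv inv_le)
open Vale.Agent.P141.H483 (tmean hd nd')
open Vale.Agent.P141.H652 (WT ET WT_in WT_out ET_in ET_out WT_psd WT_le_one in_left in_right)

noncomputable section

variable {ι : Type*} [Fintype ι] [DecidableEq ι]

/-- `K` extended by `√l` outside the root -/
def Kx (l : ℝ) (N : ℕ) (M : ℤ) (K : ℕ → ℤ → Matrix ι ι ℝ) (k : ℕ) (q : ℤ) : Matrix ι ι ℝ :=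
  if q ∈ iv (N - k) M then K k q else √l • 1

/-- `G` extended by `0` outside the root -/
def Gx (N : ℕ) (M : ℤ) (G : ℕ → ℤ → Matrix ι ι ℝ) (k : ℕ) (q : ℤ) : Matrix ι ι ℝ :=
  if q ∈ iv (N - k) M then G k q else 0

/-- distance of neighbours -/
def dlt (l : ℝ) (N : ℕ) (M : ℤ) (K : ℕ → ℤ → Matrix ι ι ℝ) (k : ℕ) (q : ℤ) : ℝ :=
  rho (Kx l N M K k q) (Kx l N M K k (q + 1))

section base

variable {l : ℝ} {N : ℕ} {M : ℤ} {G K : ℕ → ℤ → Matrix ι ι ℝ}

theorem Kx_in {k : ℕ} {q : ℤ} (hq : q ∈ iv (N - k) M) : Kx l N M K k q = K k q := if_pos hq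

theorem Kx_out {k : ℕ} {q : ℤ} (hq : q ∉ iv (N - k) M) : Kx l N M K k q = √l • 1 := if_neg hq

theorem Kx_pd (h : Tr l N G K) (k : ℕ) (q : ℤ) : (Kx l N M K k q).PosDef := by
  unfold Kx
  split_ifs
  · exact h.pdK k q
  · exact PosDef.one.smul (Real.sqrt_pos.2 h.l_pos)

theorem Gx_psd (h : Tr l N G K) (k : ℕ) (q : ℤ) : (Gx N M G k q).PosSemidef := by
  unfold Gx
  split_ifs
  · exact h.psG k q
  · exact PosSemidef.zero

theorem Kx_sq (h : Tr l N G K) (k : ℕ) (q : ℤ) :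
    Kx l N M K k q * Kx l N M K k q = l • (1 : Matrix ι ι ℝ) + Gx N M G k q := by
  unfold Kx Gx
  split_ifs
  · exact h.sq k q
  · rw [smul_mul_smul_comm, Real.mul_self_sqrt h.l_pos.le, Matrix.one_mul, add_zero]

theorem WT_Kx (h : Tr l N G K) (k : ℕ) (q : ℤ) :
    WT l N M K k q = 1 - √l • (Kx l N M K k q)⁻¹ := by
  by_cases hq : q ∈ iv (N - k) M
  · rw [WT_in hq, Kx_in hq]
  · have hs := Real.sqrt_pos.2 h.l_pos
    have e : (√l • (1 : Matrix ι ι ℝ))⁻¹ = (√l)⁻¹ • 1 := by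
      apply inv_eq_right_inv
      rw [smul_mul_smul_comm, mul_inv_cancel₀ hs.ne', Matrix.one_mul, one_smul]
    rw [WT_out hq, Kx_out hq, e, smul_smul, mul_inv_cancel₀ hs.ne', one_smul, sub_self]

theorem dlt_nonneg (k : ℕ) (q : ℤ) : 0 ≤ dlt l N M K k q := rho_nonneg _ _

theorem dlt_sq (k : ℕ) (q : ℤ) : dlt l N M K k q ^ 2 =
    ((Kx l N M K k (q + 1) - Kx l N M K k q) * (Kx l N M K k (q + 1) - Kx l N M K k q)).trace ∨
    dlt l N M K k q ^ 2 = 0 := by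
  unfold dlt rho
  rcases le_or_gt 0 ((Kx l N M K k (q + 1) - Kx l N M K k q) *
    (Kx l N M K k (q + 1) - Kx l N M K k q)).trace with h | h
  · left; exact Real.sq_sqrt h
  · right; rw [Real.sqrt_eq_zero_of_nonpos h.le]; norm_num

/-- the window of the cells which see the root -/
def ZZ (n : ℕ) (M : ℤ) : Finset ℤ := Icc (2 ^ n * M - 1) (2 ^ n * M + 2 ^ n - 1)

theorem dlt_out {k : ℕ} {q : ℤ} (hq : q ∉ ZZ (N - k) M) : dlt l N M K k q = 0 := by
  have h1 : q ∉ iv (N - k) M := by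
    rw [mem_iv']; intro h; apply hq; rw [ZZ, mem_Icc]; omega
  have h2 : q + 1 ∉ iv (N - k) M := by
    rw [mem_iv']; intro h; apply hq; rw [ZZ, mem_Icc]; omega
  rw [dlt, Kx_out h1, Kx_out h2, rho]
  simp

/-- distance to `√l` -/
theorem rho_sqrt {l : ℝ} (hl : 0 < l) {G K : Matrix ι ι ℝ} (hG : G.PosSemidef) (hK : K.PosDef)
    (h : K * K = l • (1 : Matrix ι ι ℝ) + G) : rho (√l • 1) K ^ 2 ≤ G.trace := by
  have hs := Real.sqrt_pos.2 hl
  have hll := Real.mul_self_sqrt hl.le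
  have hH : (K - √l • (1 : Matrix ι ι ℝ)).IsHermitian :=
    hK.isHermitian.sub (PosDef.one.smul hs).isHermitian
  rw [rho, Real.sq_sqrt (sq_psd hH).trace_nonneg]
  have h1 := H420.sqrt_card_le hl hG hK h
  have e : (K - √l • (1 : Matrix ι ι ℝ)) * (K - √l • (1 : Matrix ι ι ℝ)) =
      l • (1 : Matrix ι ι ℝ) + G - (2 * √l) • K + l • 1 := by
    rw [Matrix.mul_sub, Matrix.sub_mul, Matrix.sub_mul, Matrix.mul_smul, Matrix.mul_one,
      Matrix.smul_mul, Matrix.one_mul, smul_mul_smul_comm, hll, Matrix.one_mul, h, two_mul,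
      add_smul]
    abel
  rw [e, trace_add, trace_sub, trace_add, trace_smul, trace_smul, trace_one]
  simp only [smul_eq_mul]
  have h2 := mul_le_mul_of_nonneg_left h1 hs.le
  nlinarith

/-- one scale: neighbour distances -/
theorem dlt_scale (h : Tr l N G K) (n : ℕ) (hn : n ≤ N) :
    ∑ q ∈ ZZ n M, dlt l N M K (N - n) q ^ 2 ≤
      ∑ m ∈ iv n M, dl (fun k p => √(gd K k p)) N M n m ^ 2 +
        ((G (N - n) (2 ^ n * M)).trace + (G (N - n) (2 ^ n * M + 2 ^ n - 1)).trace) := by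
  have e0 : N - (N - n) = n := by omega
  have hpow : (1 : ℤ) ≤ 2 ^ n := one_le_pow₀ (by norm_num)
  have hL : 2 ^ n * M ∈ iv n M := by rw [mem_iv']; omega
  have hR : 2 ^ n * M + 2 ^ n - 1 ∈ iv n M := by rw [mem_iv']; omega
  -- left end
  have a1 : dlt l N M K (N - n) (2 ^ n * M - 1) ^ 2 ≤ (G (N - n) (2 ^ n * M)).trace := by
    have h1 : (2 ^ n * M - 1 : ℤ) ∉ iv (N - (N - n)) M := by rw [e0, mem_iv']; omega
    have h2 : (2 ^ n * M - 1 + 1 : ℤ) ∈ iv (N - (N - n)) M := by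
      rw [e0, sub_add_cancel]; exact hL
    rw [dlt, Kx_out h1, Kx_in h2, sub_add_cancel]
    exact rho_sqrt h.l_pos (h.psG _ _) (h.pdK _ _) (h.sq _ _)
  have a2 : dlt l N M K (N - n) (2 ^ n * M + 2 ^ n - 1) ^ 2 ≤
      (G (N - n) (2 ^ n * M + 2 ^ n - 1)).trace := by
    have h1 : (2 ^ n * M + 2 ^ n - 1 + 1 : ℤ) ∉ iv (N - (N - n)) M := by rw [e0, mem_iv']; omega
    have h2 : (2 ^ n * M + 2 ^ n - 1 : ℤ) ∈ iv (N - (N - n)) M := by rw [e0]; exact hR
    rw [dlt, Kx_out h1, Kx_in h2, rho_comm]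
    exact rho_sqrt h.l_pos (h.psG _ _) (h.pdK _ _) (h.sq _ _)
  -- inside
  have a3 : ∀ m ∈ (iv n M).filter (fun m => m ≠ 2 ^ n * M),
      dlt l N M K (N - n) (m - 1) ^ 2 ≤ dl (fun k p => √(gd K k p)) N M n m ^ 2 := by
    intro m hm
    rw [mem_filter] at hm
    have hm' := mem_iv'.1 hm.1
    have h1 : m - 1 ∈ iv (N - (N - n)) M := by rw [e0, mem_iv']; omega
    have h2 : m - 1 + 1 ∈ iv (N - (N - n)) M := by rw [e0, sub_add_cancel]; exact hm.1
    have h3 := adjK h M n hn m hm.1 hm.2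
    rw [dlt, Kx_in h1, Kx_in h2, sub_add_cancel]
    exact pow_le_pow_left₀ (rho_nonneg _ _) h3 2
  have e1 : ZZ n M = insert (2 ^ n * M - 1) (insert (2 ^ n * M + 2 ^ n - 1)
      (((iv n M).filter (fun m => m ≠ 2 ^ n * M)).image (fun m => m - 1))) := by
    ext x
    simp only [ZZ, mem_Icc, mem_insert, mem_image, mem_filter, mem_iv']
    constructor
    · intro hx
      by_cases h1 : x = 2 ^ n * M - 1
      · exact Or.inl h1
      by_cases h2 : x = 2 ^ n * M + 2 ^ n - 1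
      · exact Or.inr (Or.inl h2)
      · exact Or.inr (Or.inr ⟨x + 1, ⟨⟨by omega, by omega⟩, by omega⟩, by omega⟩)
    · rintro (h1 | h1 | ⟨m, ⟨⟨h1, h2⟩, h3⟩, h4⟩) <;> omega
  have e2 : ∑ q ∈ ZZ n M, dlt l N M K (N - n) q ^ 2 ≤
      dlt l N M K (N - n) (2 ^ n * M - 1) ^ 2 + (dlt l N M K (N - n) (2 ^ n * M + 2 ^ n - 1) ^ 2 +
        ∑ m ∈ (iv n M).filter (fun m => m ≠ 2 ^ n * M), dlt l N M K (N - n) (m - 1) ^ 2) := by
    have hins : ∀ (a : ℤ) (s : Finset ℤ) (f : ℤ → ℝ), (∀ x, 0 ≤ f x) →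
        ∑ x ∈ insert a s, f x ≤ f a + ∑ x ∈ s, f x := by
      intro a s f hf
      by_cases ha : a ∈ s
      · rw [insert_eq_of_mem ha]
        have := hf a
        linarith
      · rw [sum_insert ha]
    rw [e1]
    refine (hins _ _ _ fun x => sq_nonneg _).trans (add_le_add le_rfl ?_)
    refine (hins _ _ _ fun x => sq_nonneg _).trans (add_le_add le_rfl ?_)
    rw [sum_image]
    intro a _ b _ hab
    simp only at hab
    omega
  have e3 : ∑ m ∈ (iv n M).filter (fun m => m ≠ 2 ^ n * M),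
      dl (fun k p => √(gd K k p)) N M n m ^ 2 ≤
      ∑ m ∈ iv n M, dl (fun k p => √(gd K k p)) N M n m ^ 2 :=
    sum_le_sum_of_subset_of_nonneg (filter_subset _ _) fun _ _ _ => sq_nonneg _
  have e4 := sum_le_sum a3
  linarith

/-- boundary energies -/
def Bd (N : ℕ) (M : ℤ) (G : ℕ → ℤ → Matrix ι ι ℝ) : ℝ :=
  ∑ n ∈ range (N + 1), 2 ^ (N - n) * ((G (N - n) (2 ^ n * M)).trace +
    (G (N - n) (2 ^ n * M + 2 ^ n - 1)).trace)

/-- the square function -/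
def DK (N : ℕ) (M : ℤ) (K : ℕ → ℤ → Matrix ι ι ℝ) : ℝ :=
  ∑ k ∈ Icc 1 N, 2 ^ k * ∑ P ∈ iv (N - k) M, gd K k P

/-- **neighbour distances, all scales** -/
theorem dlt_sum (h : Tr l N G K) :
    ∑ n ∈ range (N + 1), 2 ^ (N - n) * ∑ q ∈ ZZ n M, dlt l N M K (N - n) q ^ 2 ≤
      128 * DK N M K + Bd N M G := by
  have hg0 : ∀ k p, 0 ≤ gd K k p := fun k p => gd_nonneg h k p
  have h1 : ∀ n ∈ range (N + 1), (2 : ℝ) ^ (N - n) * ∑ q ∈ ZZ n M, dlt l N M K (N - n) q ^ 2 ≤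
      2 ^ (N - n) * ∑ m ∈ iv n M, dl (fun k p => √(gd K k p)) N M n m ^ 2 +
        2 ^ (N - n) * ((G (N - n) (2 ^ n * M)).trace +
          (G (N - n) (2 ^ n * M + 2 ^ n - 1)).trace) := by
    intro n hn
    rw [mem_range] at hn
    rw [← mul_add]
    exact mul_le_mul_of_nonneg_left (dlt_scale h n (by omega)) (by positivity)
  refine (sum_le_sum h1).trans ?_
  rw [sum_add_distrib]
  refine add_le_add ?_ le_rfl
  have h6 := dl_sum (s := fun k p => √(gd K k p)) (fun k m => Real.sqrt_nonneg _) N M N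
  have h7 : (0 : ℝ) ≤ 3 * ((2 ^ N : ℝ)⁻¹ * ∑ m ∈ iv N M,
      dl (fun k p => √(gd K k p)) N M N m ^ 2) := by
    have : 0 ≤ ∑ m ∈ iv N M, dl (fun k p => √(gd K k p)) N M N m ^ 2 :=
      sum_nonneg fun _ _ => sq_nonneg _
    positivity
  have h8 : ∑ n ∈ range N, (2 ^ n : ℝ)⁻¹ * ∑ P ∈ iv n M,
      (fun k p => √(gd K k p)) (N - n) P ^ 2 =
      ∑ n ∈ range N, (2 ^ n : ℝ)⁻¹ * ∑ P ∈ iv n M, gd K (N - n) P := by
    refine sum_congr rfl fun n _ => ?_
    congr 1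
    exact sum_congr rfl fun P _ => Real.sq_sqrt (hg0 _ _)
  rw [h8] at h6
  have h9 : ∑ n ∈ range (N + 1), (2 ^ n : ℝ)⁻¹ * ∑ m ∈ iv n M,
      dl (fun k p => √(gd K k p)) N M n m ^ 2 ≤
      128 * ∑ n ∈ range N, (2 ^ n : ℝ)⁻¹ * ∑ P ∈ iv n M, gd K (N - n) P := by
    linarith
  have h10 := mul_le_mul_of_nonneg_left h9 (show (0 : ℝ) ≤ 2 ^ N by positivity)
  have e6 : (2 : ℝ) ^ N * ∑ n ∈ range (N + 1), (2 ^ n : ℝ)⁻¹ * ∑ m ∈ iv n M,
      dl (fun k p => √(gd K k p)) N M n m ^ 2 =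
      ∑ n ∈ range (N + 1), (2 : ℝ) ^ (N - n) * ∑ x ∈ iv n M,
        dl (fun k p => √(gd K k p)) N M n x ^ 2 := by
    rw [mul_sum]
    refine sum_congr rfl fun n hn => ?_
    rw [mem_range] at hn
    have e7 : (2 : ℝ) ^ N = 2 ^ (N - n) * 2 ^ n := by rw [← pow_add]; congr 1; omega
    rw [e7, ← mul_assoc, mul_assoc ((2 : ℝ) ^ (N - n)), mul_inv_cancel₀ (by positivity),
      mul_one]
  rw [e6] at h10
  refine h10.trans (le_of_eq ?_)
  rw [DK, ← DK_eq h M]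
  ring

/-- walking from cell to cell -/
theorem rho_walk (h : Tr l N G K) (k : ℕ) (q : ℤ) (t : ℕ) :
    rho (Kx l N M K k q) (Kx l N M K k (q + t)) ≤ ∑ x ∈ Ico q (q + t), dlt l N M K k x := by
  induction t with
  | zero => simp [rho]
  | succ t ih =>
    have e2 : Ico q (q + ((t : ℤ) + 1)) = insert (q + t) (Ico q (q + t)) := by
      ext x; simp only [mem_Ico, mem_insert]; omega
    have e3 : q + (t : ℤ) ∉ Ico q (q + (t : ℤ)) := by simp only [mem_Ico]; omega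
    push_cast
    rw [e2, sum_insert e3]
    have hH : ∀ p, (Kx l N M K k p).IsHermitian := fun p => (Kx_pd h k p).isHermitian
    have h1 := rho_tri (hH q) (hH (q + t)) (hH (q + (t + 1)))
    have h2 : rho (Kx l N M K k (q + t)) (Kx l N M K k (q + (t + 1))) =
        dlt l N M K k (q + t) := by rw [dlt, add_assoc]
    linarith

/-- the mass at a near cell -/
theorem mass_near (h : Tr l N G K) {Y : Matrix ι ι ℝ} (hY : Y.PosSemidef)
    (hY1 : ((1 : Matrix ι ι ℝ) - Y).PosSemidef) (k J : ℕ) {q c : ℤ} (hqc : |q - c| ≤ J) :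
    ms Y (Kx l N M K k c) ≤ 2 * ms Y (Kx l N M K k q) +
      2 * (2 * J + 1) * ∑ x ∈ Icc (c - J) (c + J), dlt l N M K k x ^ 2 := by
  have hH : ∀ p, (Kx l N M K k p).IsHermitian := fun p => (Kx_pd h k p).isHermitian
  have h1 : √(ms Y (Kx l N M K k c)) ≤ √(ms Y (Kx l N M K k q)) +
      rho (Kx l N M K k q) (Kx l N M K k c) := al_lip hY hY1 (hH q) (hH c)
  have h2 : rho (Kx l N M K k q) (Kx l N M K k c) ≤
      ∑ x ∈ Icc (c - J) (c + J), dlt l N M K k x := by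
    rw [abs_le] at hqc
    rcases le_total q c with h3 | h3
    · obtain ⟨t, ht⟩ := Int.eq_ofNat_of_zero_le (sub_nonneg.2 h3)
      have e : c = q + t := by omega
      subst e
      refine (rho_walk h k q t).trans ?_
      refine sum_le_sum_of_subset_of_nonneg (fun x hx => ?_) fun x _ _ => dlt_nonneg k x
      rw [mem_Ico] at hx
      rw [mem_Icc]
      omega
    · obtain ⟨t, ht⟩ := Int.eq_ofNat_of_zero_le (sub_nonneg.2 h3)
      have e : q = c + t := by omega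
      subst e
      rw [rho_comm]
      refine (rho_walk h k c t).trans ?_
      refine sum_le_sum_of_subset_of_nonneg (fun x hx => ?_) fun x _ _ => dlt_nonneg k x
      rw [mem_Ico] at hx
      rw [mem_Icc]
      omega
  have h4 := sq_sum_le_card_mul_sum_sq (s := Icc (c - J) (c + J)) (f := fun x => dlt l N M K k x)
  have h5 : ((Icc (c - J) (c + J)).card : ℝ) = 2 * J + 1 := by
    rw [Int.card_Icc]
    have : (c + J + 1 - (c - J)).toNat = 2 * J + 1 := by omega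
    rw [this]; push_cast; ring
  rw [h5] at h4
  set S := ∑ x ∈ Icc (c - J) (c + J), dlt l N M K k x with hS
  have hS0 : 0 ≤ S := sum_nonneg fun x _ => dlt_nonneg k x
  have n1 := ms_nonneg hY (hH c)
  have n2 := ms_nonneg hY (hH q)
  have h6 : √(ms Y (Kx l N M K k c)) ≤ √(ms Y (Kx l N M K k q)) + S := h1.trans (by linarith)
  have h7 := pow_le_pow_left₀ (Real.sqrt_nonneg _) h6 2
  have e1 := Real.sq_sqrt n1
  have e2 := Real.sq_sqrt n2
  rw [e1] at h7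
  have h8 : (√(ms Y (Kx l N M K k q)) + S) ^ 2 ≤ 2 * √(ms Y (Kx l N M K k q)) ^ 2 + 2 * S ^ 2 := by
    nlinarith [sq_nonneg (√(ms Y (Kx l N M K k q)) - S)]
  rw [e2] at h8
  nlinarith

/-- sums over windows -/
theorem sum_win (Q Z : Finset ℤ) (J : ℕ) {f : ℤ → ℝ} (hf : ∀ x, 0 ≤ f x)
    (hz : ∀ x, x ∉ Z → f x = 0) :
    ∑ q ∈ Q, ∑ x ∈ Icc (q - J) (q + J), f x ≤ (2 * J + 1) * ∑ x ∈ Z, f x := by
  have h1 : ∀ q ∈ Q, ∑ x ∈ Icc (q - J) (q + J), f x =
      ∑ x ∈ Z, if x ∈ Icc (q - (J : ℤ)) (q + J) then f x else 0 := by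
    intro q _
    rw [← sum_filter]
    refine (sum_subset_zero_on_sdiff ?_ ?_ fun x _ => rfl).symm
    · intro x hx
      rw [mem_filter] at hx
      exact hx.2
    · intro x hx
      rw [mem_sdiff, mem_filter] at hx
      exact hz x fun h => hx.2 ⟨h, hx.1⟩
  rw [sum_congr rfl h1, sum_comm, mul_sum]
  refine sum_le_sum fun x _ => ?_
  rw [← sum_filter, sum_const, nsmul_eq_mul]
  refine mul_le_mul_of_nonneg_right ?_ (hf x)
  have h2 : Q.filter (fun q => x ∈ Icc (q - (J : ℤ)) (q + J)) ⊆ Icc (x - (J : ℤ)) (x + J) := by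
    intro q hq
    rw [mem_filter, mem_Icc] at hq
    rw [mem_Icc]
    omega
  have h3 := card_le_card h2
  rw [Int.card_Icc] at h3
  have h4 : (x + J + 1 - (x - J)).toNat = 2 * J + 1 := by omega
  rw [h4] at h3
  exact_mod_cast h3

/-- **near masses at one scale** -/
theorem near_scale (h : Tr l N G K) {Y : ℤ → Matrix ι ι ℝ} (hY : ∀ q, (Y q).PosSemidef)
    (hY1 : ∀ q, ((1 : Matrix ι ι ℝ) - Y q).PosSemidef) {k n : ℕ} (hkn : k + n = N) (J : ℕ)
    (Z : Finset ℤ) (hz : ∀ q, q ∉ Z → Y q = 0) :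
    ∑ c ∈ iv n M, ∑ q ∈ Icc (c - J) (c + J), ms (Y q) (K k c) ≤
      2 * (2 * J + 1) * ∑ q ∈ Z, ms (Y q) (Kx l N M K k q) +
        2 * (2 * J + 1) ^ 3 * ∑ x ∈ ZZ n M, dlt l N M K k x ^ 2 := by
  have en : N - k = n := by omega
  have h1 : ∀ c ∈ iv n M, ∑ q ∈ Icc (c - J) (c + J), ms (Y q) (K k c) ≤
      2 * ∑ q ∈ Icc (c - J) (c + J), ms (Y q) (Kx l N M K k q) +
        2 * (2 * J + 1) ^ 2 * ∑ x ∈ Icc (c - J) (c + J), dlt l N M K k x ^ 2 := by
    intro c hc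
    have h2 : ∀ q ∈ Icc (c - (J : ℤ)) (c + J), ms (Y q) (K k c) ≤
        2 * ms (Y q) (Kx l N M K k q) +
          2 * (2 * J + 1) * ∑ x ∈ Icc (c - J) (c + J), dlt l N M K k x ^ 2 := by
      intro q hq
      rw [mem_Icc] at hq
      have h3 := mass_near (M := M) h (hY q) (hY1 q) k J (q := q) (c := c)
        (by rw [abs_le]; omega)
      rwa [Kx_in (K := K) (l := l) (q := c) (by rw [en]; exact hc)] at h3
    refine (sum_le_sum h2).trans (le_of_eq ?_)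
    rw [sum_add_distrib, ← mul_sum, sum_const, Int.card_Icc, nsmul_eq_mul]
    have h4 : (c + J + 1 - (c - J)).toNat = 2 * J + 1 := by omega
    rw [h4]
    push_cast
    ring
  refine (sum_le_sum h1).trans ?_
  rw [sum_add_distrib, ← mul_sum, ← mul_sum]
  have h5 := sum_win (iv n M) Z J (f := fun q => ms (Y q) (Kx l N M K k q))
    (fun q => ms_nonneg (hY q) (Kx_pd h k q).isHermitian)
    (fun q hq => by rw [hz q hq]; simp [ms])
  have h6 := sum_win (iv n M) (ZZ n M) J (f := fun x => dlt l N M K k x ^ 2)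
    (fun q => sq_nonneg _)
    (fun q hq => by
      have : dlt l N M K k q = 0 := dlt_out (by rw [en]; exact hq)
      rw [this]; norm_num)
  have h7 : (0 : ℝ) ≤ 2 * (2 * J + 1) ^ 2 := by positivity
  have h8 := mul_le_mul_of_nonneg_left h6 h7
  nlinarith

theorem ms_add (Y Y' K : Matrix ι ι ℝ) : ms (Y + Y') K = ms Y K + ms Y' K := by
  rw [ms, ms, ms, Matrix.add_mul, trace_add]

theorem ms_smul (a : ℝ) (Y K : Matrix ι ι ℝ) : ms (a • Y) K = a * ms Y K := by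
  rw [ms, ms, Matrix.smul_mul, trace_smul, smul_eq_mul]

/-- half difference of `WT` -/
def DW (l : ℝ) (N : ℕ) (M : ℤ) (K : ℕ → ℤ → Matrix ι ι ℝ) (k : ℕ) (q : ℤ) : Matrix ι ι ℝ :=
  (1 / 2 : ℝ) • (WT l N M K (k - 1) (2 * q) - WT l N M K (k - 1) (2 * q + 1))

/-- the matrix of `H652.Mx` -/
def MM (l : ℝ) (N : ℕ) (M : ℤ) (K : ℕ → ℤ → Matrix ι ι ℝ) : ℕ → ℤ → Matrix ι ι ℝ
  | 0, _ => 0
  | (k + 1), q => (1 / 3 : ℝ) • (MM l N M K k (2 * q) + MM l N M K k (2 * q + 1)) +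
      DW l N M K (k + 1) q * DW l N M K (k + 1) q

/-- the matrix of the squared neighbour difference -/
def XX (l : ℝ) (N : ℕ) (M : ℤ) (K : ℕ → ℤ → Matrix ι ι ℝ) (k : ℕ) (q : ℤ) : Matrix ι ι ℝ :=
  (WT l N M K k (q + 1) - WT l N M K k q) * (WT l N M K k (q + 1) - WT l N M K k q)

theorem DW_herm (h : Tr l N G K) (k : ℕ) (q : ℤ) : (DW l N M K k q).IsHermitian := by
  have h1 := (WT_psd (M := M) h (k - 1) (2 * q)).isHermitian.sub
    (WT_psd (M := M) h (k - 1) (2 * q + 1)).isHermitian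
  show ((1 / 2 : ℝ) • (WT l N M K (k - 1) (2 * q) - WT l N M K (k - 1) (2 * q + 1)))ᴴ = _
  rw [conjTranspose_smul, h1.eq]
  simp [DW]

theorem MM_psd (h : Tr l N G K) : ∀ k q, (MM l N M K k q).PosSemidef := by
  intro k
  induction k with
  | zero => intro q; exact PosSemidef.zero
  | succ k ih =>
    intro q
    exact (((ih _).add (ih _)).smul (by norm_num)).add (sq_psd (DW_herm h _ _))

theorem MM_le (h : Tr l N G K) : ∀ k q, ((1 : Matrix ι ι ℝ) - MM l N M K k q).PosSemidef := by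
  intro k
  induction k with
  | zero => intro q; rw [MM, sub_zero]; exact PosSemidef.one
  | succ k ih =>
    intro q
    have h1 := diff_sq_le (WT_psd (M := M) h k (2 * q)) (WT_le_one (M := M) h k (2 * q))
      (WT_psd (M := M) h k (2 * q + 1)) (WT_le_one (M := M) h k (2 * q + 1))
    have e : (1 : Matrix ι ι ℝ) - MM l N M K (k + 1) q =
        (1 / 3 : ℝ) • (1 - MM l N M K k (2 * q)) + (1 / 3 : ℝ) • (1 - MM l N M K k (2 * q + 1)) +
        (1 / 12 : ℝ) • (1 : Matrix ι ι ℝ) + (1 / 4 : ℝ) •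
        (1 - (WT l N M K k (2 * q) - WT l N M K k (2 * q + 1)) *
          (WT l N M K k (2 * q) - WT l N M K k (2 * q + 1))) := by
      rw [MM, DW, Nat.add_sub_cancel, smul_mul_smul_comm]
      module
    rw [e]
    exact ((((ih _).smul (by norm_num)).add ((ih _).smul (by norm_num))).add
      (PosSemidef.one.smul (by norm_num))).add (h1.smul (by norm_num))

theorem MM_out (h : Tr l N G K) : ∀ k ≤ N, ∀ q, q ∉ iv (N - k) M → MM l N M K k q = 0 := by
  intro k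
  induction k with
  | zero => intro _ q _; rfl
  | succ k ih =>
    intro hk q hq
    have h1 : 2 * q ∉ iv (N - k) M := fun h1 => hq ((in_left (by omega)).1 h1)
    have h2 : 2 * q + 1 ∉ iv (N - k) M := fun h1 => hq ((in_right (by omega)).1 h1)
    rw [MM, DW, Nat.add_sub_cancel, ih (by omega) _ h1, ih (by omega) _ h2, WT_out h1, WT_out h2]
    simp

theorem MM_form (h : Tr l N G K) (v : ι → ℝ) : ∀ k q,
    ∑ i, H652.Mx (fun k q => (WT l N M K k q *ᵥ v) i) k q = v ⬝ᵥ MM l N M K k q *ᵥ v := by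
  intro k
  induction k with
  | zero => intro q; simp [H652.Mx, MM]
  | succ k ih =>
    intro q
    have e1 : v ⬝ᵥ MM l N M K (k + 1) q *ᵥ v = (1 / 3) * (v ⬝ᵥ MM l N M K k (2 * q) *ᵥ v +
        v ⬝ᵥ MM l N M K k (2 * q + 1) *ᵥ v) +
        (DW l N M K (k + 1) q *ᵥ v) ⬝ᵥ (DW l N M K (k + 1) q *ᵥ v) := by
      rw [MM, add_mulVec, dotProduct_add, smul_mulVec, dotProduct_smul, add_mulVec,
        dotProduct_add, smul_eq_mul, H420.quad_sq (DW_herm h _ _)]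
    rw [e1, ← ih, ← ih]
    simp only [H652.Mx]
    rw [sum_add_distrib, ← mul_sum, sum_add_distrib]
    congr 1
    rw [dotProduct]
    refine sum_congr rfl fun i _ => ?_
    have e2 : (DW l N M K (k + 1) q *ᵥ v) i =
        ((WT l N M K k (2 * q) *ᵥ v) i - (WT l N M K k (2 * q + 1) *ᵥ v) i) / 2 := by
      rw [DW, Nat.add_sub_cancel, smul_mulVec, sub_mulVec, Pi.smul_apply, Pi.sub_apply,
        smul_eq_mul]
      ring
    rw [e2, H652.dw, Nat.add_sub_cancel]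
    ring

theorem XX_psd (h : Tr l N G K) (k : ℕ) (q : ℤ) : (XX l N M K k q).PosSemidef :=
  sq_psd ((WT_psd h k (q + 1)).isHermitian.sub (WT_psd h k q).isHermitian)

theorem XX_le (h : Tr l N G K) (k : ℕ) (q : ℤ) :
    ((1 : Matrix ι ι ℝ) - XX l N M K k q).PosSemidef :=
  diff_sq_le (WT_psd h k (q + 1)) (WT_le_one h k (q + 1)) (WT_psd h k q) (WT_le_one h k q)

theorem XX_out {k : ℕ} {q : ℤ} (hq : q ∉ ZZ (N - k) M) : XX l N M K k q = 0 := by
  have h1 : q ∉ iv (N - k) M := by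
    rw [mem_iv']; intro h; apply hq; rw [ZZ, mem_Icc]; omega
  have h2 : q + 1 ∉ iv (N - k) M := by
    rw [mem_iv']; intro h; apply hq; rw [ZZ, mem_Icc]; omega
  rw [XX, WT_out h1, WT_out h2]
  simp

theorem XX_form (h : Tr l N G K) (v : ι → ℝ) (k : ℕ) (q : ℤ) :
    ∑ i, H652.nb (fun k q => (WT l N M K k q *ᵥ v) i) k q ^ 2 = v ⬝ᵥ XX l N M K k q *ᵥ v := by
  have hH : (WT l N M K k (q + 1) - WT l N M K k q).IsHermitian :=
    (WT_psd h k (q + 1)).isHermitian.sub (WT_psd h k q).isHermitian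
  rw [XX, H420.quad_sq hH, dotProduct]
  refine sum_congr rfl fun i _ => ?_
  rw [H652.nb, sub_mulVec, Pi.sub_apply]
  ring

theorem own_XX (h : Tr l N G K) (k : ℕ) (q : ℤ) :
    ms (XX l N M K k q) (Kx l N M K k q) ≤ dlt l N M K k q ^ 2 := by
  have h1 := inv_diff_mass h.l_pos (Gx_psd (M := M) h k (q + 1)) (Kx_pd (M := M) h k q)
    (Kx_pd (M := M) h k (q + 1)) (Kx_sq (M := M) h k (q + 1))
  have e : WT l N M K k (q + 1) - WT l N M K k q =
      √l • (Kx l N M K k q)⁻¹ - √l • (Kx l N M K k (q + 1))⁻¹ := by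
    rw [WT_Kx h, WT_Kx h]; abel
  have hH : (Kx l N M K k (q + 1) - Kx l N M K k q).IsHermitian :=
    (Kx_pd h k (q + 1)).isHermitian.sub (Kx_pd h k q).isHermitian
  rw [XX, e, dlt, rho, Real.sq_sqrt (sq_psd hH).trace_nonneg]
  exact h1

theorem half_psd (h : Tr l N G K) {k : ℕ} (hk : k < N) (q : ℤ) :
    (G (k + 1) q + (1 / 2 : ℝ) • (G k (2 * q) - G k (2 * q + 1))).PosSemidef ∧
    (G (k + 1) q - (1 / 2 : ℝ) • (G k (2 * q) - G k (2 * q + 1))).PosSemidef := by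
  have e1 : G (k + 1) q + (1 / 2 : ℝ) • (G k (2 * q) - G k (2 * q + 1)) = G k (2 * q) := by
    rw [h.mean k hk q]; module
  have e2 : G (k + 1) q - (1 / 2 : ℝ) • (G k (2 * q) - G k (2 * q + 1)) = G k (2 * q + 1) := by
    rw [h.mean k hk q]; module
  rw [e1, e2]
  exact ⟨h.psG _ _, h.psG _ _⟩

theorem own_DW (h : Tr l N G K) {k : ℕ} (hk : k < N) {q : ℤ} (hq : q ∈ iv (N - (k + 1)) M) :
    ms (DW l N M K (k + 1) q * DW l N M K (k + 1) q) (K (k + 1) q) ≤ gd K (k + 1) q := by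
  have h1 := own_dS (h.nd hk q) (half_psd h hk q).1 (half_psd h hk q).2
  have e : DW l N M K (k + 1) q =
      -((1 / 2 : ℝ) • (√l • (K k (2 * q))⁻¹ - √l • (K k (2 * q + 1))⁻¹)) := by
    rw [DW, Nat.add_sub_cancel, WT_in ((in_left hk).2 hq), WT_in ((in_right hk).2 hq)]
    module
  rw [e, Matrix.neg_mul, Matrix.mul_neg, neg_neg]
  exact h1

theorem ms_parent (h : Tr l N G K) {k : ℕ} (hk : k < N) (m : ℤ) {Y : Matrix ι ι ℝ}
    (hY : Y.PosSemidef) (hY1 : ((1 : Matrix ι ι ℝ) - Y).PosSemidef) :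
    ms Y (K (k + 1) (m / 2)) ≤ (5 / 4) * ms Y (K k m) + 20 * gd K (k + 1) (m / 2) := by
  have h1 := al_lip hY hY1 (h.pdK k m).isHermitian (h.pdK (k + 1) (m / 2)).isHermitian
  have h2 := rho_up h hk m
  rw [rho_comm, rho] at h2
  have h3 : √(ms Y (K (k + 1) (m / 2))) ≤ √(ms Y (K k m)) + 2 * √(gd K (k + 1) (m / 2)) := by
    linarith
  have n1 := ms_nonneg hY (h.pdK (k + 1) (m / 2)).isHermitian
  have n2 := ms_nonneg hY (h.pdK k m).isHermitian
  have n3 := gd_nonneg h (k + 1) (m / 2)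
  have h4 := pow_le_pow_left₀ (Real.sqrt_nonneg _) h3 2
  have e1 := Real.sq_sqrt n1
  have e2 := Real.sq_sqrt n2
  have e3 := Real.sq_sqrt n3
  rw [e1] at h4
  have h5 : (√(ms Y (K k m)) + 2 * √(gd K (k + 1) (m / 2))) ^ 2 ≤
      (5 / 4) * √(ms Y (K k m)) ^ 2 + 20 * √(gd K (k + 1) (m / 2)) ^ 2 := by
    nlinarith [sq_nonneg (√(ms Y (K k m)) - 8 * √(gd K (k + 1) (m / 2)))]
  rw [e2, e3] at h5
  exact h4.trans h5

/-- own masses of `MM` at one scale -/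
def aM (l : ℝ) (N : ℕ) (M : ℤ) (K : ℕ → ℤ → Matrix ι ι ℝ) (k : ℕ) : ℝ :=
  ∑ q ∈ iv (N - k) M, ms (MM l N M K k q) (K k q)

theorem aM_step (h : Tr l N G K) {k : ℕ} (hk : k < N) :
    aM l N M K (k + 1) ≤ (5 / 12) * aM l N M K k +
      (43 / 3) * ∑ q ∈ iv (N - (k + 1)) M, gd K (k + 1) q := by
  have e0 : N - k = (N - (k + 1)) + 1 := by omega
  rw [aM, aM, e0, sum_two, mul_sum, mul_sum, ← sum_add_distrib]
  refine sum_le_sum fun q hq => ?_
  have h1 := own_DW h hk hq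
  have h2 := ms_parent h hk (2 * q) (MM_psd (M := M) h k (2 * q)) (MM_le (M := M) h k (2 * q))
  have h3 := ms_parent h hk (2 * q + 1) (MM_psd (M := M) h k (2 * q + 1))
    (MM_le (M := M) h k (2 * q + 1))
  have e1 : 2 * q / 2 = q := by omega
  have e2 : (2 * q + 1) / 2 = q := by omega
  rw [e1] at h2
  rw [e2] at h3
  rw [MM, ms_add, ms_smul, ms_add]
  linarith

theorem MM_sum (h : Tr l N G K) : ∀ R ≤ N, ∑ k ∈ range (R + 1), 2 ^ k * aM l N M K k +
    5 * (2 ^ R * aM l N M K R) ≤ 86 * ∑ k ∈ Icc 1 R, 2 ^ k * ∑ q ∈ iv (N - k) M, gd K k q := by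
  intro R
  induction R with
  | zero => intro _; simp [aM, MM, ms]
  | succ R ih =>
    intro hR
    have h1 := ih (by omega)
    have h2 := aM_step (M := M) h (k := R) (by omega)
    have h3 := mul_le_mul_of_nonneg_left h2 (show (0 : ℝ) ≤ 2 ^ (R + 1) by positivity)
    rw [sum_range_succ, sum_Icc_succ_top (by omega), mul_add 86]
    have e : (2 : ℝ) ^ (R + 1) = 2 * 2 ^ R := by rw [pow_succ]; ring
    rw [e] at h3 ⊢
    linarith

/-- `∑ x ∈ iv k p, ⟪u x, Y u x⟫` in terms of the Gram matrix -/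
theorem form_sum {k : ℕ} {p : ℤ} {u : ℤ → ι → ℝ} {Gp Kp Y : Matrix ι ι ℝ} {l : ℝ} (hl : 0 < l)
    (hG : Gp = ((2 : ℝ) ^ k)⁻¹ • ∑ x ∈ iv k p, vecMulVec (u x) (u x))
    (hK : Kp * Kp = l • (1 : Matrix ι ι ℝ) + Gp) (hY : Y.PosSemidef) :
    ∑ x ∈ iv k p, u x ⬝ᵥ Y *ᵥ u x ≤ 2 ^ k * ms Y Kp := by
  have h1 : ∑ x ∈ iv k p, u x ⬝ᵥ Y *ᵥ u x = 2 ^ k * (Y * Gp).trace := by
    rw [hG, Matrix.mul_smul, trace_smul, smul_eq_mul, ← mul_assoc,
      mul_inv_cancel₀ (by positivity), one_mul, Matrix.mul_sum, trace_sum]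
    refine sum_congr rfl fun x _ => ?_
    rw [mul_vecMulVec]
    simp [trace, vecMulVec_apply, dotProduct, mul_comm]
  rw [h1, ms, hK, Matrix.mul_add, trace_add, Matrix.mul_smul, trace_smul, smul_eq_mul,
    Matrix.mul_one]
  have := mul_nonneg hl.le hY.trace_nonneg
  have h2 : (0 : ℝ) ≤ 2 ^ k := by positivity
  nlinarith

/-- the matrix of `H652.HdV` -/
def HM (l : ℝ) (N : ℕ) (M : ℤ) (K : ℕ → ℤ → Matrix ι ι ℝ) (k : ℕ) (q : ℤ) : Matrix ι ι ℝ :=
  (4 : ℝ) • XX l N M K k q + (3 : ℝ) • (MM l N M K k q + MM l N M K k (q + 1))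

theorem HM_psd (h : Tr l N G K) (k : ℕ) (q : ℤ) : (HM l N M K k q).PosSemidef :=
  ((XX_psd h k q).smul (by norm_num)).add (((MM_psd h k q).add (MM_psd h k (q + 1))).smul
    (by norm_num))

theorem HdV_form (h : Tr l N G K) (v : ι → ℝ) (k : ℕ) (m : ℤ) :
    H652.HdV (fun k q => WT l N M K k q *ᵥ v) (k + 1) m =
      ∑ j ∈ range 7, v ⬝ᵥ HM l N M K k (2 * m - 4 + j) *ᵥ v := by
  rw [H652.HdV]
  simp only [H652.Hd, H652.Bv, Nat.add_sub_cancel]
  rw [sum_comm]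
  refine sum_congr rfl fun j _ => ?_
  rw [HM, add_mulVec, dotProduct_add, smul_mulVec, dotProduct_smul, smul_mulVec,
    dotProduct_smul, add_mulVec, dotProduct_add, ← XX_form h, ← MM_form h, ← MM_form h]
  simp only [smul_eq_mul]
  rw [sum_add_distrib, ← mul_sum, sum_add_distrib, sum_add_distrib]
  ring

end base

end

end Vale.Agent.P141.H784
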