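import Vale.Agent.P141.H784.BMpl

/-!
# P141, line (A): the payers of the pair at the hub `x1`, live cells of the active rows only

`Y` : the active rows, `B = 0` off `Y`.

* `payB_ah_act`, `payB_eb_act`.
-/

namespace Vale.Agent.P141.H784

set_option linter.unusedSectionVars false

open Matrix Finset
open Vale.Agent.P141.PL (Pt iv mem_iv card_iv ix ix_ix)
open Vale.Agent.P141.H420 (Tr quad_nonneg)
open Vale.Agent.P141.H103 (GW)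
open Vale.Agent.P141.H652 (WT ET ET_psd HdV HdV_nonneg ah eb st eb_le)

noncomputable section

variable {ι : Type*} [Fintype ι] [DecidableEq ι]
variable {l e : ℝ} {K : ℕ} {R S T : ℤ} {G Kq : ℤ → ℕ → ℤ → Matrix ι ι ℝ} {u : ℤ → ℤ → ι → ℝ}
  {φ : ℕ → Pt → ℝ}
variable {al : ℤ → ℕ → ℤ → Prop} [∀ x k q, Decidable (al x k q)] {a : ℝ} {Y : Finset ℤ}

/-- live cells of the active rows -/
def act (Y : Finset ℤ) (al : ℤ → ℕ → ℤ → Prop) (x : ℤ) (k : ℕ) (q : ℤ) : Prop := x ∈ Y ∧ al x k q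

instance (x : ℤ) (k : ℕ) (q : ℤ) : Decidable (act Y al x k q) := by
  unfold act; infer_instance

/-- a sum over the root with active weights is a sum over the active rows -/
theorem sum_act (hY : Y ⊆ iv K S) (X : Finset ℤ) (f : ℕ → ℤ → ℤ → ℤ → ℤ → ℝ) (c : ℤ) :
    ∑ x0 ∈ X, ∑ x ∈ iv K S, ∑ k ∈ Icc 1 K, ∑ m ∈ iv (K - k) T,
      ∑ y ∈ (iv K R).filter (fun y => Tie k 0 c x0 x y m),
        lv (act Y al) φ k (x0, x, y) ^ 2 * f k x0 x y m =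
    ∑ x0 ∈ X, ∑ x ∈ Y, ∑ k ∈ Icc 1 K, ∑ m ∈ iv (K - k) T,
      ∑ y ∈ (iv K R).filter (fun y => Tie k 0 c x0 x y m),
        lv al φ k (x0, x, y) ^ 2 * f k x0 x y m := by
  refine sum_congr rfl fun x0 _ => ?_
  refine (sum_subset hY fun x _ hx => ?_).symm.trans (sum_congr rfl fun x hx =>
    sum_congr rfl fun k _ => sum_congr rfl fun m _ => sum_congr rfl fun y _ => ?_)
  · refine sum_eq_zero fun k _ => sum_eq_zero fun m _ => sum_eq_zero fun y _ => ?_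
    have e : lv (act Y al) φ k (x0, x, y) = 0 := if_neg fun h => hx h.1
    rw [e]
    norm_num
  · have e : lv (act Y al) φ k (x0, x, y) = lv al φ k (x0, x, y) := by
      by_cases h : al x k (ix k y)
      · exact (if_pos ⟨hx, h⟩).trans (if_pos h).symm
      · exact (if_neg fun h3 => h h3.2).trans (if_neg h).symm
    rw [e]

/-- **the half differences on the side `b`, active rows**: plane sums over all `x0` -/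
theorem payB_ah_act {o : ℤ} (ho : o = 1 ∨ o = -1) (X : Finset ℤ) (hY : Y ⊆ iv K S)
    (hT : ∀ x ∈ Y, Tr l K (G x) (Kq x))
    (hG : ∀ x ∈ Y, ∀ k ≤ K, ∀ p, G x k p =
      ((2 : ℝ) ^ k)⁻¹ • ∑ y ∈ iv k p, vecMulVec (u x y) (u x y))
    (ha : 0 ≤ a) (hal : ∀ x ∈ Y, ∀ k ≤ K, ∀ p ∈ iv (K - k) R, al x k p → ∀ i ≤ K - k,
      (G x (k + i) (p / 2 ^ i)).trace ≤ a)
    (he : 0 ≤ e) (hφ : ∀ k ∈ Icc 1 K, ∀ j x y, ∑ x0 ∈ iv k j, φ k (x0, x, y) ^ 2 ≤ e * 2 ^ k)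
    {B : ℤ → ℕ → ℤ → ℤ → ι → ℝ}
    (hB : ∀ x0 ∈ X, ∀ k ∈ Icc 1 K, ∀ x ∈ Y, ∀ n ∈ iv (K - k) R, al x k n → ∀ w : ι → ℝ,
      ∑ y ∈ iv k n, (B x0 k x y ⬝ᵥ w) ^ 2 ≤
        ∑ y ∈ iv k n, φ k (x0, x, y) ^ 2 * (u x y ⬝ᵥ w) ^ 2)
    (hB0 : ∀ x0 ∈ X, ∀ k ∈ Icc 1 K, ∀ x ∈ Y, ∀ n ∈ iv (K - k) R, ¬ al x k n →
      ∀ y ∈ iv k n, B x0 k x y = 0)
    (hBY : ∀ x0 ∈ X, ∀ k ∈ Icc 1 K, ∀ x ∈ iv K S, x ∉ Y → ∀ y ∈ iv K R, B x0 k x y = 0)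
    {F : ℤ → ℤ → ℕ → ℤ → Matrix ι ι ℝ} {g : ℝ} (hg : 0 ≤ g)
    (hF : ∀ x0 ∈ X, ∀ x ∈ iv K S, ∀ k ∈ Icc 1 K, ∀ m, (F x0 x k m).PosSemidef)
    (hFa : ∀ x0 ∈ X, ∀ x ∈ iv K S, ∀ k ∈ Icc 1 K, ∀ m, ∀ w : ι → ℝ, w ⬝ᵥ F x0 x k m *ᵥ w ≤
      g * ((ah l K R (Kq x) (o - 2) x0 x (k - 1) m *ᵥ w) ⬝ᵥ
        (ah l K R (Kq x) (o - 2) x0 x (k - 1) m *ᵥ w))) (A : ℕ) :
    ∑ x0 ∈ X, ∑ k ∈ Icc 1 K, GW K R S T k (o - 2 - ix k x0) (fun n n' m =>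
      av k n m fun x y => B x0 k x y ⬝ᵥ F x0 x k n' *ᵥ B x0 k x y) ≤
    g * (e * (2 ^ K * ∑ x ∈ Y, 515625000 * numB l K R (G x) a A)) := by
  have hin : ∀ k ∈ Icc 1 K, ∀ n ∈ iv (K - k) R, ∀ y ∈ iv k n, y ∈ iv K R := by
    intro k hk n hn y hy
    rw [mem_iv] at hn hy ⊢
    rw [← hy, ix_ix, Nat.add_sub_cancel' (mem_Icc.1 hk).2] at hn
    exact hn
  refine (payB_gen (φ := lv (act Y al) φ) X (rows_live (al := act Y al)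
    (fun x0 h0 k hk x hx n hn h w => hB x0 h0 k hk x h.1 n hn h.2 w)
    (fun x0 h0 k hk x hx n hn h y hy => ?_)) hF (f := fun k x0 x y m =>
    g * ((ah l K R (Kq x) (o - 2) x0 x (k - 1) m *ᵥ u x y) ⬝ᵥ
      (ah l K R (Kq x) (o - 2) x0 x (k - 1) m *ᵥ u x y)))
    (fun x0 h0 x hx k hk y m => hFa x0 h0 x hx k hk m (u x y)) o).trans ?_
  · by_cases hxY : x ∈ Y
    · exact hB0 x0 h0 k hk x hxY n hn (fun h3 => h ⟨hxY, h3⟩) y hy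
    · exact hBY x0 h0 k hk x hx hxY y (hin k hk n hn y hy)
  rw [sum_act hY X (fun k x0 x y m =>
    g * ((ah l K R (Kq x) (o - 2) x0 x (k - 1) m *ᵥ u x y) ⬝ᵥ
      (ah l K R (Kq x) (o - 2) x0 x (k - 1) m *ᵥ u x y))) (o - 2)]
  have h1 := BM_plane_st (J := 0) (S := R) (S3 := T) ho X Y hT hG ha hal
    (W := fun k x0 x y => lv al φ k (x0, x, y) ^ 2)
    he (fun _ _ _ _ => sq_nonneg _) (wt_live hφ) (fun k _ x0 x1 x2 h => by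
      show (if al x1 k (ix k x2) then φ k (x0, x1, x2) else 0) ^ 2 = 0
      rw [if_neg h]
      norm_num) A
  have h2 := mul_le_mul_of_nonneg_left h1 hg
  refine le_trans (le_of_eq ?_) (h2.trans (le_of_eq ?_))
  · rw [mul_sum]
    refine sum_congr rfl fun x0 _ => ?_
    rw [mul_sum]
    refine sum_congr rfl fun x _ => ?_
    rw [mul_sum]
    refine sum_congr rfl fun k _ => ?_
    rw [mul_sum]
    refine sum_congr rfl fun m _ => ?_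
    rw [mul_sum]
    refine sum_congr rfl fun y _ => ?_
    ring
  · norm_num

/-- **the losses on the side `b`, active rows**: plane sums over all `x0` -/
theorem payB_eb_act {o : ℤ} (ho : o = 1 ∨ o = -1) (X : Finset ℤ) (hY : Y ⊆ iv K S)
    (hT : ∀ x ∈ Y, Tr l K (G x) (Kq x))
    (hG : ∀ x ∈ Y, ∀ k ≤ K, ∀ p, G x k p =
      ((2 : ℝ) ^ k)⁻¹ • ∑ y ∈ iv k p, vecMulVec (u x y) (u x y))
    (ha : 0 ≤ a) (hal : ∀ x ∈ Y, ∀ k ≤ K, ∀ p ∈ iv (K - k) R, al x k p → ∀ i ≤ K - k,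
      (G x (k + i) (p / 2 ^ i)).trace ≤ a)
    (he : 0 ≤ e) (hφ : ∀ k ∈ Icc 1 K, ∀ j x y, ∑ x0 ∈ iv k j, φ k (x0, x, y) ^ 2 ≤ e * 2 ^ k)
    {B : ℤ → ℕ → ℤ → ℤ → ι → ℝ}
    (hB : ∀ x0 ∈ X, ∀ k ∈ Icc 1 K, ∀ x ∈ Y, ∀ n ∈ iv (K - k) R, al x k n → ∀ w : ι → ℝ,
      ∑ y ∈ iv k n, (B x0 k x y ⬝ᵥ w) ^ 2 ≤
        ∑ y ∈ iv k n, φ k (x0, x, y) ^ 2 * (u x y ⬝ᵥ w) ^ 2)
    (hB0 : ∀ x0 ∈ X, ∀ k ∈ Icc 1 K, ∀ x ∈ Y, ∀ n ∈ iv (K - k) R, ¬ al x k n →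
      ∀ y ∈ iv k n, B x0 k x y = 0)
    (hBY : ∀ x0 ∈ X, ∀ k ∈ Icc 1 K, ∀ x ∈ iv K S, x ∉ Y → ∀ y ∈ iv K R, B x0 k x y = 0)
    {F : ℤ → ℤ → ℕ → ℤ → Matrix ι ι ℝ} {g : ℝ} (hg : 0 ≤ g)
    (hF : ∀ x0 ∈ X, ∀ x ∈ iv K S, ∀ k ∈ Icc 1 K, ∀ m, (F x0 x k m).PosSemidef)
    (hFa : ∀ x0 ∈ X, ∀ x ∈ iv K S, ∀ k ∈ Icc 1 K, ∀ m, ∀ w : ι → ℝ, w ⬝ᵥ F x0 x k m *ᵥ w ≤
      g * (w ⬝ᵥ eb l K R (Kq x) (o - 2) x0 x k m *ᵥ w)) (A : ℕ) :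
    ∑ x0 ∈ X, ∑ k ∈ Icc 1 K, GW K R S T k (o - 2 - ix k x0) (fun n n' m =>
      av k n m fun x y => B x0 k x y ⬝ᵥ F x0 x k n' *ᵥ B x0 k x y) ≤
    g * (e * (2 ^ K * ∑ x ∈ Y, 89180 * numB l K R (G x) a A)) := by
  have hin : ∀ k ∈ Icc 1 K, ∀ n ∈ iv (K - k) R, ∀ y ∈ iv k n, y ∈ iv K R := by
    intro k hk n hn y hy
    rw [mem_iv] at hn hy ⊢
    rw [← hy, ix_ix, Nat.add_sub_cancel' (mem_Icc.1 hk).2] at hn
    exact hn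
  refine (payB_gen (φ := lv (act Y al) φ) X (rows_live (al := act Y al)
    (fun x0 h0 k hk x hx n hn h w => hB x0 h0 k hk x h.1 n hn h.2 w)
    (fun x0 h0 k hk x hx n hn h y hy => ?_)) hF (f := fun k x0 x y m =>
    g * (u x y ⬝ᵥ eb l K R (Kq x) (o - 2) x0 x k m *ᵥ u x y))
    (fun x0 h0 x hx k hk y m => hFa x0 h0 x hx k hk m (u x y)) o).trans ?_
  · by_cases hxY : x ∈ Y
    · exact hB0 x0 h0 k hk x hxY n hn (fun h3 => h ⟨hxY, h3⟩) y hy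
    · exact hBY x0 h0 k hk x hx hxY y (hin k hk n hn y hy)
  rw [sum_act hY X (fun k x0 x y m =>
    g * (u x y ⬝ᵥ eb l K R (Kq x) (o - 2) x0 x k m *ᵥ u x y)) (o - 2)]
  have h1 := EB_plane_st (J := 0) (S := R) (S3 := T) ho X Y hT hG ha hal
    (W := fun k x0 x y => lv al φ k (x0, x, y) ^ 2)
    he (fun _ _ _ _ => sq_nonneg _) (wt_live hφ) (fun k _ x0 x1 x2 h => by
      show (if al x1 k (ix k x2) then φ k (x0, x1, x2) else 0) ^ 2 = 0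
      rw [if_neg h]
      norm_num) A
  have h2 := mul_le_mul_of_nonneg_left h1 hg
  refine le_trans (le_of_eq ?_) (h2.trans (le_of_eq ?_))
  · rw [mul_sum]
    refine sum_congr rfl fun x0 _ => ?_
    rw [mul_sum]
    refine sum_congr rfl fun x _ => ?_
    rw [mul_sum]
    refine sum_congr rfl fun k _ => ?_
    rw [mul_sum]
    refine sum_congr rfl fun m _ => ?_
    rw [mul_sum]
    refine sum_congr rfl fun y _ => ?_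
    ring
  · norm_num

end

end Vale.Agent.P141.H784
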