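import Vale.Agent.P141.H784.PairR
import Vale.Agent.P141.H784.PayB

/-!
# P141, line (A): the moves of `Theta` on the slot `B`, live cells only, no logarithm of `s`

The tree is stopped by the row height: bad cells are inside or equal to a maximal cell of trace
more than `2 h`; a live cell has trace at most `h` together with its ancestors.

* `stG`, `stK`, `st_tr` : the stopped tree, zero outside the root;
* `BM_half_st`, `BM_drift_st` : the sums of `BMsum` over the live cells;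
* `BM_plane_st`, `EB_plane_st` : the same on the planes;
* `payB_ah_st`, `payB_eb_st` : the payers of the pair at the hub `x1`.
-/

namespace Vale.Agent.P141.H784

open Matrix Finset
open Vale.Agent.P141.PL (iv mem_iv card_iv ix ix_ix)
open Vale.Agent.P141.H420 (Tr Nd tr_symm trace_mul_nonneg quad_nonneg inv_mul_self' mul_inv_self'
  inv_G_inv inv_le)
open Vale.Agent.P141.H652 (WT ET WT_in WT_out ET_in ET_out WT_psd WT_le_one in_left in_right
  ET_psd ET_le_WT HdV HdV_nonneg ah eb st eb_le)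
open Vale.Agent.P141.H103 (GW)

set_option linter.unusedSectionVars false

noncomputable section

variable {ι : Type*} [Fintype ι] [DecidableEq ι]
variable {l : ℝ} {N : ℕ} {M : ℤ} {G K : ℕ → ℤ → Matrix ι ι ℝ}

/-- the value of a stopped family, by depth -/
def stp {α : Type*} (N : ℕ) (B : ℕ → ℤ → Prop) [∀ k q, Decidable (B k q)] (F : ℕ → ℤ → α) :
    ℕ → ℤ → α
  | 0, q => F N q
  | (n + 1), q => if B (N - n) (q / 2) then stp N B F n (q / 2) else F (N - (n + 1)) q

theorem stp_prop {α : Type*} {B : ℕ → ℤ → Prop} [∀ k q, Decidable (B k q)] {F : ℕ → ℤ → α}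
    {P : α → Prop} (hF : ∀ k q, P (F k q)) : ∀ n q, P (stp N B F n q) := by
  intro n
  induction n with
  | zero => intro q; exact hF N q
  | succ n ih =>
    intro q
    rw [stp]
    split_ifs
    · exact ih _
    · exact hF _ _

/-- heights of the cells -/
def ht (G : ℕ → ℤ → Matrix ι ι ℝ) (k : ℕ) (q : ℤ) : ℝ := (G k q).trace

/-- the stopped Gram matrices -/
def stG (N : ℕ) (M : ℤ) (G : ℕ → ℤ → Matrix ι ι ℝ) (h : ℝ) (k : ℕ) (q : ℤ) : Matrix ι ι ℝ :=
  if q ∈ iv (N - k) M then stp N (bad N M (ht G) h) G (N - k) q else 0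

/-- the stopped roots -/
def stK (l : ℝ) (N : ℕ) (M : ℤ) (G K : ℕ → ℤ → Matrix ι ι ℝ) (h : ℝ) (k : ℕ) (q : ℤ) :
    Matrix ι ι ℝ :=
  if q ∈ iv (N - k) M then stp N (bad N M (ht G) h) K (N - k) q else √l • 1

theorem stp_bad {α : Type*} {h : ℝ} {g : ℕ → ℤ → ℝ} {F : ℕ → ℤ → α} {k : ℕ} (hk : k < N) {q : ℤ}
    (hb : bad N M g h (k + 1) (q / 2)) :
    stp N (bad N M g h) F (N - k) q = stp N (bad N M g h) F (N - (k + 1)) (q / 2) := by
  have e : N - k = (N - (k + 1)) + 1 := by omega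
  have e2 : N - (N - (k + 1)) = k + 1 := by omega
  rw [e, stp, e2, if_pos hb]

theorem stp_good {α : Type*} {h : ℝ} {g : ℕ → ℤ → ℝ} {F : ℕ → ℤ → α} {k : ℕ} (hk : k < N) {q : ℤ}
    (hb : ¬ bad N M g h (k + 1) (q / 2)) : stp N (bad N M g h) F (N - k) q = F k q := by
  have e : N - k = (N - (k + 1)) + 1 := by omega
  have e2 : N - (N - (k + 1)) = k + 1 := by omega
  have e3 : N - (N - (k + 1) + 1) = k := by omega
  rw [e, stp, e2, if_neg hb, e3]

theorem stp_top {α : Type*} {B : ℕ → ℤ → Prop} [∀ k q, Decidable (B k q)] {F : ℕ → ℤ → α}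
    (q : ℤ) : stp N B F (N - N) q = F N q := by
  rw [Nat.sub_self, stp]

/-- at a cell which is not bad the stopped family is the family -/
theorem stp_self {α : Type*} {h : ℝ} {g : ℕ → ℤ → ℝ} {F : ℕ → ℤ → α} {k : ℕ} (hk : k ≤ N) {q : ℤ}
    (hb : ¬ bad N M g h k q) : stp N (bad N M g h) F (N - k) q = F k q := by
  rcases hk.lt_or_eq with h1 | h1
  · exact stp_good h1 fun h2 => hb (bad_child h1 h2)
  · subst h1
    exact stp_top q

/-- **the stopped tree** -/
theorem st_tr (h : Tr l N G K) (a : ℝ) : Tr l N (stG N M G a) (stK l N M G K a) := by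
  have hsq : ∀ n q, stp N (bad N M (ht G) a) K n q * stp N (bad N M (ht G) a) K n q =
      l • (1 : Matrix ι ι ℝ) + stp N (bad N M (ht G) a) G n q := by
    intro n
    induction n with
    | zero => intro q; exact h.sq N q
    | succ n ih =>
      intro q
      rw [stp, stp]
      split_ifs
      · exact ih _
      · exact h.sq _ _
  refine ⟨h.l_pos, fun k q => ?_, fun k q => ?_, fun k q => ?_, fun k hk q => ?_⟩
  · unfold stG
    split_ifs
    · exact stp_prop (P := fun X : Matrix ι ι ℝ => X.PosSemidef) (fun k q => h.psG k q) _ _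
    · exact PosSemidef.zero
  · unfold stK
    split_ifs
    · exact stp_prop (P := fun X : Matrix ι ι ℝ => X.PosDef) (fun k q => h.pdK k q) _ _
    · exact PosDef.one.smul (Real.sqrt_pos.2 h.l_pos)
  · unfold stG stK
    split_ifs
    · exact hsq _ _
    · rw [smul_mul_smul_comm, Real.mul_self_sqrt h.l_pos.le, Matrix.one_mul, add_zero]
  · unfold stG
    have e1 : 2 * q / 2 = q := by omega
    have e2 : (2 * q + 1) / 2 = q := by omega
    by_cases hq : q ∈ iv (N - (k + 1)) M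
    · rw [if_pos hq, if_pos ((in_left hk).2 hq), if_pos ((in_right hk).2 hq)]
      by_cases hb : bad N M (ht G) a (k + 1) q
      · rw [stp_bad hk (q := 2 * q) (by rw [e1]; exact hb),
          stp_bad hk (q := 2 * q + 1) (by rw [e2]; exact hb), e1, e2]
        module
      · rw [stp_good hk (q := 2 * q) (by rw [e1]; exact hb),
          stp_good hk (q := 2 * q + 1) (by rw [e2]; exact hb), stp_self (by omega) hb]
        exact h.mean k hk q
    · rw [if_neg hq, if_neg fun h1 => hq ((in_left hk).1 h1),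
        if_neg fun h1 => hq ((in_right hk).1 h1), add_zero, smul_zero]

theorem stG_self {k : ℕ} (hk : k ≤ N) {q : ℤ} (hq : q ∈ iv (N - k) M) {a : ℝ}
    (hb : ¬ bad N M (ht G) a k q) : stG N M G a k q = G k q := by
  rw [stG, if_pos hq, stp_self hk hb]

/-- the weights agree where the parent is not bad -/
theorem st_WT (a : ℝ) {k : ℕ} (hk : k < N) (q : ℤ)
    (hb : ¬ bad N M (ht G) a (k + 1) (q / 2)) :
    WT l N M K k q = WT l N M (stK l N M G K a) k q := by
  by_cases hq : q ∈ iv (N - k) M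
  · rw [WT_in hq, WT_in hq, stK, if_pos hq, stp_good hk hb]
  · rw [WT_out hq, WT_out hq]

theorem st_WTN (a : ℝ) (q : ℤ) : WT l N M K N q = WT l N M (stK l N M G K a) N q := by
  by_cases hq : q ∈ iv (N - N) M
  · rw [WT_in hq, WT_in hq, stK, if_pos hq, stp_top]
  · rw [WT_out hq, WT_out hq]

/-- heights of the stopped tree -/
theorem st_height (h : Tr l N G K) {a : ℝ} (ha : 0 ≤ a) (hN : (G N M).trace ≤ 2 * a) :
    ∀ n ≤ N, ∀ q ∈ iv n M, (stp N (bad N M (ht G) a) G n q).trace ≤ 4 * a := by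
  intro n
  induction n with
  | zero =>
    intro _ q hq
    have e : q = M := by rw [mem_iv'] at hq; simp at hq; omega
    rw [e, stp]
    linarith
  | succ n ih =>
    intro hn q hq
    have hk : N - (n + 1) < N := by omega
    have e0 : N - (n + 1) + 1 = N - n := by omega
    have en : N - (N - (n + 1)) = n + 1 := by omega
    have hq2 : q / 2 ∈ iv n M := by
      have h1 := (iv_half (M := M) hk (q := q)).2 (by rw [en]; exact hq)
      rw [e0, show N - (N - n) = n by omega] at h1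
      exact h1
    rw [stp]
    split_ifs with hb
    · exact ih (by omega) _ hq2
    · have h1 : (G (N - n) (q / 2)).trace ≤ 2 * a := by
        by_contra h2
        push Not at h2
        exact hb ⟨by rw [show N - (N - n) = n by omega]; exact hq2, 0, by omega,
          by simpa [ht] using h2⟩
      have h3 : (G (N - n) (q / 2)).trace = (1 / 2) * ((G (N - (n + 1)) (2 * (q / 2))).trace +
          (G (N - (n + 1)) (2 * (q / 2) + 1)).trace) := by
        have h4 := h.mean (N - (n + 1)) hk (q / 2)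
        rw [e0] at h4
        rw [h4, trace_smul, trace_add, smul_eq_mul]
      have n1 := (h.psG (N - (n + 1)) (2 * (q / 2))).trace_nonneg
      have n2 := (h.psG (N - (n + 1)) (2 * (q / 2) + 1)).trace_nonneg
      rcases Int.emod_two_eq_zero_or_one q with e | e
      · have e2 : 2 * (q / 2) = q := by omega
        rw [e2] at h3 n1 n2
        linarith
      · have e2 : 2 * (q / 2) + 1 = q := by omega
        rw [e2] at h3 n2
        linarith

/-- the forms of a positive matrix are at most its trace -/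
theorem quad_le_trace {Y : Matrix ι ι ℝ} (hY : Y.PosSemidef) (v : ι → ℝ) :
    v ⬝ᵥ Y *ᵥ v ≤ Y.trace * (v ⬝ᵥ v) := by
  have hB : ((v ⬝ᵥ v) • (1 : Matrix ι ι ℝ) - vecMulVec v v).PosSemidef := by
    refine PosSemidef.of_dotProduct_mulVec_nonneg ?_ fun w => ?_
    · refine IsHermitian.ext fun i j => ?_
      simp [vecMulVec_apply, Matrix.one_apply, mul_comm, eq_comm]
    · have h1 := sum_mul_sq_le_sq_mul_sq univ v w
      rw [star_trivial, sub_mulVec, dotProduct_sub, smul_mulVec, one_mulVec, dotProduct_smul,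
        vecMulVec_mulVec, smul_eq_mul]
      simp only [dotProduct, Pi.smul_apply, MulOpposite.smul_eq_mul_unop, MulOpposite.unop_op]
      have e1 : ∑ i, w i * (v i * ∑ j, v j * w j) = (∑ i, v i * w i) ^ 2 := by
        rw [sq, sum_mul]
        exact sum_congr rfl fun i _ => by ring
      have e2 : ∑ i, v i * v i = ∑ i, v i ^ 2 := sum_congr rfl fun i _ => by ring
      have e3 : ∑ i, w i * w i = ∑ i, w i ^ 2 := sum_congr rfl fun i _ => by ring
      rw [e1, e2, e3]
      linarith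
  have h1 := trace_mul_nonneg hY hB
  rw [Matrix.mul_sub, Matrix.mul_smul, Matrix.mul_one, trace_sub, trace_smul, smul_eq_mul,
    mul_vecMulVec] at h1
  have e : (vecMulVec (Y *ᵥ v) v).trace = v ⬝ᵥ Y *ᵥ v := by
    simp [trace, vecMulVec_apply, dotProduct, mul_comm]
  rw [e] at h1
  linarith

/-- the two numbers of the stopped tree -/
theorem st_total (h : Tr l N G K) {a : ℝ} (ha : 0 ≤ a) (hN : (G N M).trace ≤ 2 * a) (A : ℕ) :
    DK N M (stK l N M G K a) + Bd N M (stG N M G a) ≤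
      2 ^ N * ((1 + Real.log (1 + 4 * a / l) + 2 * A) * (G N M).trace + 16 * a / 2 ^ A) := by
  have h' := st_tr (M := M) h a
  have hH : ∀ p, (stG N M G a 0 p).trace ≤ 4 * a := by
    intro p
    unfold stG
    split_ifs with hp
    · exact st_height h ha hN _ (by omega) p hp
    · rw [trace_zero]; linarith
  have h1 := BM_total (M := M) h' hH (by linarith : 0 ≤ 4 * a) (fun m v =>
    (quad_le_trace (h'.psG 0 m) v).trans (mul_le_mul_of_nonneg_right (hH m)
      (sum_nonneg fun i _ => mul_self_nonneg (v i)))) A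
  have e1 : stG N M G a N M = G N M := by
    have hM : M ∈ iv (N - N) M := by rw [Nat.sub_self, mem_iv']; simp
    rw [stG, if_pos hM, stp_top]
  rw [e1] at h1
  refine h1.trans (le_of_eq ?_)
  ring

/-- `∑ x ∈ iv k p, ⟪u x, Y u x⟫`, exact -/
theorem form_eq {k : ℕ} {p : ℤ} {u : ℤ → ι → ℝ} {Gp : Matrix ι ι ℝ} (Y : Matrix ι ι ℝ)
    (hG : Gp = ((2 : ℝ) ^ k)⁻¹ • ∑ x ∈ iv k p, vecMulVec (u x) (u x)) :
    ∑ x ∈ iv k p, u x ⬝ᵥ Y *ᵥ u x = 2 ^ k * (Y * Gp).trace := by
  rw [hG, Matrix.mul_smul, trace_smul, smul_eq_mul, ← mul_assoc,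
    mul_inv_cancel₀ (by positivity), one_mul, Matrix.mul_sum, trace_sum]
  refine sum_congr rfl fun x _ => ?_
  rw [mul_vecMulVec]
  simp [trace, vecMulVec_apply, dotProduct, mul_comm]

theorem form_one {k : ℕ} {p : ℤ} {u : ℤ → ι → ℝ} {Gp : Matrix ι ι ℝ}
    (hG : Gp = ((2 : ℝ) ^ k)⁻¹ • ∑ x ∈ iv k p, vecMulVec (u x) (u x)) :
    ∑ x ∈ iv k p, u x ⬝ᵥ u x = 2 ^ k * Gp.trace := by
  have h1 := form_eq (1 : Matrix ι ι ℝ) hG
  simp only [one_mulVec, Matrix.one_mul] at h1
  exact h1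

/-- a trace against the Gram matrix is at most the mass -/
theorem tr_le_ms {l : ℝ} (hl : 0 < l) {Gp Kp Y : Matrix ι ι ℝ}
    (hK : Kp * Kp = l • (1 : Matrix ι ι ℝ) + Gp) (hY : Y.PosSemidef) :
    (Y * Gp).trace ≤ ms Y Kp := by
  rw [ms, hK, Matrix.mul_add, trace_add, Matrix.mul_smul, trace_smul, smul_eq_mul,
    Matrix.mul_one]
  have := mul_nonneg hl.le hY.trace_nonneg
  linarith

/-- the walk near a cell, all offsets -/
theorem R_off {Bad : ℕ → ℤ → Prop} [∀ k q, Decidable (Bad k q)] (J k : ℕ) (p : ℤ) :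
    ∑ m ∈ Icc (p - (J : ℤ)) (p + J), ∑ j ∈ range 7,
      (7 * (Rb Bad k (2 * m - 4 + j) + Rb Bad k (2 * m - 4 + j + 1))) ≤
    294 * (2 * J + 1) * ∑ q ∈ Icc (p - ((J + 2 : ℕ) : ℤ)) (p + ((J + 2 : ℕ) : ℤ)),
      Rb Bad (k + 1) q := by
  set S := ∑ q ∈ Icc (p - ((J + 2 : ℕ) : ℤ)) (p + ((J + 2 : ℕ) : ℤ)), Rb Bad (k + 1) q with hS
  have h1 : ∀ q : ℤ, q / 2 ∈ Icc (p - ((J + 2 : ℕ) : ℤ)) (p + ((J + 2 : ℕ) : ℤ)) →
      Rb Bad k q ≤ 3 * S := by
    intro q hq
    have h2 := Rb_up (Bad := Bad) k q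
    have h3 : Rb Bad (k + 1) (q / 2) ≤ S :=
      single_le_sum (f := fun q => Rb Bad (k + 1) q) (fun q _ => Rb_nonneg (k + 1) q) hq
    linarith
  have h4 : ∀ m ∈ Icc (p - (J : ℤ)) (p + J), ∑ j ∈ range 7,
      (7 * (Rb Bad k (2 * m - 4 + j) + Rb Bad k (2 * m - 4 + j + 1))) ≤ 294 * S := by
    intro m hm
    rw [mem_Icc] at hm
    have h5 : ∀ j ∈ range 7, 7 * (Rb Bad k (2 * m - 4 + j) + Rb Bad k (2 * m - 4 + j + 1)) ≤
        42 * S := by
      intro j hj
      rw [mem_range] at hj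
      have a1 := h1 (2 * m - 4 + j) (by rw [mem_Icc]; push_cast; omega)
      have a2 := h1 (2 * m - 4 + j + 1) (by rw [mem_Icc]; push_cast; omega)
      linarith
    refine (sum_le_sum h5).trans (le_of_eq ?_)
    rw [sum_const, card_range, nsmul_eq_mul]
    push_cast
    ring
  refine (sum_le_sum h4).trans (le_of_eq ?_)
  rw [sum_const, Int.card_Icc, nsmul_eq_mul]
  have e : (p + J + 1 - (p - J)).toNat = 2 * J + 1 := by omega
  rw [e]
  push_cast
  ring

section live

variable {al : ℕ → ℤ → Prop} [∀ k q, Decidable (al k q)] {a : ℝ}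

/-- live cells are low and not bad -/
theorem live_low (ha : 0 ≤ a) (hal : ∀ k ≤ N, ∀ p ∈ iv (N - k) M, al k p → ∀ i ≤ N - k,
      (G (k + i) (p / 2 ^ i)).trace ≤ a) :
    ∀ k ≤ N, ∀ p ∈ iv (N - k) M, al k p → ht G k p ≤ a ∧ ¬ bad N M (ht G) a k p := by
  intro k hk p hp h1
  constructor
  · simpa [ht] using hal k hk p hp h1 0 (by omega)
  · rintro ⟨_, i, hi, h2⟩
    have h3 := hal k hk p hp h1 i hi
    unfold ht at h2
    linarith

theorem ht_mean (h : Tr l N G K) : ∀ k < N, ∀ q, 2 * ht G (k + 1) q =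
    ht G k (2 * q) + ht G k (2 * q + 1) := by
  intro k hk q
  unfold ht
  rw [h.mean k hk q, trace_smul, trace_add, smul_eq_mul]
  ring

theorem shift_sum (f : ℕ → ℝ) (hf : 0 ≤ f 0) : ∑ k ∈ range N, f (k + 1) ≤
    ∑ k ∈ range (N + 1), f k := by
  rw [sum_range_succ']
  linarith

/-- the root of a live cell is low -/
theorem live_root {k : ℕ} (hk : k ≤ N) {p : ℤ} (hp : p ∈ iv (N - k) M) (ha : 0 ≤ a)
    (hal : ∀ i ≤ N - k, (G (k + i) (p / 2 ^ i)).trace ≤ a) : (G N M).trace ≤ 2 * a := by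
  have h1 := hal (N - k) le_rfl
  have e : p / 2 ^ (N - k) = M := mem_iv.1 hp
  rw [e, show k + (N - k) = N by omega] at h1
  linarith

/-- **the half differences, live cells only** -/
theorem BM_half_st (h : Tr l N G K) {u : ℤ → ι → ℝ}
    (hG : ∀ k ≤ N, ∀ p, G k p = ((2 : ℝ) ^ k)⁻¹ • ∑ x ∈ iv k p, vecMulVec (u x) (u x))
    (ha : 0 ≤ a) (hal : ∀ k ≤ N, ∀ p ∈ iv (N - k) M, al k p → ∀ i ≤ N - k,
      (G (k + i) (p / 2 ^ i)).trace ≤ a) (J A : ℕ) :
    ∑ k ∈ range N, ∑ p ∈ (iv (N - (k + 1)) M).filter (al (k + 1)),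
      ∑ m ∈ Icc (p - (J : ℤ)) (p + J),
        ∑ x ∈ iv (k + 1) p, HdV (fun k q => WT l N M K k q *ᵥ u x) (k + 1) m ≤
    33000 * (4 * J + 13) ^ 3 *
      (2 ^ N * ((2 + Real.log (1 + 4 * a / l) + 2 * A) * (G N M).trace + 16 * a / 2 ^ A)) := by
  have hT0 := (h.psG N M).trace_nonneg
  have hlog : 0 ≤ Real.log (1 + 4 * a / l) :=
    Real.log_nonneg (by have := div_nonneg (mul_nonneg (by norm_num : (0 : ℝ) ≤ 4) ha) h.l_pos.le
                        linarith)
  have hR : 0 ≤ 33000 * (4 * (J : ℝ) + 13) ^ 3 *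
      (2 ^ N * ((2 + Real.log (1 + 4 * a / l) + 2 * A) * (G N M).trace + 16 * a / 2 ^ A)) := by
    positivity
  by_cases hN : (G N M).trace ≤ 2 * a
  swap
  · refine le_trans (le_of_eq ?_) hR
    refine sum_eq_zero fun k hk => sum_eq_zero fun p hp => ?_
    rw [mem_range] at hk
    have hp' := mem_filter.1 hp
    exact absurd (live_root (by omega) hp'.1 ha (hal (k + 1) (by omega) p hp'.1 hp'.2)) hN
  have h' := st_tr (M := M) h a
  have hlow := live_low ha hal
  -- one live cell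
  have h1 : ∀ k ∈ range N, ∀ p ∈ (iv (N - (k + 1)) M).filter (al (k + 1)),
      ∑ m ∈ Icc (p - (J : ℤ)) (p + J),
        ∑ x ∈ iv (k + 1) p, HdV (fun k q => WT l N M K k q *ᵥ u x) (k + 1) m ≤
      ∑ m ∈ Icc (p - (J : ℤ)) (p + J), 2 ^ k * ∑ j ∈ range 7,
        (ms (HM l N M (stK l N M G K a) k (2 * m - 4 + j)) (stK l N M G K a k (2 * p)) +
          ms (HM l N M (stK l N M G K a) k (2 * m - 4 + j)) (stK l N M G K a k (2 * p + 1))) +
      294 * (2 * J + 1) * (2 ^ (k + 1) *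
        ((∑ q ∈ Icc (p - ((J + 2 : ℕ) : ℤ)) (p + ((J + 2 : ℕ) : ℤ)),
          Rb (bad N M (ht G) a) (k + 1) q) * ht G (k + 1) p)) := by
    intro k hk p hp
    rw [mem_range] at hk
    have hp' := mem_filter.1 hp
    have hg := hG (k + 1) (by omega) p
    have hgt : 0 ≤ ht G (k + 1) p := (h.psG _ _).trace_nonneg
    have eG : stG N M G a (k + 1) p = G (k + 1) p :=
      stG_self (by omega) hp'.1 (hlow (k + 1) (by omega) p hp'.1 hp'.2).2
    -- one offset
    have a1 : ∀ (q : ℤ), ∑ x ∈ iv (k + 1) p, u x ⬝ᵥ HM l N M K k q *ᵥ u x ≤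
        2 ^ k * (ms (HM l N M (stK l N M G K a) k q) (stK l N M G K a k (2 * p)) +
          ms (HM l N M (stK l N M G K a) k q) (stK l N M G K a k (2 * p + 1))) +
        (7 * (Rb (bad N M (ht G) a) k q + Rb (bad N M (ht G) a) k (q + 1))) *
          (2 ^ (k + 1) * ht G (k + 1) p) := by
      intro q
      have b1 : ∑ x ∈ iv (k + 1) p, u x ⬝ᵥ HM l N M K k q *ᵥ u x ≤
          ∑ x ∈ iv (k + 1) p, (u x ⬝ᵥ HM l N M (stK l N M G K a) k q *ᵥ u x +
            7 * (Rb (bad N M (ht G) a) k q + Rb (bad N M (ht G) a) k (q + 1)) *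
              (u x ⬝ᵥ u x)) :=
        sum_le_sum fun x _ => HM_cmp h h' (fun q => st_WTN a q)
          (fun k hk q hq => st_WT a hk q hq) (fun k hk q hq => bad_child hk hq) (u x) hk.le q
      rw [sum_add_distrib, ← mul_sum, form_eq (HM l N M (stK l N M G K a) k q) hg, form_one hg]
        at b1
      have b2 : (2 : ℝ) ^ (k + 1) * (HM l N M (stK l N M G K a) k q *
          stG N M G a (k + 1) p).trace ≤
          2 ^ k * (ms (HM l N M (stK l N M G K a) k q) (stK l N M G K a k (2 * p)) +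
          ms (HM l N M (stK l N M G K a) k q) (stK l N M G K a k (2 * p + 1))) := by
        have hps := HM_psd (M := M) h' k q
        have c1 := tr_le_ms h.l_pos (h'.sq k (2 * p)) hps
        have c2 := tr_le_ms h.l_pos (h'.sq k (2 * p + 1)) hps
        rw [h'.mean k hk p, Matrix.mul_smul, trace_smul, smul_eq_mul, Matrix.mul_add, trace_add]
        have e : (2 : ℝ) ^ (k + 1) * (1 / 2 * ((HM l N M (stK l N M G K a) k q *
            stG N M G a k (2 * p)).trace + (HM l N M (stK l N M G K a) k q *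
            stG N M G a k (2 * p + 1)).trace)) = 2 ^ k * ((HM l N M (stK l N M G K a) k q *
            stG N M G a k (2 * p)).trace + (HM l N M (stK l N M G K a) k q *
            stG N M G a k (2 * p + 1)).trace) := by rw [pow_succ]; ring
        rw [e]
        exact mul_le_mul_of_nonneg_left (add_le_add c1 c2) (by positivity)
      rw [eG] at b2
      refine b1.trans ?_
      unfold ht
      linarith
    have a2 : ∀ m ∈ Icc (p - (J : ℤ)) (p + J),
        ∑ x ∈ iv (k + 1) p, HdV (fun k q => WT l N M K k q *ᵥ u x) (k + 1) m ≤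
        2 ^ k * ∑ j ∈ range 7,
        (ms (HM l N M (stK l N M G K a) k (2 * m - 4 + j)) (stK l N M G K a k (2 * p)) +
          ms (HM l N M (stK l N M G K a) k (2 * m - 4 + j)) (stK l N M G K a k (2 * p + 1))) +
        (∑ j ∈ range 7, (7 * (Rb (bad N M (ht G) a) k (2 * m - 4 + j) +
          Rb (bad N M (ht G) a) k (2 * m - 4 + j + 1)))) * (2 ^ (k + 1) * ht G (k + 1) p) := by
      intro m _
      have e : ∑ x ∈ iv (k + 1) p, HdV (fun k q => WT l N M K k q *ᵥ u x) (k + 1) m =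
          ∑ j ∈ range 7, ∑ x ∈ iv (k + 1) p, u x ⬝ᵥ HM l N M K k (2 * m - 4 + j) *ᵥ u x := by
        rw [sum_comm]
        exact sum_congr rfl fun x _ => HdV_form h (u x) k m
      rw [e, mul_sum, sum_mul, ← sum_add_distrib]
      exact sum_le_sum fun j _ => a1 _
    refine (sum_le_sum a2).trans ?_
    rw [sum_add_distrib, ← sum_mul]
    have a3 := mul_le_mul_of_nonneg_right (R_off (Bad := bad N M (ht G) a) J k p)
      (show 0 ≤ 2 ^ (k + 1) * ht G (k + 1) p by positivity)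
    refine add_le_add le_rfl (a3.trans (le_of_eq ?_))
    ring
  refine (sum_le_sum fun k hk => sum_le_sum (h1 k hk)).trans ?_
  have e2 : ∀ (f g : ℕ → ℤ → ℝ), ∑ k ∈ range N,
      ∑ p ∈ (iv (N - (k + 1)) M).filter (al (k + 1)), (f k p + g k p) =
      ∑ k ∈ range N, ∑ p ∈ (iv (N - (k + 1)) M).filter (al (k + 1)), f k p +
      ∑ k ∈ range N, ∑ p ∈ (iv (N - (k + 1)) M).filter (al (k + 1)), g k p := by
    intro f g
    rw [← sum_add_distrib]
    exact sum_congr rfl fun k _ => sum_add_distrib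
  rw [e2]
  have h2 : ∑ k ∈ range N, ∑ p ∈ (iv (N - (k + 1)) M).filter (al (k + 1)),
      ∑ m ∈ Icc (p - (J : ℤ)) (p + J), 2 ^ k * ∑ j ∈ range 7,
        (ms (HM l N M (stK l N M G K a) k (2 * m - 4 + j)) (stK l N M G K a k (2 * p)) +
          ms (HM l N M (stK l N M G K a) k (2 * m - 4 + j)) (stK l N M G K a k (2 * p + 1))) ≤
      33000 * (4 * J + 13) ^ 3 * (DK N M (stK l N M G K a) + Bd N M (stG N M G a)) := by
    refine le_trans (sum_le_sum fun k _ => sum_le_sum_of_subset_of_nonneg (filter_subset _ _)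
      fun p _ _ => sum_nonneg fun m _ => mul_nonneg (by positivity) (sum_nonneg fun j _ =>
        add_nonneg (ms_nonneg (HM_psd h' k _) (h'.pdK k _).isHermitian)
          (ms_nonneg (HM_psd h' k _) (h'.pdK k _).isHermitian))) (BM_halfT h' J)
  have h3 := st_total (M := M) h ha hN A
  have h4 := pair_sum (N := N) (M := M) (g := ht G) (h := a)
    (fun k q => (h.psG k q).trace_nonneg) (ht_mean h) ha hlow (J + 2)
  have h5 : ∑ k ∈ range N, ∑ p ∈ (iv (N - (k + 1)) M).filter (al (k + 1)),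
      294 * (2 * (J : ℝ) + 1) * (2 ^ (k + 1) *
        ((∑ q ∈ Icc (p - ((J + 2 : ℕ) : ℤ)) (p + ((J + 2 : ℕ) : ℤ)),
          Rb (bad N M (ht G) a) (k + 1) q) * ht G (k + 1) p)) ≤
      294 * (2 * J + 1) * ((2 * ((J + 2 : ℕ) : ℝ) + 1) ^ 2 * (2 ^ N * ht G N M)) := by
    have e3 : ∀ k, ∑ p ∈ (iv (N - (k + 1)) M).filter (al (k + 1)),
        294 * (2 * (J : ℝ) + 1) * (2 ^ (k + 1) *
          ((∑ q ∈ Icc (p - ((J + 2 : ℕ) : ℤ)) (p + ((J + 2 : ℕ) : ℤ)),
            Rb (bad N M (ht G) a) (k + 1) q) * ht G (k + 1) p)) =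
        294 * (2 * (J : ℝ) + 1) * ((fun k => (2 : ℝ) ^ k *
          ∑ p ∈ (iv (N - k) M).filter (al k),
          (∑ q ∈ Icc (p - ((J + 2 : ℕ) : ℤ)) (p + ((J + 2 : ℕ) : ℤ)),
            Rb (bad N M (ht G) a) k q) * ht G k p) (k + 1)) := by
      intro k
      rw [← mul_sum, ← mul_sum]
    rw [sum_congr rfl fun k _ => e3 k, ← mul_sum]
    refine mul_le_mul_of_nonneg_left ((shift_sum _ ?_).trans h4) (by positivity)
    exact mul_nonneg (by positivity) (sum_nonneg fun p _ =>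
      mul_nonneg (sum_nonneg fun q _ => Rb_nonneg 0 q) (h.psG 0 p).trace_nonneg)
  have h6 := mul_le_mul_of_nonneg_left h3 (show (0 : ℝ) ≤ 33000 * (4 * J + 13) ^ 3 by positivity)
  have h7 : 294 * (2 * (J : ℝ) + 1) * ((2 * ((J + 2 : ℕ) : ℝ) + 1) ^ 2 * (2 ^ N * ht G N M)) ≤
      33000 * (4 * J + 13) ^ 3 * (2 ^ N * (G N M).trace) := by
    have hJ : (0 : ℝ) ≤ J := Nat.cast_nonneg J
    have e5 : ht G N M = (G N M).trace := rfl
    rw [e5]
    push_cast
    have e6 : 294 * (2 * (J : ℝ) + 1) * ((2 * (J + 2) + 1) ^ 2 * (2 ^ N * (G N M).trace)) =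
        294 * (2 * (J : ℝ) + 1) * (2 * (J + 2) + 1) ^ 2 * (2 ^ N * (G N M).trace) := by ring
    rw [e6]
    refine mul_le_mul_of_nonneg_right ?_ (by positivity)
    have s1 : 2 * (J : ℝ) + 1 ≤ 4 * J + 13 := by linarith
    have s2 : (2 * ((J : ℝ) + 2) + 1) ^ 2 ≤ (4 * J + 13) ^ 2 := by nlinarith
    have s3 : (2 * (J : ℝ) + 1) * (2 * (J + 2) + 1) ^ 2 ≤ (4 * J + 13) * (4 * J + 13) ^ 2 :=
      mul_le_mul s1 s2 (by positivity) (by positivity)
    have s4 : (0 : ℝ) ≤ (4 * J + 13) ^ 3 := by positivity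
    nlinarith
  have e7 : 33000 * (4 * (J : ℝ) + 13) ^ 3 *
      (2 ^ N * ((2 + Real.log (1 + 4 * a / l) + 2 * A) * (G N M).trace + 16 * a / 2 ^ A)) =
      33000 * (4 * J + 13) ^ 3 * (2 ^ N * ((1 + Real.log (1 + 4 * a / l) + 2 * A) *
        (G N M).trace + 16 * a / 2 ^ A)) +
      33000 * (4 * J + 13) ^ 3 * (2 ^ N * (G N M).trace) := by ring
  rw [e7]
  linarith

/-- **the drift terms, live cells only** -/
theorem BM_drift_st (h : Tr l N G K) {u : ℤ → ι → ℝ}
    (hG : ∀ k ≤ N, ∀ p, G k p = ((2 : ℝ) ^ k)⁻¹ • ∑ x ∈ iv k p, vecMulVec (u x) (u x))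
    (ha : 0 ≤ a) (hal : ∀ k ≤ N, ∀ p ∈ iv (N - k) M, al k p → ∀ i ≤ N - k,
      (G (k + i) (p / 2 ^ i)).trace ≤ a) (J A : ℕ) :
    ∑ k ∈ range N, ∑ p ∈ (iv (N - (k + 1)) M).filter (al (k + 1)),
      ∑ m ∈ Icc (p - (J : ℤ)) (p + J),
        ∑ x ∈ iv (k + 1) p, u x ⬝ᵥ ET l N M K (k + 1) m *ᵥ u x ≤
    260 * (2 * J + 1) ^ 3 *
      (2 ^ N * ((2 + Real.log (1 + 4 * a / l) + 2 * A) * (G N M).trace + 16 * a / 2 ^ A)) := by
  have hT0 := (h.psG N M).trace_nonneg
  have hlog : 0 ≤ Real.log (1 + 4 * a / l) :=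
    Real.log_nonneg (by have := div_nonneg (mul_nonneg (by norm_num : (0 : ℝ) ≤ 4) ha) h.l_pos.le
                        linarith)
  have hR : 0 ≤ 260 * (2 * (J : ℝ) + 1) ^ 3 *
      (2 ^ N * ((2 + Real.log (1 + 4 * a / l) + 2 * A) * (G N M).trace + 16 * a / 2 ^ A)) := by
    positivity
  by_cases hN : (G N M).trace ≤ 2 * a
  swap
  · refine le_trans (le_of_eq ?_) hR
    refine sum_eq_zero fun k hk => sum_eq_zero fun p hp => ?_
    rw [mem_range] at hk
    have hp' := mem_filter.1 hp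
    exact absurd (live_root (by omega) hp'.1 ha (hal (k + 1) (by omega) p hp'.1 hp'.2)) hN
  have h' := st_tr (M := M) h a
  have hlow := live_low ha hal
  have h1 : ∀ k ∈ range N, ∀ p ∈ (iv (N - (k + 1)) M).filter (al (k + 1)),
      ∑ m ∈ Icc (p - (J : ℤ)) (p + J),
        ∑ x ∈ iv (k + 1) p, u x ⬝ᵥ ET l N M K (k + 1) m *ᵥ u x ≤
      ∑ m ∈ Icc (p - (J : ℤ)) (p + J), 2 ^ (k + 1) *
        ms (ET l N M (stK l N M G K a) (k + 1) m) (stK l N M G K a (k + 1) p) +
      2 ^ (k + 1) * ((∑ q ∈ Icc (p - (J : ℤ)) (p + J),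
          Rb (bad N M (ht G) a) (k + 1) q) * ht G (k + 1) p) := by
    intro k hk p hp
    rw [mem_range] at hk
    have hp' := mem_filter.1 hp
    have hg := hG (k + 1) (by omega) p
    have eG : stG N M G a (k + 1) p = G (k + 1) p :=
      stG_self (by omega) hp'.1 (hlow (k + 1) (by omega) p hp'.1 hp'.2).2
    have a1 : ∀ m ∈ Icc (p - (J : ℤ)) (p + J),
        ∑ x ∈ iv (k + 1) p, u x ⬝ᵥ ET l N M K (k + 1) m *ᵥ u x ≤
        2 ^ (k + 1) * ms (ET l N M (stK l N M G K a) (k + 1) m) (stK l N M G K a (k + 1) p) +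
        2 ^ (k + 1) * (Rb (bad N M (ht G) a) (k + 1) m * ht G (k + 1) p) := by
      intro m _
      have b1 : ∑ x ∈ iv (k + 1) p, u x ⬝ᵥ ET l N M K (k + 1) m *ᵥ u x ≤
          ∑ x ∈ iv (k + 1) p, (u x ⬝ᵥ ET l N M (stK l N M G K a) (k + 1) m *ᵥ u x +
            Rb (bad N M (ht G) a) (k + 1) m * (u x ⬝ᵥ u x)) :=
        sum_le_sum fun x _ => ET_cmp h h' (fun q => st_WTN a q)
          (fun k hk q hq => st_WT a hk q hq) (fun k hk q hq => bad_child hk hq) (u x) hk m
      rw [sum_add_distrib, ← mul_sum, form_eq (ET l N M (stK l N M G K a) (k + 1) m) hg,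
        form_one hg, ← eG] at b1
      have b2 := mul_le_mul_of_nonneg_left (tr_le_ms h.l_pos (h'.sq (k + 1) p)
        (ET_psd (M := M) h' (k + 1) m)) (show (0 : ℝ) ≤ 2 ^ (k + 1) by positivity)
      have e9 : (stG N M G a (k + 1) p).trace = ht G (k + 1) p := by rw [eG]; rfl
      rw [e9] at b1
      refine b1.trans ?_
      unfold ht
      linarith
    refine (sum_le_sum a1).trans (le_of_eq ?_)
    rw [sum_add_distrib, sum_mul, mul_sum]
  refine (sum_le_sum fun k hk => sum_le_sum (h1 k hk)).trans ?_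
  have e2 : ∀ (f g : ℕ → ℤ → ℝ), ∑ k ∈ range N,
      ∑ p ∈ (iv (N - (k + 1)) M).filter (al (k + 1)), (f k p + g k p) =
      ∑ k ∈ range N, ∑ p ∈ (iv (N - (k + 1)) M).filter (al (k + 1)), f k p +
      ∑ k ∈ range N, ∑ p ∈ (iv (N - (k + 1)) M).filter (al (k + 1)), g k p := by
    intro f g
    rw [← sum_add_distrib]
    exact sum_congr rfl fun k _ => sum_add_distrib
  rw [e2]
  have h2 : ∑ k ∈ range N, ∑ p ∈ (iv (N - (k + 1)) M).filter (al (k + 1)),
      ∑ m ∈ Icc (p - (J : ℤ)) (p + J), 2 ^ (k + 1) *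
        ms (ET l N M (stK l N M G K a) (k + 1) m) (stK l N M G K a (k + 1) p) ≤
      260 * (2 * J + 1) ^ 3 * (DK N M (stK l N M G K a) + Bd N M (stG N M G a)) := by
    refine le_trans (sum_le_sum fun k _ => sum_le_sum_of_subset_of_nonneg (filter_subset _ _)
      fun p _ _ => sum_nonneg fun m _ => mul_nonneg (by positivity)
        (ms_nonneg (ET_psd h' (k + 1) _) (h'.pdK (k + 1) _).isHermitian)) (BM_driftT h' J)
  have h3 := st_total (M := M) h ha hN A
  have h4 := pair_sum (N := N) (M := M) (g := ht G) (h := a)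
    (fun k q => (h.psG k q).trace_nonneg) (ht_mean h) ha hlow J
  have h5 : ∑ k ∈ range N, ∑ p ∈ (iv (N - (k + 1)) M).filter (al (k + 1)),
      2 ^ (k + 1) * ((∑ q ∈ Icc (p - (J : ℤ)) (p + J),
          Rb (bad N M (ht G) a) (k + 1) q) * ht G (k + 1) p) ≤
      (2 * (J : ℝ) + 1) ^ 2 * (2 ^ N * ht G N M) := by
    have e3 : ∀ k, ∑ p ∈ (iv (N - (k + 1)) M).filter (al (k + 1)),
        2 ^ (k + 1) * ((∑ q ∈ Icc (p - (J : ℤ)) (p + J),
          Rb (bad N M (ht G) a) (k + 1) q) * ht G (k + 1) p) =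
        (fun k => (2 : ℝ) ^ k * ∑ p ∈ (iv (N - k) M).filter (al k),
          (∑ q ∈ Icc (p - (J : ℤ)) (p + J),
            Rb (bad N M (ht G) a) k q) * ht G k p) (k + 1) := by
      intro k
      rw [← mul_sum]
    rw [sum_congr rfl fun k _ => e3 k]
    refine (shift_sum _ ?_).trans h4
    exact mul_nonneg (by positivity) (sum_nonneg fun p _ =>
      mul_nonneg (sum_nonneg fun q _ => Rb_nonneg 0 q) (h.psG 0 p).trace_nonneg)
  have h6 := mul_le_mul_of_nonneg_left h3 (show (0 : ℝ) ≤ 260 * (2 * J + 1) ^ 3 by positivity)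
  have h7 : (2 * (J : ℝ) + 1) ^ 2 * (2 ^ N * ht G N M) ≤
      260 * (2 * J + 1) ^ 3 * (2 ^ N * (G N M).trace) := by
    have hJ : (0 : ℝ) ≤ J := Nat.cast_nonneg J
    have e5 : ht G N M = (G N M).trace := rfl
    rw [e5]
    refine mul_le_mul_of_nonneg_right ?_ (by positivity)
    have s1 : (1 : ℝ) ≤ 2 * J + 1 := by linarith
    have s2 : (0 : ℝ) ≤ (2 * J + 1) ^ 2 := by positivity
    have s3 : (2 * (J : ℝ) + 1) ^ 2 * 1 ≤ (2 * J + 1) ^ 2 * (2 * J + 1) :=
      mul_le_mul_of_nonneg_left s1 s2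
    nlinarith
  have e7 : 260 * (2 * (J : ℝ) + 1) ^ 3 *
      (2 ^ N * ((2 + Real.log (1 + 4 * a / l) + 2 * A) * (G N M).trace + 16 * a / 2 ^ A)) =
      260 * (2 * J + 1) ^ 3 * (2 ^ N * ((1 + Real.log (1 + 4 * a / l) + 2 * A) *
        (G N M).trace + 16 * a / 2 ^ A)) +
      260 * (2 * J + 1) ^ 3 * (2 ^ N * (G N M).trace) := by ring
  rw [e7]
  linarith

end live

end

end Vale.Agent.P141.H784
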