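import Vale.Agent.P141.H784.BMsum

/-!
# P141, line (A): the moves of `Theta` on the slot `B`, stopped tree

* `BM_halfT`, `BM_driftT` : the two sums of `BMsum` without vectors;
* `MM_cmp`, `XX_cmp`, `HM_cmp`, `ET_cmp` : the matrices of two trees which agree on the cells
  whose parent is not bad, up to the scalar walk `R`.
-/

namespace Vale.Agent.P141.H784

open Matrix Finset
open Vale.Agent.P141.PL (iv mem_iv card_iv ix ix_ix)
open Vale.Agent.P141.H420 (Tr Nd tr_symm trace_mul_nonneg quad_nonneg inv_mul_self' mul_inv_self'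
  inv_G_inv inv_le)
open Vale.Agent.P141.H483 (tmean hd nd')
open Vale.Agent.P141.H652 (WT ET WT_in WT_out ET_in ET_out WT_psd WT_le_one in_left in_right
  ET_psd ET_le_WT)

noncomputable section

variable {ι : Type*} [Fintype ι] [DecidableEq ι]
variable {l : ℝ} {N : ℕ} {M : ℤ} {G K : ℕ → ℤ → Matrix ι ι ℝ}

/-- **the moves on the slot `B`**, trace form: no vectors -/
theorem BM_halfT (h : Tr l N G K) (J : ℕ) :
    ∑ k ∈ range N, ∑ p ∈ iv (N - (k + 1)) M, ∑ m ∈ Icc (p - (J : ℤ)) (p + J),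
      2 ^ k * ∑ j ∈ range 7, (ms (HM l N M K k (2 * m - 4 + j)) (K k (2 * p)) +
        ms (HM l N M K k (2 * m - 4 + j)) (K k (2 * p + 1))) ≤
    33000 * (4 * J + 13) ^ 3 * (DK N M K + Bd N M G) := by
  set W : ℝ := 4 * J + 13 with hW
  have hW1 : (1 : ℝ) ≤ W := by rw [hW]; have : (0 : ℝ) ≤ J := Nat.cast_nonneg J; linarith
  have eW : (2 * ((2 * J + 6 : ℕ) : ℝ) + 1) = W := by rw [hW]; push_cast; ring
  -- one scale
  have h1 : ∀ k ∈ range N, ∑ p ∈ iv (N - (k + 1)) M, ∑ m ∈ Icc (p - (J : ℤ)) (p + J),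
      2 ^ k * ∑ j ∈ range 7, (ms (HM l N M K k (2 * m - 4 + j)) (K k (2 * p)) +
        ms (HM l N M K k (2 * m - 4 + j)) (K k (2 * p + 1))) ≤
      196 * W ^ 3 * (2 ^ k * ∑ x ∈ ZZ (N - k) M, dlt l N M K k x ^ 2) +
        84 * W * (2 ^ k * aM l N M K k) := by
    intro k hk
    rw [mem_range] at hk
    -- one parent cell
    have h2 : ∀ p ∈ iv (N - (k + 1)) M, ∑ m ∈ Icc (p - (J : ℤ)) (p + J),
        2 ^ k * ∑ j ∈ range 7, (ms (HM l N M K k (2 * m - 4 + j)) (K k (2 * p)) +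
          ms (HM l N M K k (2 * m - 4 + j)) (K k (2 * p + 1))) ≤
        2 ^ k * (∑ m ∈ Icc (p - (J : ℤ)) (p + J), ∑ j ∈ range 7,
            ms (HM l N M K k (2 * m - 4 + j)) (K k (2 * p)) +
          ∑ m ∈ Icc (p - (J : ℤ)) (p + J), ∑ j ∈ range 7,
            ms (HM l N M K k (2 * m - 4 + j)) (K k (2 * p + 1))) := by
      intro p _
      rw [← sum_add_distrib, mul_sum]
      refine le_of_eq (sum_congr rfl fun m _ => ?_)
      rw [← sum_add_distrib]
    refine (sum_le_sum h2).trans ?_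
    rw [← mul_sum]
    have e0 : N - k = (N - (k + 1)) + 1 := by omega
    have h3 : ∑ p ∈ iv (N - (k + 1)) M, (∑ m ∈ Icc (p - (J : ℤ)) (p + J), ∑ j ∈ range 7,
            ms (HM l N M K k (2 * m - 4 + j)) (K k (2 * p)) +
          ∑ m ∈ Icc (p - (J : ℤ)) (p + J), ∑ j ∈ range 7,
            ms (HM l N M K k (2 * m - 4 + j)) (K k (2 * p + 1))) ≤
        ∑ c ∈ iv (N - k) M,
          (28 * ∑ q ∈ Icc (c - ((2 * J + 6 : ℕ) : ℤ)) (c + ((2 * J + 6 : ℕ) : ℤ)),
            ms (XX l N M K k q) (K k c) +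
          42 * ∑ q ∈ Icc (c - ((2 * J + 6 : ℕ) : ℤ)) (c + ((2 * J + 6 : ℕ) : ℤ)),
            ms (MM l N M K k q) (K k c)) := by
      rw [e0, sum_two]
      refine sum_le_sum fun p _ => add_le_add ?_ ?_
      · exact half_cell h J (Or.inl rfl)
      · exact half_cell h J (Or.inr rfl)
    have h3' : ∑ c ∈ iv (N - k) M,
          (28 * ∑ q ∈ Icc (c - ((2 * J + 6 : ℕ) : ℤ)) (c + ((2 * J + 6 : ℕ) : ℤ)),
            ms (XX l N M K k q) (K k c) +
          42 * ∑ q ∈ Icc (c - ((2 * J + 6 : ℕ) : ℤ)) (c + ((2 * J + 6 : ℕ) : ℤ)),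
            ms (MM l N M K k q) (K k c)) =
        28 * ∑ c ∈ iv (N - k) M,
            ∑ q ∈ Icc (c - ((2 * J + 6 : ℕ) : ℤ)) (c + ((2 * J + 6 : ℕ) : ℤ)),
            ms (XX l N M K k q) (K k c) +
          42 * ∑ c ∈ iv (N - k) M,
            ∑ q ∈ Icc (c - ((2 * J + 6 : ℕ) : ℤ)) (c + ((2 * J + 6 : ℕ) : ℤ)),
            ms (MM l N M K k q) (K k c) := by
      rw [sum_add_distrib, ← mul_sum, ← mul_sum]
    rw [h3'] at h3
    have hkn : k + (N - k) = N := by omega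
    have h4 := near_scale (M := M) h (Y := fun q => XX l N M K k q) (fun q => XX_psd h k q)
      (fun q => XX_le h k q) hkn (2 * J + 6) (ZZ (N - k) M) (fun q hq => XX_out hq)
    have h5 := near_scale (M := M) h (Y := fun q => MM l N M K k q) (fun q => MM_psd h k q)
      (fun q => MM_le h k q) hkn (2 * J + 6) (iv (N - k) M)
      (fun q hq => MM_out h k hk.le q hq)
    rw [eW] at h4 h5
    have h6 : ∑ q ∈ ZZ (N - k) M, ms (XX l N M K k q) (Kx l N M K k q) ≤
        ∑ q ∈ ZZ (N - k) M, dlt l N M K k q ^ 2 := sum_le_sum fun q _ => own_XX h k q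
    have h7 : ∑ q ∈ iv (N - k) M, ms (MM l N M K k q) (Kx l N M K k q) = aM l N M K k := by
      rw [aM]
      exact sum_congr rfl fun q hq => by rw [Kx_in hq]
    rw [h7] at h5
    have h8 : (0 : ℝ) ≤ ∑ q ∈ ZZ (N - k) M, dlt l N M K k q ^ 2 :=
      sum_nonneg fun _ _ => sq_nonneg _
    have h9 := mul_le_mul_of_nonneg_left h6 (show (0 : ℝ) ≤ 2 * W by linarith)
    set D := ∑ q ∈ ZZ (N - k) M, dlt l N M K k q ^ 2 with hD
    have h10 : W * D ≤ W ^ 3 * D := by
      refine mul_le_mul_of_nonneg_right ?_ h8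
      nlinarith [mul_nonneg (sub_nonneg.2 hW1) (by nlinarith : (0 : ℝ) ≤ W * (W + 1))]
    have h11 : ∑ p ∈ iv (N - (k + 1)) M, (∑ m ∈ Icc (p - (J : ℤ)) (p + J), ∑ j ∈ range 7,
            ms (HM l N M K k (2 * m - 4 + j)) (K k (2 * p)) +
          ∑ m ∈ Icc (p - (J : ℤ)) (p + J), ∑ j ∈ range 7,
            ms (HM l N M K k (2 * m - 4 + j)) (K k (2 * p + 1))) ≤
        196 * W ^ 3 * D + 84 * W * aM l N M K k := by
      nlinarith
    have h12 := mul_le_mul_of_nonneg_left h11 (show (0 : ℝ) ≤ 2 ^ k by positivity)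
    refine h12.trans (le_of_eq ?_)
    ring
  refine (sum_le_sum h1).trans ?_
  rw [sum_add_distrib, ← mul_sum, ← mul_sum]
  have g1 := dlt_sum (M := M) h
  have e1 : ∑ n ∈ range (N + 1), (2 : ℝ) ^ (N - n) * ∑ q ∈ ZZ n M, dlt l N M K (N - n) q ^ 2 =
      ∑ k ∈ range (N + 1), (2 : ℝ) ^ k * ∑ q ∈ ZZ (N - k) M, dlt l N M K k q ^ 2 := by
    refine sum_nbij' (fun n => N - n) (fun k => N - k) ?_ ?_ ?_ ?_ ?_
    · intro n hn; rw [mem_range] at hn ⊢; omega
    · intro k hk; rw [mem_range] at hk ⊢; omega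
    · intro n hn; rw [mem_range] at hn; show N - (N - n) = n; omega
    · intro k hk; rw [mem_range] at hk; show N - (N - k) = k; omega
    · intro n hn
      rw [mem_range] at hn
      have e : N - (N - n) = n := by omega
      show _ = (2 : ℝ) ^ (N - n) * ∑ q ∈ ZZ (N - (N - n)) M, dlt l N M K (N - n) q ^ 2
      rw [e]
  rw [e1, sum_range_succ] at g1
  have g2 := MM_sum (M := M) h N le_rfl
  rw [sum_range_succ] at g2
  have g3 : (0 : ℝ) ≤ 2 ^ N * ∑ q ∈ ZZ (N - N) M, dlt l N M K N q ^ 2 :=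
    mul_nonneg (by positivity) (sum_nonneg fun _ _ => sq_nonneg _)
  have g4 : 0 ≤ aM l N M K N := sum_nonneg fun q _ => ms_nonneg (MM_psd h N q)
    (h.pdK N q).isHermitian
  have g5 : (0 : ℝ) ≤ 2 ^ N * aM l N M K N := by positivity
  have g6 : 0 ≤ DK N M K := sum_nonneg fun k _ => mul_nonneg (by positivity)
    (sum_nonneg fun q _ => gd_nonneg h k q)
  have g7 : 0 ≤ Bd N M G := sum_nonneg fun n _ => mul_nonneg (by positivity)
    (add_nonneg (h.psG _ _).trace_nonneg (h.psG _ _).trace_nonneg)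
  have g8 : ∑ k ∈ range N, (2 : ℝ) ^ k * ∑ q ∈ ZZ (N - k) M, dlt l N M K k q ^ 2 ≤
      128 * DK N M K + Bd N M G := by linarith
  have g9 : ∑ k ∈ range N, (2 : ℝ) ^ k * aM l N M K k ≤ 86 * DK N M K := by
    rw [DK]; linarith
  have g10 := mul_le_mul_of_nonneg_left g8 (show (0 : ℝ) ≤ 196 * W ^ 3 by positivity)
  have g11 := mul_le_mul_of_nonneg_left g9 (show (0 : ℝ) ≤ 84 * W by linarith)
  have g12 : W * DK N M K ≤ W ^ 3 * DK N M K := by
    refine mul_le_mul_of_nonneg_right ?_ g6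
    nlinarith [mul_nonneg (sub_nonneg.2 hW1) (by nlinarith : (0 : ℝ) ≤ W * (W + 1))]
  have g13 : 0 ≤ W ^ 3 * DK N M K := mul_nonneg (by positivity) g6
  have g14 : 0 ≤ W ^ 3 * Bd N M G := mul_nonneg (by positivity) g7
  nlinarith

/-- **the drift terms on the slot `B`**, trace form -/
theorem BM_driftT (h : Tr l N G K) (J : ℕ) :
    ∑ k ∈ range N, ∑ p ∈ iv (N - (k + 1)) M, ∑ m ∈ Icc (p - (J : ℤ)) (p + J),
      2 ^ (k + 1) * ms (ET l N M K (k + 1) m) (K (k + 1) p) ≤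
    260 * (2 * J + 1) ^ 3 * (DK N M K + Bd N M G) := by
  set W : ℝ := 2 * J + 1 with hW
  have hW1 : (1 : ℝ) ≤ W := by rw [hW]; have : (0 : ℝ) ≤ J := Nat.cast_nonneg J; linarith
  have h1 : ∀ k ∈ range N, ∑ p ∈ iv (N - (k + 1)) M, ∑ m ∈ Icc (p - (J : ℤ)) (p + J),
      2 ^ (k + 1) * ms (ET l N M K (k + 1) m) (K (k + 1) p) ≤
      4 * W * (2 ^ (k + 1) * ∑ q ∈ iv (N - (k + 1)) M, gd K (k + 1) q) +
        2 * W ^ 3 * (2 ^ (k + 1) * ∑ q ∈ ZZ (N - (k + 1)) M, dlt l N M K (k + 1) q ^ 2) := by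
    intro k hk
    rw [mem_range] at hk
    have h2 : ∀ p ∈ iv (N - (k + 1)) M, ∑ m ∈ Icc (p - (J : ℤ)) (p + J),
        2 ^ (k + 1) * ms (ET l N M K (k + 1) m) (K (k + 1) p) ≤
        2 ^ (k + 1) * ∑ m ∈ Icc (p - (J : ℤ)) (p + J), ms (ET l N M K (k + 1) m) (K (k + 1) p) := by
      intro p _
      rw [mul_sum]
    refine (sum_le_sum h2).trans ?_
    rw [← mul_sum]
    have h3 := near_scale (M := M) h (Y := fun q => ET l N M K (k + 1) q)
      (fun q => ET_psd h (k + 1) q) (fun q => ET_le_one h hk q)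
      (k := k + 1) (n := N - (k + 1)) (by omega) J (iv (N - (k + 1)) M) (fun q hq => ET_out hq)
    rw [← hW] at h3
    have h4 : ∑ q ∈ iv (N - (k + 1)) M, ms (ET l N M K (k + 1) q) (Kx l N M K (k + 1) q) ≤
        2 * ∑ q ∈ iv (N - (k + 1)) M, gd K (k + 1) q := by
      rw [mul_sum]
      refine sum_le_sum fun q hq => ?_
      rw [Kx_in hq]
      exact own_ET h hk hq
    have h5 := mul_le_mul_of_nonneg_left h4 (show (0 : ℝ) ≤ 2 * W by linarith)
    have h6 := mul_le_mul_of_nonneg_left (h3.trans (add_le_add h5 le_rfl))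
      (show (0 : ℝ) ≤ 2 ^ (k + 1) by positivity)
    refine h6.trans (le_of_eq ?_)
    ring
  refine (sum_le_sum h1).trans ?_
  rw [sum_add_distrib, ← mul_sum, ← mul_sum]
  have g1 := dlt_sum (M := M) h
  have e1 : ∑ n ∈ range (N + 1), (2 : ℝ) ^ (N - n) * ∑ q ∈ ZZ n M, dlt l N M K (N - n) q ^ 2 =
      ∑ k ∈ range (N + 1), (2 : ℝ) ^ k * ∑ q ∈ ZZ (N - k) M, dlt l N M K k q ^ 2 := by
    refine sum_nbij' (fun n => N - n) (fun k => N - k) ?_ ?_ ?_ ?_ ?_
    · intro n hn; rw [mem_range] at hn ⊢; omega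
    · intro k hk; rw [mem_range] at hk ⊢; omega
    · intro n hn; rw [mem_range] at hn; show N - (N - n) = n; omega
    · intro k hk; rw [mem_range] at hk; show N - (N - k) = k; omega
    · intro n hn
      rw [mem_range] at hn
      have e : N - (N - n) = n := by omega
      show _ = (2 : ℝ) ^ (N - n) * ∑ q ∈ ZZ (N - (N - n)) M, dlt l N M K (N - n) q ^ 2
      rw [e]
  rw [e1, sum_range_succ'] at g1
  have g3 : (0 : ℝ) ≤ 2 ^ 0 * ∑ q ∈ ZZ (N - 0) M, dlt l N M K 0 q ^ 2 :=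
    mul_nonneg (by positivity) (sum_nonneg fun _ _ => sq_nonneg _)
  have g6 : 0 ≤ DK N M K := sum_nonneg fun k _ => mul_nonneg (by positivity)
    (sum_nonneg fun q _ => gd_nonneg h k q)
  have g7 : 0 ≤ Bd N M G := sum_nonneg fun n _ => mul_nonneg (by positivity)
    (add_nonneg (h.psG _ _).trace_nonneg (h.psG _ _).trace_nonneg)
  have g8 : ∑ k ∈ range N, (2 : ℝ) ^ (k + 1) *
      ∑ q ∈ ZZ (N - (k + 1)) M, dlt l N M K (k + 1) q ^ 2 ≤ 128 * DK N M K + Bd N M G := by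
    linarith
  have g9 : ∑ k ∈ range N, (2 : ℝ) ^ (k + 1) * ∑ q ∈ iv (N - (k + 1)) M, gd K (k + 1) q =
      DK N M K := by
    rw [DK]
    refine sum_nbij' (fun k => k + 1) (fun k => k - 1) ?_ ?_ ?_ ?_ ?_
    · intro k hk; rw [mem_range] at hk; rw [mem_Icc]; omega
    · intro k hk; rw [mem_Icc] at hk; rw [mem_range]; omega
    · intro k _; show k + 1 - 1 = k; omega
    · intro k hk; rw [mem_Icc] at hk; show k - 1 + 1 = k; omega
    · intro k _; rfl
  rw [g9]
  have g10 := mul_le_mul_of_nonneg_left g8 (show (0 : ℝ) ≤ 2 * W ^ 3 by positivity)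
  have g12 : W * DK N M K ≤ W ^ 3 * DK N M K := by
    refine mul_le_mul_of_nonneg_right ?_ g6
    nlinarith [mul_nonneg (sub_nonneg.2 hW1) (by nlinarith : (0 : ℝ) ≤ W * (W + 1))]
  have g13 : 0 ≤ W ^ 3 * DK N M K := mul_nonneg (by positivity) g6
  have g14 : 0 ≤ W ^ 3 * Bd N M G := mul_nonneg (by positivity) g7
  nlinarith

section cmp

variable {G' K' : ℕ → ℤ → Matrix ι ι ℝ} {Bad : ℕ → ℤ → Prop} [∀ k q, Decidable (Bad k q)]

/-- the scalar walk from the bad cells -/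
def Rb (Bad : ℕ → ℤ → Prop) [∀ k q, Decidable (Bad k q)] : ℕ → ℤ → ℝ
  | 0, q => if Bad 0 q then 1 else 0
  | (k + 1), q => if Bad (k + 1) q then 1 else (1 / 3) * (Rb Bad k (2 * q) + Rb Bad k (2 * q + 1))

theorem Rb_nonneg : ∀ k q, 0 ≤ Rb Bad k q := by
  intro k
  induction k with
  | zero => intro q; rw [Rb]; split_ifs <;> norm_num
  | succ k ih =>
    intro q
    rw [Rb]
    split_ifs
    · norm_num
    · have h1 := ih (2 * q)
      have h2 := ih (2 * q + 1)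
      linarith

theorem Rb_bad {k : ℕ} {q : ℤ} (h : Bad k q) : Rb Bad k q = 1 := by
  cases k with
  | zero => rw [Rb, if_pos h]
  | succ k => rw [Rb, if_pos h]

theorem Rb_le_one : ∀ k q, Rb Bad k q ≤ 1 := by
  intro k
  induction k with
  | zero => intro q; rw [Rb]; split_ifs <;> norm_num
  | succ k ih =>
    intro q
    rw [Rb]
    split_ifs
    · exact le_rfl
    · have h1 := ih (2 * q)
      have h2 := ih (2 * q + 1)
      linarith

/-- the walk of a cell is at most three times the walk of its parent -/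
theorem Rb_up (k : ℕ) (q : ℤ) : Rb Bad k q ≤ 3 * Rb Bad (k + 1) (q / 2) := by
  rw [Rb]
  split_ifs with h
  · have := Rb_le_one (Bad := Bad) k q
    linarith
  · have h1 := Rb_nonneg (Bad := Bad) k (2 * (q / 2))
    have h2 := Rb_nonneg (Bad := Bad) k (2 * (q / 2) + 1)
    rcases Int.emod_two_eq_zero_or_one q with e | e
    · have e2 : 2 * (q / 2) = q := by omega
      rw [e2] at h1 h2 ⊢
      linarith
    · have e2 : 2 * (q / 2) + 1 = q := by omega
      rw [e2] at h2 ⊢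
      linarith

/-- the forms of a matrix below one -/
theorem quad_le_one {Y : Matrix ι ι ℝ} (hY : ((1 : Matrix ι ι ℝ) - Y).PosSemidef) (v : ι → ℝ) :
    v ⬝ᵥ Y *ᵥ v ≤ v ⬝ᵥ v := by
  have h1 := quad_nonneg hY v
  rw [sub_mulVec, dotProduct_sub, one_mulVec] at h1
  linarith

/-- **comparison of the walks** -/
theorem MM_cmp (h : Tr l N G K) (h' : Tr l N G' K')
    (hW : ∀ k < N, ∀ q, ¬ Bad (k + 1) (q / 2) → WT l N M K k q = WT l N M K' k q)
    (v : ι → ℝ) : ∀ k ≤ N, ∀ q, v ⬝ᵥ MM l N M K k q *ᵥ v ≤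
      v ⬝ᵥ MM l N M K' k q *ᵥ v + Rb Bad k q * (v ⬝ᵥ v) := by
  have hv : 0 ≤ v ⬝ᵥ v := sum_nonneg fun i _ => mul_self_nonneg (v i)
  intro k
  induction k with
  | zero =>
    intro _ q
    have h1 := mul_nonneg (Rb_nonneg (Bad := Bad) 0 q) hv
    simpa [MM] using h1
  | succ k ih =>
    intro hk q
    by_cases hb : Bad (k + 1) q
    · rw [Rb_bad hb, one_mul]
      have h1 := quad_le_one (MM_le (M := M) h (k + 1) q) v
      have h2 := quad_nonneg (MM_psd (M := M) h' (k + 1) q) v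
      linarith
    · have e1 : 2 * q / 2 = q := by omega
      have e2 : (2 * q + 1) / 2 = q := by omega
      have w1 := hW k (by omega) (2 * q) (by rw [e1]; exact hb)
      have w2 := hW k (by omega) (2 * q + 1) (by rw [e2]; exact hb)
      have h1 := ih (by omega) (2 * q)
      have h2 := ih (by omega) (2 * q + 1)
      have e3 : DW l N M K (k + 1) q = DW l N M K' (k + 1) q := by
        rw [DW, DW, Nat.add_sub_cancel, w1, w2]
      rw [Rb, if_neg hb, MM, MM, e3]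
      simp only [add_mulVec, dotProduct_add, smul_mulVec, dotProduct_smul, smul_eq_mul]
      linarith

theorem XX_cmp (h : Tr l N G K) (h' : Tr l N G' K')
    (hWN : ∀ q, WT l N M K N q = WT l N M K' N q)
    (hW : ∀ k < N, ∀ q, ¬ Bad (k + 1) (q / 2) → WT l N M K k q = WT l N M K' k q)
    (hB : ∀ k < N, ∀ q, Bad (k + 1) (q / 2) → Bad k q)
    (v : ι → ℝ) {k : ℕ} (hk : k ≤ N) (q : ℤ) : v ⬝ᵥ XX l N M K k q *ᵥ v ≤
      v ⬝ᵥ XX l N M K' k q *ᵥ v + (Rb Bad k q + Rb Bad k (q + 1)) * (v ⬝ᵥ v) := by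
  have hv : 0 ≤ v ⬝ᵥ v := sum_nonneg fun i _ => mul_self_nonneg (v i)
  have r1 := Rb_nonneg (Bad := Bad) k q
  have r2 := Rb_nonneg (Bad := Bad) k (q + 1)
  have x0 := quad_nonneg (XX_psd (M := M) h' k q) v
  have x1 := quad_le_one (XX_le (M := M) h k q) v
  rcases hk.lt_or_eq with hk | rfl
  · by_cases b1 : Bad (k + 1) (q / 2)
    · have b2 := Rb_bad (hB k hk q b1)
      rw [b2]
      nlinarith [mul_nonneg r2 hv]
    · by_cases b2 : Bad (k + 1) ((q + 1) / 2)
      · have b3 := Rb_bad (hB k hk (q + 1) b2)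
        rw [b3]
        nlinarith [mul_nonneg r1 hv]
      · have e : XX l N M K k q = XX l N M K' k q := by
          rw [XX, XX, hW k hk q b1, hW k hk (q + 1) b2]
        rw [e]
        nlinarith [mul_nonneg r1 hv, mul_nonneg r2 hv]
  · have e : XX l k M K k q = XX l k M K' k q := by
      rw [XX, XX, hWN q, hWN (q + 1)]
    rw [e]
    nlinarith [mul_nonneg r1 hv, mul_nonneg r2 hv]

theorem HM_cmp (h : Tr l N G K) (h' : Tr l N G' K')
    (hWN : ∀ q, WT l N M K N q = WT l N M K' N q)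
    (hW : ∀ k < N, ∀ q, ¬ Bad (k + 1) (q / 2) → WT l N M K k q = WT l N M K' k q)
    (hB : ∀ k < N, ∀ q, Bad (k + 1) (q / 2) → Bad k q)
    (v : ι → ℝ) {k : ℕ} (hk : k ≤ N) (q : ℤ) : v ⬝ᵥ HM l N M K k q *ᵥ v ≤
      v ⬝ᵥ HM l N M K' k q *ᵥ v + 7 * (Rb Bad k q + Rb Bad k (q + 1)) * (v ⬝ᵥ v) := by
  have h1 := XX_cmp h h' hWN hW hB v hk q
  have h2 := MM_cmp h h' hW v k hk q
  have h3 := MM_cmp h h' hW v k hk (q + 1)
  rw [HM, HM]
  simp only [add_mulVec, dotProduct_add, smul_mulVec, dotProduct_smul, smul_eq_mul]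
  linarith

theorem ET_cmp (h : Tr l N G K) (h' : Tr l N G' K')
    (hWN : ∀ q, WT l N M K N q = WT l N M K' N q)
    (hW : ∀ k < N, ∀ q, ¬ Bad (k + 1) (q / 2) → WT l N M K k q = WT l N M K' k q)
    (hB : ∀ k < N, ∀ q, Bad (k + 1) (q / 2) → Bad k q)
    (v : ι → ℝ) {k : ℕ} (hk : k < N) (q : ℤ) : v ⬝ᵥ ET l N M K (k + 1) q *ᵥ v ≤
      v ⬝ᵥ ET l N M K' (k + 1) q *ᵥ v + Rb Bad (k + 1) q * (v ⬝ᵥ v) := by
  have hv : 0 ≤ v ⬝ᵥ v := sum_nonneg fun i _ => mul_self_nonneg (v i)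
  have r1 := Rb_nonneg (Bad := Bad) (k + 1) q
  by_cases hb : Bad (k + 1) q
  · rw [Rb_bad hb, one_mul]
    have h1 := quad_le_one (ET_le_one (M := M) h hk q) v
    have h2 := quad_nonneg (ET_psd (M := M) h' (k + 1) q) v
    linarith
  · have e1 : 2 * q / 2 = q := by omega
    have e2 : (2 * q + 1) / 2 = q := by omega
    have w1 := hW k hk (2 * q) (by rw [e1]; exact hb)
    have w2 := hW k hk (2 * q + 1) (by rw [e2]; exact hb)
    have w3 : WT l N M K (k + 1) q = WT l N M K' (k + 1) q := by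
      rcases Nat.lt_or_ge (k + 1) N with h3 | h3
      · refine hW (k + 1) h3 q fun h4 => hb (hB (k + 1) h3 q h4)
      · have e : k + 1 = N := by omega
        rw [e]
        exact hWN q
    have e : ET l N M K (k + 1) q = ET l N M K' (k + 1) q := by
      by_cases hq : q ∈ iv (N - (k + 1)) M
      · have k1 := w1
        have k2 := w2
        have k3 := w3
        rw [WT_in ((in_left hk).2 hq), WT_in ((in_left hk).2 hq)] at k1
        rw [WT_in ((in_right hk).2 hq), WT_in ((in_right hk).2 hq)] at k2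
        rw [WT_in hq, WT_in hq] at k3
        have k1' : √l • (K k (2 * q))⁻¹ = √l • (K' k (2 * q))⁻¹ := sub_right_injective k1
        have k2' : √l • (K k (2 * q + 1))⁻¹ = √l • (K' k (2 * q + 1))⁻¹ :=
          sub_right_injective k2
        have k3' : √l • (K (k + 1) q)⁻¹ = √l • (K' (k + 1) q)⁻¹ := sub_right_injective k3
        have i1 : ∀ L : ℕ → ℤ → Matrix ι ι ℝ, ET l N M L (k + 1) q =
            (1 / 2 : ℝ) • (√l • (L k (2 * q))⁻¹ + √l • (L k (2 * q + 1))⁻¹) -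
            √l • (L (k + 1) q)⁻¹ := by
          intro L
          rw [ET_in hk hq]
          module
        rw [i1 K, i1 K', k1', k2', k3']
      · rw [ET_out hq, ET_out hq]
    rw [e]
    nlinarith [mul_nonneg r1 hv]

end cmp

end

end Vale.Agent.P141.H784
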