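import Vale.Agent.P141.H784.BM

/-!
# P141, line (A): the two sums over the moves of `Theta` on the slot `B`

* `BM_half` : the moves of the walk (all offset planes, neighbours included);
* `BM_drift` : the drift terms;
* `Bd_le` : boundary energies, proportional to the energy of the top cell, logarithmic price.
-/

namespace Vale.Agent.P141.H784

open Matrix Finset
open Vale.Agent.P141.PL (iv mem_iv card_iv ix ix_ix)
open Vale.Agent.P141.H420 (Tr Nd tr_symm trace_mul_nonneg quad_nonneg inv_mul_self' mul_inv_self'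
  inv_G_inv inv_le)
open Vale.Agent.P141.H483 (tmean hd nd')
open Vale.Agent.P141.H652 (WT ET WT_in WT_out ET_in ET_out WT_psd WT_le_one in_left in_right
  ET_psd ET_le_WT)

noncomputable section

variable {ι : Type*} [Fintype ι] [DecidableEq ι]
variable {l : ℝ} {N : ℕ} {M : ℤ} {G K : ℕ → ℤ → Matrix ι ι ℝ}

/-- splitting a cell -/
theorem sum_iv_two (k : ℕ) (p : ℤ) (f : ℤ → ℝ) :
    ∑ x ∈ iv (k + 1) p, f x = ∑ x ∈ iv k (2 * p), f x + ∑ x ∈ iv k (2 * p + 1), f x := by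
  rw [← sum_union]
  · refine sum_congr ?_ fun _ _ => rfl
    ext x
    rw [mem_union, mem_iv', mem_iv', mem_iv']
    have e : (2 : ℤ) ^ (k + 1) = 2 * 2 ^ k := by rw [pow_succ]; ring
    rw [e]
    have h1 : (0 : ℤ) < 2 ^ k := by positivity
    have e1 : (2 : ℤ) ^ k * (2 * p) = 2 * 2 ^ k * p := by ring
    have e2 : (2 : ℤ) ^ k * (2 * p + 1) = 2 * 2 ^ k * p + 2 ^ k := by ring
    rw [e1, e2]
    generalize 2 * 2 ^ k * p = a
    generalize (2 : ℤ) ^ k = b at h1 ⊢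
    omega
  · rw [disjoint_left]
    intro x hx hx'
    rw [mem_iv] at hx hx'
    omega

/-- the offsets of one node -/
theorem off_sum (J : ℕ) {c p : ℤ} (hc : c = 2 * p ∨ c = 2 * p + 1) {f : ℤ → ℝ}
    (hf : ∀ x, 0 ≤ f x) :
    ∑ m ∈ Icc (p - (J : ℤ)) (p + J), ∑ j ∈ range 7, f (2 * m - 4 + j) ≤
      7 * ∑ q ∈ Icc (c - ((2 * J + 6 : ℕ) : ℤ)) (c + ((2 * J + 6 : ℕ) : ℤ)), f q ∧
    ∑ m ∈ Icc (p - (J : ℤ)) (p + J), ∑ j ∈ range 7, f (2 * m - 4 + j + 1) ≤
      7 * ∑ q ∈ Icc (c - ((2 * J + 6 : ℕ) : ℤ)) (c + ((2 * J + 6 : ℕ) : ℤ)), f q := by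
  constructor
  · rw [sum_comm]
    have h1 : ∀ j ∈ range 7, ∑ m ∈ Icc (p - (J : ℤ)) (p + J), f (2 * m - 4 + j) ≤
        ∑ q ∈ Icc (c - ((2 * J + 6 : ℕ) : ℤ)) (c + ((2 * J + 6 : ℕ) : ℤ)), f q := by
      intro j hj
      rw [mem_range] at hj
      have e : ∑ m ∈ Icc (p - (J : ℤ)) (p + J), f (2 * m - 4 + j) =
          ∑ q ∈ (Icc (p - (J : ℤ)) (p + J)).image (fun m => 2 * m - 4 + (j : ℤ)), f q := by
        rw [sum_image]
        intro a _ b _ hab
        simp only at hab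
        omega
      rw [e]
      refine sum_le_sum_of_subset_of_nonneg (fun x hx => ?_) fun x _ _ => hf x
      rw [mem_image] at hx
      obtain ⟨m, hm, rfl⟩ := hx
      rw [mem_Icc] at hm ⊢
      push_cast
      omega
    refine (sum_le_sum h1).trans (le_of_eq ?_)
    rw [sum_const, card_range, nsmul_eq_mul]
    norm_num
  · rw [sum_comm]
    have h1 : ∀ j ∈ range 7, ∑ m ∈ Icc (p - (J : ℤ)) (p + J), f (2 * m - 4 + j + 1) ≤
        ∑ q ∈ Icc (c - ((2 * J + 6 : ℕ) : ℤ)) (c + ((2 * J + 6 : ℕ) : ℤ)), f q := by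
      intro j hj
      rw [mem_range] at hj
      have e : ∑ m ∈ Icc (p - (J : ℤ)) (p + J), f (2 * m - 4 + j + 1) =
          ∑ q ∈ (Icc (p - (J : ℤ)) (p + J)).image (fun m => 2 * m - 4 + (j : ℤ) + 1), f q := by
        rw [sum_image]
        intro a _ b _ hab
        simp only at hab
        omega
      rw [e]
      refine sum_le_sum_of_subset_of_nonneg (fun x hx => ?_) fun x _ _ => hf x
      rw [mem_image] at hx
      obtain ⟨m, hm, rfl⟩ := hx
      rw [mem_Icc] at hm ⊢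
      push_cast
      omega
    refine (sum_le_sum h1).trans (le_of_eq ?_)
    rw [sum_const, card_range, nsmul_eq_mul]
    norm_num

/-- one scale of `BM_half`, own cell `c` -/
theorem half_cell (h : Tr l N G K) {k : ℕ} (J : ℕ) {c p : ℤ} (hc : c = 2 * p ∨ c = 2 * p + 1) :
    ∑ m ∈ Icc (p - (J : ℤ)) (p + J), ∑ j ∈ range 7, ms (HM l N M K k (2 * m - 4 + j)) (K k c) ≤
      28 * ∑ q ∈ Icc (c - ((2 * J + 6 : ℕ) : ℤ)) (c + ((2 * J + 6 : ℕ) : ℤ)),
        ms (XX l N M K k q) (K k c) +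
      42 * ∑ q ∈ Icc (c - ((2 * J + 6 : ℕ) : ℤ)) (c + ((2 * J + 6 : ℕ) : ℤ)),
        ms (MM l N M K k q) (K k c) := by
  have hKc := (h.pdK k c).isHermitian
  have h1 := (off_sum J hc (f := fun q => ms (XX l N M K k q) (K k c))
    (fun q => ms_nonneg (XX_psd h k q) hKc)).1
  have h2 := off_sum J hc (f := fun q => ms (MM l N M K k q) (K k c))
    (fun q => ms_nonneg (MM_psd h k q) hKc)
  have e : ∑ m ∈ Icc (p - (J : ℤ)) (p + J), ∑ j ∈ range 7,
      ms (HM l N M K k (2 * m - 4 + j)) (K k c) =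
      4 * ∑ m ∈ Icc (p - (J : ℤ)) (p + J), ∑ j ∈ range 7, ms (XX l N M K k (2 * m - 4 + j)) (K k c) +
      3 * (∑ m ∈ Icc (p - (J : ℤ)) (p + J), ∑ j ∈ range 7,
          ms (MM l N M K k (2 * m - 4 + j)) (K k c) +
        ∑ m ∈ Icc (p - (J : ℤ)) (p + J), ∑ j ∈ range 7,
          ms (MM l N M K k (2 * m - 4 + j + 1)) (K k c)) := by
    rw [← sum_add_distrib, mul_sum, mul_sum, ← sum_add_distrib]
    refine sum_congr rfl fun m _ => ?_
    rw [← sum_add_distrib, mul_sum, mul_sum, ← sum_add_distrib]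
    refine sum_congr rfl fun j _ => ?_
    rw [HM, ms_add, ms_smul, ms_smul, ms_add]
  rw [e]
  have h3 := h2.1
  have h4 := h2.2
  linarith

/-- **the moves on the slot `B`** -/
theorem BM_half (h : Tr l N G K) {u : ℤ → ι → ℝ}
    (hG : ∀ k ≤ N, ∀ p, G k p = ((2 : ℝ) ^ k)⁻¹ • ∑ x ∈ iv k p, vecMulVec (u x) (u x)) (J : ℕ) :
    ∑ k ∈ range N, ∑ p ∈ iv (N - (k + 1)) M, ∑ m ∈ Icc (p - (J : ℤ)) (p + J),
      ∑ x ∈ iv (k + 1) p, H652.HdV (fun k q => WT l N M K k q *ᵥ u x) (k + 1) m ≤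
    33000 * (4 * J + 13) ^ 3 * (DK N M K + Bd N M G) := by
  set W : ℝ := 4 * J + 13 with hW
  have hW1 : (1 : ℝ) ≤ W := by rw [hW]; have : (0 : ℝ) ≤ J := Nat.cast_nonneg J; linarith
  have eW : (2 * ((2 * J + 6 : ℕ) : ℝ) + 1) = W := by rw [hW]; push_cast; ring
  -- one scale
  have h1 : ∀ k ∈ range N, ∑ p ∈ iv (N - (k + 1)) M, ∑ m ∈ Icc (p - (J : ℤ)) (p + J),
      ∑ x ∈ iv (k + 1) p, H652.HdV (fun k q => WT l N M K k q *ᵥ u x) (k + 1) m ≤
      196 * W ^ 3 * (2 ^ k * ∑ x ∈ ZZ (N - k) M, dlt l N M K k x ^ 2) +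
        84 * W * (2 ^ k * aM l N M K k) := by
    intro k hk
    rw [mem_range] at hk
    -- one parent cell
    have h2 : ∀ p ∈ iv (N - (k + 1)) M, ∑ m ∈ Icc (p - (J : ℤ)) (p + J),
        ∑ x ∈ iv (k + 1) p, H652.HdV (fun k q => WT l N M K k q *ᵥ u x) (k + 1) m ≤
        2 ^ k * (∑ m ∈ Icc (p - (J : ℤ)) (p + J), ∑ j ∈ range 7,
            ms (HM l N M K k (2 * m - 4 + j)) (K k (2 * p)) +
          ∑ m ∈ Icc (p - (J : ℤ)) (p + J), ∑ j ∈ range 7,
            ms (HM l N M K k (2 * m - 4 + j)) (K k (2 * p + 1))) := by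
      intro p _
      rw [← sum_add_distrib, mul_sum]
      refine sum_le_sum fun m _ => ?_
      rw [← sum_add_distrib, mul_sum]
      have e : ∑ x ∈ iv (k + 1) p, H652.HdV (fun k q => WT l N M K k q *ᵥ u x) (k + 1) m =
          ∑ j ∈ range 7, ∑ x ∈ iv (k + 1) p, u x ⬝ᵥ HM l N M K k (2 * m - 4 + j) *ᵥ u x := by
        rw [sum_comm]
        exact sum_congr rfl fun x _ => HdV_form h (u x) k m
      rw [e]
      refine sum_le_sum fun j _ => ?_
      rw [sum_iv_two, mul_add]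
      exact add_le_add
        (form_sum h.l_pos (hG k hk.le (2 * p)) (h.sq k (2 * p)) (HM_psd h k _))
        (form_sum h.l_pos (hG k hk.le (2 * p + 1)) (h.sq k (2 * p + 1)) (HM_psd h k _))
    refine (sum_le_sum h2).trans ?_
    rw [← mul_sum]
    have e0 : N - k = (N - (k + 1)) + 1 := by omega
    have h3 : ∑ p ∈ iv (N - (k + 1)) M, (∑ m ∈ Icc (p - (J : ℤ)) (p + J), ∑ j ∈ range 7,
            ms (HM l N M K k (2 * m - 4 + j)) (K k (2 * p)) +
          ∑ m ∈ Icc (p - (J : ℤ)) (p + J), ∑ j ∈ range 7,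
            ms (HM l N M K k (2 * m - 4 + j)) (K k (2 * p + 1))) ≤
        ∑ c ∈ iv (N - k) M,
          (28 * ∑ q ∈ Icc (c - ((2 * J + 6 : ℕ) : ℤ)) (c + ((2 * J + 6 : ℕ) : ℤ)),
            ms (XX l N M K k q) (K k c) +
          42 * ∑ q ∈ Icc (c - ((2 * J + 6 : ℕ) : ℤ)) (c + ((2 * J + 6 : ℕ) : ℤ)),
            ms (MM l N M K k q) (K k c)) := by
      rw [e0, sum_two]
      refine sum_le_sum fun p _ => add_le_add ?_ ?_
      · exact half_cell h J (Or.inl rfl)
      · exact half_cell h J (Or.inr rfl)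
    have h3' : ∑ c ∈ iv (N - k) M,
          (28 * ∑ q ∈ Icc (c - ((2 * J + 6 : ℕ) : ℤ)) (c + ((2 * J + 6 : ℕ) : ℤ)),
            ms (XX l N M K k q) (K k c) +
          42 * ∑ q ∈ Icc (c - ((2 * J + 6 : ℕ) : ℤ)) (c + ((2 * J + 6 : ℕ) : ℤ)),
            ms (MM l N M K k q) (K k c)) =
        28 * ∑ c ∈ iv (N - k) M,
            ∑ q ∈ Icc (c - ((2 * J + 6 : ℕ) : ℤ)) (c + ((2 * J + 6 : ℕ) : ℤ)),
            ms (XX l N M K k q) (K k c) +
          42 * ∑ c ∈ iv (N - k) M,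
            ∑ q ∈ Icc (c - ((2 * J + 6 : ℕ) : ℤ)) (c + ((2 * J + 6 : ℕ) : ℤ)),
            ms (MM l N M K k q) (K k c) := by
      rw [sum_add_distrib, ← mul_sum, ← mul_sum]
    rw [h3'] at h3
    have hkn : k + (N - k) = N := by omega
    have h4 := near_scale (M := M) h (Y := fun q => XX l N M K k q) (fun q => XX_psd h k q)
      (fun q => XX_le h k q) hkn (2 * J + 6) (ZZ (N - k) M) (fun q hq => XX_out hq)
    have h5 := near_scale (M := M) h (Y := fun q => MM l N M K k q) (fun q => MM_psd h k q)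
      (fun q => MM_le h k q) hkn (2 * J + 6) (iv (N - k) M)
      (fun q hq => MM_out h k hk.le q hq)
    rw [eW] at h4 h5
    have h6 : ∑ q ∈ ZZ (N - k) M, ms (XX l N M K k q) (Kx l N M K k q) ≤
        ∑ q ∈ ZZ (N - k) M, dlt l N M K k q ^ 2 := sum_le_sum fun q _ => own_XX h k q
    have h7 : ∑ q ∈ iv (N - k) M, ms (MM l N M K k q) (Kx l N M K k q) = aM l N M K k := by
      rw [aM]
      exact sum_congr rfl fun q hq => by rw [Kx_in hq]
    rw [h7] at h5
    have h8 : (0 : ℝ) ≤ ∑ q ∈ ZZ (N - k) M, dlt l N M K k q ^ 2 :=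
      sum_nonneg fun _ _ => sq_nonneg _
    have h9 := mul_le_mul_of_nonneg_left h6 (show (0 : ℝ) ≤ 2 * W by linarith)
    set D := ∑ q ∈ ZZ (N - k) M, dlt l N M K k q ^ 2 with hD
    have h10 : W * D ≤ W ^ 3 * D := by
      refine mul_le_mul_of_nonneg_right ?_ h8
      nlinarith [mul_nonneg (sub_nonneg.2 hW1) (by nlinarith : (0 : ℝ) ≤ W * (W + 1))]
    have h11 : ∑ p ∈ iv (N - (k + 1)) M, (∑ m ∈ Icc (p - (J : ℤ)) (p + J), ∑ j ∈ range 7,
            ms (HM l N M K k (2 * m - 4 + j)) (K k (2 * p)) +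
          ∑ m ∈ Icc (p - (J : ℤ)) (p + J), ∑ j ∈ range 7,
            ms (HM l N M K k (2 * m - 4 + j)) (K k (2 * p + 1))) ≤
        196 * W ^ 3 * D + 84 * W * aM l N M K k := by
      nlinarith
    have h12 := mul_le_mul_of_nonneg_left h11 (show (0 : ℝ) ≤ 2 ^ k by positivity)
    refine h12.trans (le_of_eq ?_)
    ring
  refine (sum_le_sum h1).trans ?_
  rw [sum_add_distrib, ← mul_sum, ← mul_sum]
  have g1 := dlt_sum (M := M) h
  have e1 : ∑ n ∈ range (N + 1), (2 : ℝ) ^ (N - n) * ∑ q ∈ ZZ n M, dlt l N M K (N - n) q ^ 2 =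
      ∑ k ∈ range (N + 1), (2 : ℝ) ^ k * ∑ q ∈ ZZ (N - k) M, dlt l N M K k q ^ 2 := by
    refine sum_nbij' (fun n => N - n) (fun k => N - k) ?_ ?_ ?_ ?_ ?_
    · intro n hn; rw [mem_range] at hn ⊢; omega
    · intro k hk; rw [mem_range] at hk ⊢; omega
    · intro n hn; rw [mem_range] at hn; show N - (N - n) = n; omega
    · intro k hk; rw [mem_range] at hk; show N - (N - k) = k; omega
    · intro n hn
      rw [mem_range] at hn
      have e : N - (N - n) = n := by omega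
      show _ = (2 : ℝ) ^ (N - n) * ∑ q ∈ ZZ (N - (N - n)) M, dlt l N M K (N - n) q ^ 2
      rw [e]
  rw [e1, sum_range_succ] at g1
  have g2 := MM_sum (M := M) h N le_rfl
  rw [sum_range_succ] at g2
  have g3 : (0 : ℝ) ≤ 2 ^ N * ∑ q ∈ ZZ (N - N) M, dlt l N M K N q ^ 2 :=
    mul_nonneg (by positivity) (sum_nonneg fun _ _ => sq_nonneg _)
  have g4 : 0 ≤ aM l N M K N := sum_nonneg fun q _ => ms_nonneg (MM_psd h N q)
    (h.pdK N q).isHermitian
  have g5 : (0 : ℝ) ≤ 2 ^ N * aM l N M K N := by positivity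
  have g6 : 0 ≤ DK N M K := sum_nonneg fun k _ => mul_nonneg (by positivity)
    (sum_nonneg fun q _ => gd_nonneg h k q)
  have g7 : 0 ≤ Bd N M G := sum_nonneg fun n _ => mul_nonneg (by positivity)
    (add_nonneg (h.psG _ _).trace_nonneg (h.psG _ _).trace_nonneg)
  have g8 : ∑ k ∈ range N, (2 : ℝ) ^ k * ∑ q ∈ ZZ (N - k) M, dlt l N M K k q ^ 2 ≤
      128 * DK N M K + Bd N M G := by linarith
  have g9 : ∑ k ∈ range N, (2 : ℝ) ^ k * aM l N M K k ≤ 86 * DK N M K := by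
    rw [DK]; linarith
  have g10 := mul_le_mul_of_nonneg_left g8 (show (0 : ℝ) ≤ 196 * W ^ 3 by positivity)
  have g11 := mul_le_mul_of_nonneg_left g9 (show (0 : ℝ) ≤ 84 * W by linarith)
  have g12 : W * DK N M K ≤ W ^ 3 * DK N M K := by
    refine mul_le_mul_of_nonneg_right ?_ g6
    nlinarith [mul_nonneg (sub_nonneg.2 hW1) (by nlinarith : (0 : ℝ) ≤ W * (W + 1))]
  have g13 : 0 ≤ W ^ 3 * DK N M K := mul_nonneg (by positivity) g6
  have g14 : 0 ≤ W ^ 3 * Bd N M G := mul_nonneg (by positivity) g7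
  nlinarith

/-- `1 - ET` is positive -/
theorem ET_le_one (h : Tr l N G K) {k : ℕ} (hk : k < N) (q : ℤ) :
    ((1 : Matrix ι ι ℝ) - ET l N M K (k + 1) q).PosSemidef := by
  have h1 := (WT_le_one (M := M) h (k + 1) q).add (ET_le_WT (M := M) h hk q)
  have e : (1 : Matrix ι ι ℝ) - ET l N M K (k + 1) q =
      1 - WT l N M K (k + 1) q + (WT l N M K (k + 1) q - ET l N M K (k + 1) q) := by abel
  rw [e]
  exact h1

/-- own mass of the drift -/
theorem own_ET (h : Tr l N G K) {k : ℕ} (hk : k < N) {q : ℤ} (hq : q ∈ iv (N - (k + 1)) M) :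
    ms (ET l N M K (k + 1) q) (K (k + 1) q) ≤ 2 * gd K (k + 1) q := by
  have h1 := own_drift (h.nd hk q) (half_psd h hk q).1 (half_psd h hk q).2
  have e : ET l N M K (k + 1) q = (1 / 2 : ℝ) • (√l • (K k (2 * q))⁻¹ + √l • (K k (2 * q + 1))⁻¹) -
      √l • (K (k + 1) q)⁻¹ := by
    rw [ET_in hk hq]
    module
  rw [e]
  exact h1

/-- **the drift terms on the slot `B`** -/
theorem BM_drift (h : Tr l N G K) {u : ℤ → ι → ℝ}
    (hG : ∀ k ≤ N, ∀ p, G k p = ((2 : ℝ) ^ k)⁻¹ • ∑ x ∈ iv k p, vecMulVec (u x) (u x)) (J : ℕ) :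
    ∑ k ∈ range N, ∑ p ∈ iv (N - (k + 1)) M, ∑ m ∈ Icc (p - (J : ℤ)) (p + J),
      ∑ x ∈ iv (k + 1) p, u x ⬝ᵥ ET l N M K (k + 1) m *ᵥ u x ≤
    260 * (2 * J + 1) ^ 3 * (DK N M K + Bd N M G) := by
  set W : ℝ := 2 * J + 1 with hW
  have hW1 : (1 : ℝ) ≤ W := by rw [hW]; have : (0 : ℝ) ≤ J := Nat.cast_nonneg J; linarith
  have h1 : ∀ k ∈ range N, ∑ p ∈ iv (N - (k + 1)) M, ∑ m ∈ Icc (p - (J : ℤ)) (p + J),
      ∑ x ∈ iv (k + 1) p, u x ⬝ᵥ ET l N M K (k + 1) m *ᵥ u x ≤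
      4 * W * (2 ^ (k + 1) * ∑ q ∈ iv (N - (k + 1)) M, gd K (k + 1) q) +
        2 * W ^ 3 * (2 ^ (k + 1) * ∑ q ∈ ZZ (N - (k + 1)) M, dlt l N M K (k + 1) q ^ 2) := by
    intro k hk
    rw [mem_range] at hk
    have h2 : ∀ p ∈ iv (N - (k + 1)) M, ∑ m ∈ Icc (p - (J : ℤ)) (p + J),
        ∑ x ∈ iv (k + 1) p, u x ⬝ᵥ ET l N M K (k + 1) m *ᵥ u x ≤
        2 ^ (k + 1) * ∑ m ∈ Icc (p - (J : ℤ)) (p + J), ms (ET l N M K (k + 1) m) (K (k + 1) p) := by
      intro p _
      rw [mul_sum]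
      exact sum_le_sum fun m _ => form_sum h.l_pos (hG (k + 1) hk p) (h.sq (k + 1) p)
        (ET_psd h (k + 1) m)
    refine (sum_le_sum h2).trans ?_
    rw [← mul_sum]
    have h3 := near_scale (M := M) h (Y := fun q => ET l N M K (k + 1) q)
      (fun q => ET_psd h (k + 1) q) (fun q => ET_le_one h hk q)
      (k := k + 1) (n := N - (k + 1)) (by omega) J (iv (N - (k + 1)) M) (fun q hq => ET_out hq)
    rw [← hW] at h3
    have h4 : ∑ q ∈ iv (N - (k + 1)) M, ms (ET l N M K (k + 1) q) (Kx l N M K (k + 1) q) ≤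
        2 * ∑ q ∈ iv (N - (k + 1)) M, gd K (k + 1) q := by
      rw [mul_sum]
      refine sum_le_sum fun q hq => ?_
      rw [Kx_in hq]
      exact own_ET h hk hq
    have h5 := mul_le_mul_of_nonneg_left h4 (show (0 : ℝ) ≤ 2 * W by linarith)
    have h6 := mul_le_mul_of_nonneg_left (h3.trans (add_le_add h5 le_rfl))
      (show (0 : ℝ) ≤ 2 ^ (k + 1) by positivity)
    refine h6.trans (le_of_eq ?_)
    ring
  refine (sum_le_sum h1).trans ?_
  rw [sum_add_distrib, ← mul_sum, ← mul_sum]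
  have g1 := dlt_sum (M := M) h
  have e1 : ∑ n ∈ range (N + 1), (2 : ℝ) ^ (N - n) * ∑ q ∈ ZZ n M, dlt l N M K (N - n) q ^ 2 =
      ∑ k ∈ range (N + 1), (2 : ℝ) ^ k * ∑ q ∈ ZZ (N - k) M, dlt l N M K k q ^ 2 := by
    refine sum_nbij' (fun n => N - n) (fun k => N - k) ?_ ?_ ?_ ?_ ?_
    · intro n hn; rw [mem_range] at hn ⊢; omega
    · intro k hk; rw [mem_range] at hk ⊢; omega
    · intro n hn; rw [mem_range] at hn; show N - (N - n) = n; omega
    · intro k hk; rw [mem_range] at hk; show N - (N - k) = k; omega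
    · intro n hn
      rw [mem_range] at hn
      have e : N - (N - n) = n := by omega
      show _ = (2 : ℝ) ^ (N - n) * ∑ q ∈ ZZ (N - (N - n)) M, dlt l N M K (N - n) q ^ 2
      rw [e]
  rw [e1, sum_range_succ'] at g1
  have g3 : (0 : ℝ) ≤ 2 ^ 0 * ∑ q ∈ ZZ (N - 0) M, dlt l N M K 0 q ^ 2 :=
    mul_nonneg (by positivity) (sum_nonneg fun _ _ => sq_nonneg _)
  have g6 : 0 ≤ DK N M K := sum_nonneg fun k _ => mul_nonneg (by positivity)
    (sum_nonneg fun q _ => gd_nonneg h k q)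
  have g7 : 0 ≤ Bd N M G := sum_nonneg fun n _ => mul_nonneg (by positivity)
    (add_nonneg (h.psG _ _).trace_nonneg (h.psG _ _).trace_nonneg)
  have g8 : ∑ k ∈ range N, (2 : ℝ) ^ (k + 1) *
      ∑ q ∈ ZZ (N - (k + 1)) M, dlt l N M K (k + 1) q ^ 2 ≤ 128 * DK N M K + Bd N M G := by
    linarith
  have g9 : ∑ k ∈ range N, (2 : ℝ) ^ (k + 1) * ∑ q ∈ iv (N - (k + 1)) M, gd K (k + 1) q =
      DK N M K := by
    rw [DK]
    refine sum_nbij' (fun k => k + 1) (fun k => k - 1) ?_ ?_ ?_ ?_ ?_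
    · intro k hk; rw [mem_range] at hk; rw [mem_Icc]; omega
    · intro k hk; rw [mem_Icc] at hk; rw [mem_range]; omega
    · intro k _; show k + 1 - 1 = k; omega
    · intro k hk; rw [mem_Icc] at hk; show k - 1 + 1 = k; omega
    · intro k _; rfl
  rw [g9]
  have g10 := mul_le_mul_of_nonneg_left g8 (show (0 : ℝ) ≤ 2 * W ^ 3 by positivity)
  have g12 : W * DK N M K ≤ W ^ 3 * DK N M K := by
    refine mul_le_mul_of_nonneg_right ?_ g6
    nlinarith [mul_nonneg (sub_nonneg.2 hW1) (by nlinarith : (0 : ℝ) ≤ W * (W + 1))]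
  have g13 : 0 ≤ W ^ 3 * DK N M K := mul_nonneg (by positivity) g6
  have g14 : 0 ≤ W ^ 3 * Bd N M G := mul_nonneg (by positivity) g7
  nlinarith

/-- energies grow by at most two from a cell to a child -/
theorem tr_up (h : Tr l N G K) : ∀ r k : ℕ, k + r = N → ∀ p ∈ iv r M,
    2 ^ k * (G k p).trace ≤ 2 ^ N * (G N M).trace := by
  intro r
  induction r with
  | zero =>
    intro k hk p hp
    have e : p = M := by rw [mem_iv'] at hp; simp at hp; omega
    have e2 : k = N := by omega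
    rw [e, e2]
  | succ r ih =>
    intro k hk p hp
    have hp' : p / 2 ∈ iv r M := by
      rw [mem_iv'] at hp ⊢
      have e : (2 : ℤ) ^ (r + 1) = 2 * 2 ^ r := by rw [pow_succ]; ring
      rw [e, mul_assoc] at hp
      omega
    have h1 := ih (k + 1) (by omega) (p / 2) hp'
    have h2 := h.mean k (by omega) (p / 2)
    have h3 : (G (k + 1) (p / 2)).trace = (1 / 2) * ((G k (2 * (p / 2))).trace +
        (G k (2 * (p / 2) + 1)).trace) := by
      rw [h2, trace_smul, trace_add, smul_eq_mul]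
    have h4 : (G k p).trace ≤ 2 * (G (k + 1) (p / 2)).trace := by
      have n1 := (h.psG k (2 * (p / 2))).trace_nonneg
      have n2 := (h.psG k (2 * (p / 2) + 1)).trace_nonneg
      rcases Int.emod_two_eq_zero_or_one p with e | e
      · have e2 : 2 * (p / 2) = p := by omega
        rw [e2] at h3 n1
        rw [e2] at n2
        linarith
      · have e2 : 2 * (p / 2) + 1 = p := by omega
        rw [e2] at h3 n2
        linarith
    have h5 := mul_le_mul_of_nonneg_left h4 (show (0 : ℝ) ≤ 2 ^ k by positivity)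
    have e : (2 : ℝ) ^ (k + 1) = 2 * 2 ^ k := by rw [pow_succ]; ring
    rw [e] at h1
    linarith

theorem tr_ht (h : Tr l N G K) {H : ℝ} (hH : ∀ p, (G 0 p).trace ≤ H) : ∀ k ≤ N, ∀ p,
    (G k p).trace ≤ H := by
  intro k
  induction k with
  | zero => intro _ p; exact hH p
  | succ k ih =>
    intro hk p
    have h3 : (G (k + 1) p).trace = (1 / 2) * ((G k (2 * p)).trace +
        (G k (2 * p + 1)).trace) := by
      rw [h.mean k (by omega) p, trace_smul, trace_add, smul_eq_mul]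
    have h1 := ih (by omega) (2 * p)
    have h2 := ih (by omega) (2 * p + 1)
    linarith

theorem sum_pow_two (n : ℕ) : ∑ k ∈ range n, (2 : ℝ) ^ k ≤ 2 ^ n := by
  induction n with
  | zero => simp
  | succ n ih => rw [sum_range_succ, pow_succ]; linarith

/-- **boundary energies** : `A` large scales cost the top energy each, the small ones are
geometric in the height -/
theorem Bd_le (h : Tr l N G K) {H : ℝ} (hH : ∀ p, (G 0 p).trace ≤ H) (A : ℕ) :
    Bd N M G ≤ 2 * 2 ^ N * (A * (G N M).trace + 2 * H / 2 ^ A) := by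
  have hT0 := (h.psG N M).trace_nonneg
  have hH0 : 0 ≤ H := (h.psG 0 0).trace_nonneg.trans (hH 0)
  have h0 : ∀ n ∈ range (N + 1), (2 : ℝ) ^ (N - n) * ((G (N - n) (2 ^ n * M)).trace +
      (G (N - n) (2 ^ n * M + 2 ^ n - 1)).trace) ≤
      if n < A then 2 * (2 ^ N * (G N M).trace) else 2 * (2 ^ (N - n) * H) := by
    intro n hn
    rw [mem_range] at hn
    have hpow : (1 : ℤ) ≤ 2 ^ n := one_le_pow₀ (by norm_num)
    have hL : 2 ^ n * M ∈ iv n M := by rw [mem_iv']; omega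
    have hR : 2 ^ n * M + 2 ^ n - 1 ∈ iv n M := by rw [mem_iv']; omega
    rw [mul_add]
    split_ifs
    · have a1 := tr_up h n (N - n) (by omega) _ hL
      have a2 := tr_up h n (N - n) (by omega) _ hR
      linarith
    · have hp : (0 : ℝ) ≤ 2 ^ (N - n) := by positivity
      have a1 := mul_le_mul_of_nonneg_left (tr_ht h hH (N - n) (by omega) (2 ^ n * M)) hp
      have a2 := mul_le_mul_of_nonneg_left
        (tr_ht h hH (N - n) (by omega) (2 ^ n * M + 2 ^ n - 1)) hp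
      linarith
  refine (sum_le_sum h0).trans ?_
  rw [sum_ite, sum_const, nsmul_eq_mul]
  have hc : (((range (N + 1)).filter (fun n => n < A)).card : ℝ) ≤ A := by
    have h1 : (range (N + 1)).filter (fun n => n < A) ⊆ range A := by
      intro n hn
      rw [mem_filter] at hn
      exact mem_range.2 hn.2
    have h2 := card_le_card h1
    rw [card_range] at h2
    exact_mod_cast h2
  have h1 := mul_le_mul_of_nonneg_right hc (show 0 ≤ 2 * (2 ^ N * (G N M).trace) by positivity)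
  have h2 : ∑ n ∈ (range (N + 1)).filter (fun n => ¬ n < A), 2 * ((2 : ℝ) ^ (N - n) * H) ≤
      2 * H * (2 * 2 ^ N / 2 ^ A) := by
    rcases le_or_gt (N + 1) A with hA | hA
    · have e : (range (N + 1)).filter (fun n => ¬ n < A) = ∅ := by
        apply filter_eq_empty_iff.2
        intro n hn
        rw [mem_range] at hn
        omega
      rw [e, sum_empty]
      positivity
    · have e1 : ∑ n ∈ (range (N + 1)).filter (fun n => ¬ n < A), 2 * ((2 : ℝ) ^ (N - n) * H) =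
          ∑ k ∈ range (N - A + 1), 2 * ((2 : ℝ) ^ k * H) := by
        refine sum_nbij' (fun n => N - n) (fun k => N - k) ?_ ?_ ?_ ?_ ?_
        · intro n hn; rw [mem_filter, mem_range] at hn; rw [mem_range]; omega
        · intro k hk; rw [mem_range] at hk; rw [mem_filter, mem_range]; omega
        · intro n hn; rw [mem_filter, mem_range] at hn; show N - (N - n) = n; omega
        · intro k hk; rw [mem_range] at hk; show N - (N - k) = k; omega
        · intro n _; rfl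
      rw [e1, ← mul_sum, ← sum_mul]
      have e2 := sum_pow_two (N - A + 1)
      have e3 : (2 : ℝ) ^ (N - A + 1) = 2 * 2 ^ N / 2 ^ A := by
        rw [eq_div_iff (by positivity), ← pow_add, show N - A + 1 + A = N + 1 by omega, pow_succ]
        ring
      rw [e3] at e2
      have e4 := mul_le_mul_of_nonneg_right e2 hH0
      linarith
  have e : 2 * 2 ^ N * (A * (G N M).trace + 2 * H / 2 ^ A) =
      A * (2 * (2 ^ N * (G N M).trace)) + 2 * H * (2 * 2 ^ N / 2 ^ A) := by ring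
  rw [e]
  exact add_le_add h1 h2

/-- **the two numbers, together** -/
theorem BM_total (h : Tr l N G K) {H P : ℝ} (hH : ∀ p, (G 0 p).trace ≤ H) (hP : 0 ≤ P)
    (hGP : ∀ m, ∀ v : ι → ℝ, v ⬝ᵥ G 0 m *ᵥ v ≤ P * (v ⬝ᵥ v)) (A : ℕ) :
    DK N M K + Bd N M G ≤
      2 ^ N * ((1 + Real.log (1 + P / l) + 2 * A) * (G N M).trace + 4 * H / 2 ^ A) := by
  have h1 := DK_le h hP hGP M
  have h2 := Bd_le (M := M) h hH A
  rw [DK]
  have e : (2 : ℝ) ^ N * ((1 + Real.log (1 + P / l) + 2 * A) * (G N M).trace + 4 * H / 2 ^ A) =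
      2 ^ N * ((1 + Real.log (1 + P / l)) * (G N M).trace) +
      2 * 2 ^ N * (A * (G N M).trace + 2 * H / 2 ^ A) := by ring
  rw [e]
  exact add_le_add h1 h2

end

end Vale.Agent.P141.H784
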