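import Vale.Agent.P141.H483.Chain

/-!
# P141, line (A): Klein's inequality; the square function of `dK` on the tree costs one `log`

Letters of `H420.FlowM` / `H483.Chain`. For `K² = l + G` put
`ent l K = ∑ κ² log (κ² / l)` over the eigenvalues `κ` of `K`.

* `klein` : `2 tr A² - 2 tr (A H) ≤ ent A - tr (A² log (H² / l))`;
* `ent_node` : `tr dK² ≤ (ent Kp + ent Km) / 2 - ent K`;
* `ent_le` : `ent l K ≤ (1 + log (1 + P / l)) tr G` when the form of `G` is at most `P`;
* `dK_tree` : `tsum (tr dK²) ≤ (1 + log (1 + P / l)) tr G` at the top.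
-/

namespace Vale.Agent.P141.H784

open Matrix Finset
open Vale.Agent.P141.H420 (Tr Nd tr_symm trace_mul_nonneg quad_nonneg)
open Vale.Agent.P141.H483 (tmean hd nd')

noncomputable section

variable {ι : Type*} [Fintype ι] [DecidableEq ι]

/-- the trace of a product of two matrices, each given in its own basis -/
theorem trace_two (U V : Matrix ι ι ℝ) (a b : ι → ℝ) :
    (U * diagonal a * Uᵀ * (V * diagonal b * Vᵀ)).trace =
      ∑ i, ∑ j, a i * b j * ((Uᵀ * V) i j) ^ 2 := by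
  set W := Uᵀ * V with hW
  have e : (U * diagonal a * Uᵀ * (V * diagonal b * Vᵀ)).trace =
      (diagonal a * W * diagonal b * Wᵀ).trace := by
    have h1 : U * diagonal a * Uᵀ * (V * diagonal b * Vᵀ) =
        U * (diagonal a * W * diagonal b * Vᵀ) := by
      rw [hW]; simp only [Matrix.mul_assoc]
    rw [h1, trace_mul_comm, hW, transpose_mul, transpose_transpose]
    simp only [Matrix.mul_assoc]
  rw [e]
  simp only [trace, diag_apply]
  refine sum_congr rfl fun i _ => ?_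
  rw [mul_apply]
  refine sum_congr rfl fun j _ => ?_
  rw [mul_diagonal, diagonal_mul, transpose_apply]
  ring

section fn

variable {A : Matrix ι ι ℝ} (hA : A.IsHermitian)

/-- the matrix of eigenvectors -/
def eu : Matrix ι ι ℝ := (hA.eigenvectorUnitary : Matrix ι ι ℝ)

theorem eu_mul : eu hA * (eu hA)ᵀ = 1 := by
  have h := Unitary.coe_mul_star_self hA.eigenvectorUnitary
  simpa [eu, star_eq_conjTranspose, conjTranspose_eq_transpose_of_trivial] using h

theorem mul_eu : (eu hA)ᵀ * eu hA = 1 := by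
  have h := Unitary.coe_star_mul_self hA.eigenvectorUnitary
  simpa [eu, star_eq_conjTranspose, conjTranspose_eq_transpose_of_trivial] using h

/-- function of a symmetric matrix -/
def fn (f : ℝ → ℝ) : Matrix ι ι ℝ :=
  eu hA * diagonal (fun i => f (hA.eigenvalues i)) * (eu hA)ᵀ

theorem fn_id : fn hA (fun x => x) = A := by
  have hs := hA.spectral_theorem
  rw [Unitary.conjStarAlgAut_apply] at hs
  conv_rhs => rw [hs]
  simp [fn, eu, star_eq_conjTranspose, conjTranspose_eq_transpose_of_trivial, Function.comp_def]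

theorem fn_mul (f g : ℝ → ℝ) : fn hA f * fn hA g = fn hA (fun x => f x * g x) := by
  have h1 : fn hA f * fn hA g = eu hA * diagonal (fun i => f (hA.eigenvalues i)) *
      ((eu hA)ᵀ * eu hA) * diagonal (fun i => g (hA.eigenvalues i)) * (eu hA)ᵀ := by
    simp only [fn, Matrix.mul_assoc]
  rw [h1, mul_eu, Matrix.mul_one, Matrix.mul_assoc (eu hA), diagonal_mul_diagonal]
  rfl

theorem fn_sq : fn hA (fun x => x * x) = A * A := by
  rw [← fn_mul, fn_id]

theorem trace_fn (f : ℝ → ℝ) : (fn hA f).trace = ∑ i, f (hA.eigenvalues i) := by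
  rw [fn, trace_mul_comm, ← Matrix.mul_assoc, mul_eu, Matrix.one_mul]
  simp [trace]

end fn

/-- the weights of two bases -/
theorem sum_w {A H : Matrix ι ι ℝ} (hA : A.IsHermitian) (hH : H.IsHermitian) (i : ι) :
    ∑ j, (((eu hA)ᵀ * eu hH) i j) ^ 2 = 1 := by
  have h1 : ((eu hA)ᵀ * eu hH) * ((eu hA)ᵀ * eu hH)ᵀ = 1 := by
    rw [transpose_mul, transpose_transpose, Matrix.mul_assoc, ← Matrix.mul_assoc (eu hH),
      eu_mul, Matrix.one_mul, mul_eu]
  have h2 := congrFun (congrFun h1 i) i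
  rw [mul_apply, one_apply_eq] at h2
  rw [← h2]
  refine sum_congr rfl fun j _ => ?_
  rw [transpose_apply]
  ring

theorem trace_fn_fn {A H : Matrix ι ι ℝ} (hA : A.IsHermitian) (hH : H.IsHermitian)
    (f g : ℝ → ℝ) : (fn hA f * fn hH g).trace =
      ∑ i, ∑ j, f (hA.eigenvalues i) * g (hH.eigenvalues j) *
        (((eu hA)ᵀ * eu hH) i j) ^ 2 := trace_two _ _ _ _

theorem trace_fn_w {A H : Matrix ι ι ℝ} (hA : A.IsHermitian) (hH : H.IsHermitian)
    (f : ℝ → ℝ) : (fn hA f).trace =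
      ∑ i, ∑ j, f (hA.eigenvalues i) * (((eu hA)ᵀ * eu hH) i j) ^ 2 := by
  rw [trace_fn]
  refine sum_congr rfl fun i _ => ?_
  rw [← mul_sum, sum_w, mul_one]

/-- the entropy `∑ κ² log (κ² / l)` -/
def ent (l : ℝ) {A : Matrix ι ι ℝ} (hA : A.IsHermitian) : ℝ :=
  ∑ i, hA.eigenvalues i * hA.eigenvalues i * Real.log (hA.eigenvalues i ^ 2 / l)

theorem scalar {a h l : ℝ} (ha : 0 < a) (hh : 0 < h) (hl : 0 < l) :
    2 * (a * a) - 2 * (a * h) ≤ a * a * Real.log (a ^ 2 / l) - a * a * Real.log (h ^ 2 / l) := by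
  have h1 : Real.log (h / a) ≤ h / a - 1 := Real.log_le_sub_one_of_pos (by positivity)
  rw [Real.log_div hh.ne' ha.ne'] at h1
  rw [Real.log_div (by positivity) hl.ne', Real.log_div (by positivity) hl.ne', Real.log_pow,
    Real.log_pow]
  have h2 : a * a * (Real.log h - Real.log a) ≤ a * a * (h / a - 1) :=
    mul_le_mul_of_nonneg_left h1 (by positivity)
  have h3 : a * a * (h / a - 1) = a * h - a * a := by
    field_simp
  rw [h3] at h2
  push_cast
  nlinarith

/-- **Klein's inequality** -/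
theorem klein {l : ℝ} (hl : 0 < l) {A H : Matrix ι ι ℝ} (hA : A.PosDef) (hH : H.PosDef) :
    2 * (A * A).trace - 2 * (A * H).trace ≤ ent l hA.isHermitian -
      (A * A * fn hH.isHermitian (fun x => Real.log (x ^ 2 / l))).trace := by
  set a := hA.isHermitian with ha
  set b := hH.isHermitian with hb
  have e1 : (A * A).trace = ∑ i, ∑ j, (a.eigenvalues i * a.eigenvalues i) *
      (((eu a)ᵀ * eu b) i j) ^ 2 := by
    rw [← fn_sq a, trace_fn_w a b]
  have e2 : (A * H).trace = ∑ i, ∑ j, a.eigenvalues i * b.eigenvalues j *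
      (((eu a)ᵀ * eu b) i j) ^ 2 := by
    conv_lhs => rw [← fn_id a, ← fn_id b]
    rw [trace_fn_fn]
  have e3 : ent l a = ∑ i, ∑ j, (a.eigenvalues i * a.eigenvalues i *
      Real.log (a.eigenvalues i ^ 2 / l)) * (((eu a)ᵀ * eu b) i j) ^ 2 := by
    have h1 : ent l a = (fn a (fun x => x * x * Real.log (x ^ 2 / l))).trace := by
      rw [trace_fn]; rfl
    rw [h1, trace_fn_w a b]
  have e4 : (A * A * fn b (fun x => Real.log (x ^ 2 / l))).trace =
      ∑ i, ∑ j, (a.eigenvalues i * a.eigenvalues i) * Real.log (b.eigenvalues j ^ 2 / l) *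
        (((eu a)ᵀ * eu b) i j) ^ 2 := by
    rw [← fn_sq a, trace_fn_fn]
  rw [e1, e2, e3, e4, mul_sum, mul_sum, ← sum_sub_distrib, ← sum_sub_distrib]
  refine sum_le_sum fun i _ => ?_
  rw [mul_sum, mul_sum, ← sum_sub_distrib, ← sum_sub_distrib]
  refine sum_le_sum fun j _ => ?_
  have h1 := mul_le_mul_of_nonneg_right (scalar (hA.eigenvalues_pos i) (hH.eigenvalues_pos j) hl)
    (sq_nonneg (((eu a)ᵀ * eu b) i j))
  linarith

/-- the entropy in the basis of the matrix itself -/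
theorem ent_eq {l : ℝ} {A : Matrix ι ι ℝ} (hA : A.IsHermitian) :
    ent l hA = (A * A * fn hA (fun x => Real.log (x ^ 2 / l))).trace := by
  rw [← fn_sq hA, fn_mul, trace_fn]
  rfl

/-- **the node inequality** -/
theorem ent_node {l : ℝ} {G D K Kp Km : Matrix ι ι ℝ} (h : Nd l G D K Kp Km) :
    (Nd.dK Kp Km * Nd.dK Kp Km).trace ≤
      (1 / 2) * (ent l h.pdp.isHermitian + ent l h.pdm.isHermitian) -
        ent l h.pdK.isHermitian := by
  have hp := klein h.l_pos h.pdp h.pdK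
  have hm := klein h.l_pos h.pdm h.pdK
  set L := fn h.pdK.isHermitian (fun x => Real.log (x ^ 2 / l)) with hL
  have e0 : Kp * Kp + Km * Km = (2 : ℝ) • (K * K) := by
    rw [h.sqp, h.sqm, h.sq, two_smul]; abel
  have e1 : (Kp * Kp).trace + (Km * Km).trace = 2 * (K * K).trace := by
    rw [← trace_add, e0, trace_smul, smul_eq_mul]
  have e2 : (Kp * Kp * L).trace + (Km * Km * L).trace = 2 * ent l h.pdK.isHermitian := by
    rw [← trace_add, ← Matrix.add_mul, e0, Matrix.smul_mul, trace_smul, smul_eq_mul, ent_eq]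
  have e3 : (Kp * K).trace + (Km * K).trace = 2 * (Nd.Kb Kp Km * K).trace := by
    rw [← trace_add, ← Matrix.add_mul, Nd.Kb, Matrix.smul_mul, trace_smul, smul_eq_mul]
    ring
  have e4 : (K * K).trace = (Nd.Kb Kp Km * Nd.Kb Kp Km).trace +
      (Nd.dK Kp Km * Nd.dK Kp Km).trace := by
    rw [← trace_add, ← h.sq_eq]
  have e5 : 0 ≤ ((K - Nd.Kb Kp Km) * (K - Nd.Kb Kp Km)).trace :=
    trace_mul_nonneg h.Kb_le h.Kb_le
  rw [Matrix.mul_sub, Matrix.sub_mul, Matrix.sub_mul, trace_sub, trace_sub, trace_sub,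
    trace_mul_comm K (Nd.Kb Kp Km)] at e5
  linarith

/-- an eigenvalue of `K` in terms of the form of `G` -/
theorem eig_sq {l : ℝ} {G K : Matrix ι ι ℝ} (hK : K.IsHermitian)
    (h : K * K = l • (1 : Matrix ι ι ℝ) + G) (i : ι) :
    ∃ e : ι → ℝ, e ⬝ᵥ e = 1 ∧ hK.eigenvalues i ^ 2 = l + e ⬝ᵥ G *ᵥ e := by
  set e : ι → ℝ := (hK.eigenvectorBasis i).ofLp with he
  have h1 : K *ᵥ e = hK.eigenvalues i • e := hK.mulVec_eigenvectorBasis i
  have h2 : e ⬝ᵥ e = 1 := by
    have h3 := (hK.eigenvectorBasis.orthonormal).1 i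
    have h4 : ‖hK.eigenvectorBasis i‖ ^ 2 = 1 := by rw [h3]; norm_num
    rw [EuclideanSpace.norm_sq_eq] at h4
    rw [← h4]
    simp [dotProduct, he, sq]
  refine ⟨e, h2, ?_⟩
  have h5 : (K * K) *ᵥ e = (hK.eigenvalues i * hK.eigenvalues i) • e := by
    rw [← mulVec_mulVec, h1, mulVec_smul, h1, smul_smul]
  rw [h, add_mulVec, smul_mulVec, one_mulVec] at h5
  have h6 : e ⬝ᵥ (l • e + G *ᵥ e) = e ⬝ᵥ ((hK.eigenvalues i * hK.eigenvalues i) • e) := by
    rw [h5]
  rw [dotProduct_add, dotProduct_smul, dotProduct_smul, h2] at h6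
  simp only [smul_eq_mul, mul_one] at h6
  rw [sq, ← h6]

theorem ent_nonneg {l : ℝ} (hl : 0 < l) {G K : Matrix ι ι ℝ} (hG : G.PosSemidef)
    (hK : K.IsHermitian) (h : K * K = l • (1 : Matrix ι ι ℝ) + G) : 0 ≤ ent l hK := by
  refine sum_nonneg fun i _ => ?_
  obtain ⟨e, -, h2⟩ := eig_sq hK h i
  have h3 := quad_nonneg hG e
  refine mul_nonneg (mul_self_nonneg _) (Real.log_nonneg ?_)
  rw [h2, le_div_iff₀ hl]
  linarith

/-- the entropy is at most `(1 + log (1 + P / l)) tr G` -/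
theorem ent_le {l P : ℝ} (hl : 0 < l) (hP : 0 ≤ P) {G K : Matrix ι ι ℝ} (hG : G.PosSemidef)
    (hGP : ∀ v : ι → ℝ, v ⬝ᵥ G *ᵥ v ≤ P * (v ⬝ᵥ v))
    (hK : K.IsHermitian) (h : K * K = l • (1 : Matrix ι ι ℝ) + G) :
    ent l hK ≤ (1 + Real.log (1 + P / l)) * G.trace := by
  have h0 : G.trace = ∑ i, (hK.eigenvalues i ^ 2 - l) := by
    have h1 : (K * K).trace = ∑ i, hK.eigenvalues i ^ 2 := by
      rw [← fn_sq hK, trace_fn]
      exact sum_congr rfl fun i _ => (sq _).symm
    rw [h, trace_add, trace_smul, trace_one, smul_eq_mul] at h1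
    rw [sum_sub_distrib, ← h1]
    simp [card_univ]
    ring
  rw [h0, mul_sum]
  refine sum_le_sum fun i _ => ?_
  obtain ⟨e, h1, h2⟩ := eig_sq hK h i
  have h3 := quad_nonneg hG e
  have h4 := hGP e
  rw [h1, mul_one] at h4
  set g := e ⬝ᵥ G *ᵥ e with hg
  have h5 : hK.eigenvalues i * hK.eigenvalues i = l + g := by rw [← h2, sq]
  rw [h5, h2, add_sub_cancel_left]
  have h6 : (l + g) / l = 1 + g / l := by field_simp
  rw [h6]
  have h7 : 0 ≤ g / l := by positivity
  have h8 : Real.log (1 + g / l) ≤ g / l := by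
    have := Real.log_le_sub_one_of_pos (show 0 < 1 + g / l by positivity)
    linarith
  have h9 : Real.log (1 + g / l) ≤ Real.log (1 + P / l) := by
    refine Real.log_le_log (by positivity) ?_
    have := div_le_div_of_nonneg_right h4 hl.le
    linarith
  have h10 : l * Real.log (1 + g / l) ≤ g := by
    have := mul_le_mul_of_nonneg_left h8 hl.le
    have e : l * (g / l) = g := by field_simp
    linarith
  have h11 : g * Real.log (1 + g / l) ≤ g * Real.log (1 + P / l) :=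
    mul_le_mul_of_nonneg_left h9 h3
  nlinarith

/-- the trace of the Gram matrices is a martingale -/
theorem tmean_trace {l : ℝ} {n : ℕ} {G K : ℕ → ℤ → Matrix ι ι ℝ} (h : Tr l n G K) :
    ∀ k ≤ n, ∀ m, tmean (fun i => (G 0 i).trace) k m = (G k m).trace := by
  intro k
  induction k with
  | zero => intro _ m; rfl
  | succ k ih =>
    intro hk m
    rw [tmean, ih (by omega), ih (by omega), h.mean k (by omega) m, trace_smul, trace_add,
      smul_eq_mul]

/-- the square function of `dK` at one cell -/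
def gd (K : ℕ → ℤ → Matrix ι ι ℝ) (k : ℕ) (m : ℤ) : ℝ := (hd K k m * hd K k m).trace

theorem hd_eq (K : ℕ → ℤ → Matrix ι ι ℝ) (k : ℕ) (m : ℤ) :
    hd K (k + 1) m = Nd.dK (K k (2 * m)) (K k (2 * m + 1)) := rfl

theorem gd_nonneg {l : ℝ} {n : ℕ} {G K : ℕ → ℤ → Matrix ι ι ℝ} (h : Tr l n G K) (k : ℕ) (m : ℤ) :
    0 ≤ gd K k m := by
  have h1 : (hd K k m).IsHermitian := by
    have h2 := (h.pdK (k - 1) (2 * m)).isHermitian.sub (h.pdK (k - 1) (2 * m + 1)).isHermitian
    show ((1 / 2 : ℝ) • (K (k - 1) (2 * m) - K (k - 1) (2 * m + 1)))ᴴ = _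
    rw [conjTranspose_smul, h2.eq]
    simp [hd]
  have h3 := (posSemidef_self_mul_conjTranspose (hd K k m)).trace_nonneg
  rwa [h1.eq] at h3

/-- **the square function of `dK` on the tree** -/
theorem dK_tree {l P : ℝ} {n : ℕ} {G K : ℕ → ℤ → Matrix ι ι ℝ} (h : Tr l n G K) (hP : 0 ≤ P)
    (hGP : ∀ m, ∀ v : ι → ℝ, v ⬝ᵥ G 0 m *ᵥ v ≤ P * (v ⬝ᵥ v)) {k : ℕ} (hk : k ≤ n) (m : ℤ) :
    H420.tsum (gd K) k m ≤ (1 + Real.log (1 + P / l)) * (G k m).trace := by
  have h1 := H483.tsum_le_mean (f := gd K)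
    (F := fun j i => ent l (h.pdK j i).isHermitian) (n := n) (fun j hj i => by
      have h2 := ent_node (h.nd hj i)
      exact h2) k hk m
  have h2 : 0 ≤ ent l (h.pdK k m).isHermitian :=
    ent_nonneg h.l_pos (h.psG k m) _ (h.sq k m)
  have h3 : tmean (fun i => ent l (h.pdK 0 i).isHermitian) k m ≤
      tmean (fun i => (1 + Real.log (1 + P / l)) * (G 0 i).trace) k m :=
    H483.tmean_mono (fun i => ent_le h.l_pos hP (h.psG 0 i) (hGP i) _ (h.sq 0 i)) k m
  rw [H483.tmean_mul, tmean_trace h k hk m] at h3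
  linarith

end

end Vale.Agent.P141.H784
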