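import Vale.Agent.P141.H886.NumOf
import Vale.Agent.P141.H736.FixBD
import Vale.Agent.P141.H74.CutBC
import Vale.Agent.P141.H652.NumR
import Vale.Agent.P141.H652.NumQ
import Vale.Agent.P141.H302.BornU
import Vale.Agent.P141.H548.LagU
import Vale.Agent.P141.H989.CrB3
import Vale.Agent.P141.H329.WinBC

/-!
# P141, line (A), increasing part: the numbers of the pair `(Bg, Cg)`

`nE`, `nB` : the numbers of the second and of the first slot; `fixBC` : the inequality at one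
`x0`, class data; `numBC`, `lBCg`.
-/

namespace Vale.Agent.P141.H784.Lbc

open Finset Matrix
open Vale.Agent.P075 (Ix)
open Vale.Agent.P141.PL (Pt iv ix cx mem_iv)
open Vale.Agent.P141.PL.H315 (Tri)
open Vale.Agent.P141.H103 (GW)
open Vale.Agent.P141.H48 (US ES BSl)
open Vale.Agent.P141.H305 (ClsM kapM)
open Vale.Agent.P141.H401 (StQ FibU FibP cb)
open Vale.Agent.P141.H677 (KT GT rt cP cP_pl tr_T)
open Vale.Agent.P141.H652 (Th Th_psd eb ah payS dB)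
open Vale.Agent.P141.H874 (CP)
open Vale.Agent.P141.H457 (PG SD rs)
open Vale.Agent.P141.H419.PairB (gnV)
open Vale.Agent.P141.H419.WFamR
open Vale.Agent.P141.H912 (wS)
open Vale.Agent.P141.H808 (cS thS)
open Vale.Agent.P141.H505.Sk1 (eT)
open Vale.Agent.P141.H170 (Win.cut)
open Vale.Agent.P141.H74.CapBC (thX)
open Vale.Agent.P141.H408
open Vale.Agent.P141.H886

noncomputable section

open scoped Classical

set_option linter.unusedVariables false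

theorem SumL.at {σ : ℝ} {f : ℕ → NumF} (H : SumL σ f) (l : ℕ) : SumU σ (f l) := by
  refine PairU.map (M := 1) zero_le_one H ?_
  intro ι _ _ p n ez F1 F2 F3 o K x s r U g u v Q1 Q2 Q3 X _ _ _ _ _ h
  rw [one_mul]
  exact h l

/-- weights of the lags -/
def wN (f : ℕ → NumF) : NumF := fun ι _ _ p n ez F1 F2 F3 o K x s r U g u v Q1 Q2 Q3 x0 =>
  ∑ l ∈ range (K + 1), (3 / 4 : ℝ) ^ l * f l ι p n ez F1 F2 F3 o K x s r U g u v Q1 Q2 Q3 x0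

/-- sum of two numbers -/
def aN (f g' : NumF) : NumF := fun ι _ _ p n ez F1 F2 F3 o K x s r U g u v Q1 Q2 Q3 x0 =>
  f ι p n ez F1 F2 F3 o K x s r U g u v Q1 Q2 Q3 x0 +
    g' ι p n ez F1 F2 F3 o K x s r U g u v Q1 Q2 Q3 x0

/-- the number of the second slot -/
def nE : NumF := aN (aN (aN (wN (H548.vN 0)) (H548.vN 1 0)) (aN (wN fun q => H302.bN (q + 1))
  (H302.bN 0))) (aN (H548.oN 0) (H989.CrB.fCRB H989.CrB.mB))

/-- the number of the first slot -/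
def nB : NumF := fun ι _ _ p n ez F1 F2 F3 o K x s r U g u v Q1 Q2 Q3 x0 =>
    dB p s r U K x u F3 Q3 x0 +
      payS (beI p r) (p.lam s r) o K (cx K x) u (fun k => H652.bS p s r U K u F3 Q3 x0 k) x0

theorem sumU_nE : SumU 1 nE :=
  SumU.add (SumU.add (SumU.add (H548.sumU_v (Nat.zero_le 1)) (SumL.at (H548.sumL_v le_rfl) 0))
    (SumU.add H302.sumU_b1 H302.sumU_b0)) (SumU.add (SumL.at H548.sumL_o 0) H989.CrB.sumU_mB)

theorem sumU_nB : SumU (-1) nB := H652.EBU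

section one

variable {ι : Type} [Fintype ι] [DecidableEq ι] {p : H401.Num} {K : ℕ} {ez s r : ℝ} {o : ℤ}
  {F2 : ℕ → Pt → ℝ} {x : Pt} {U : Tri} {u v : ℤ → ℤ → ι → ℝ} {x0 : ℤ}

/-- the drift -/
abbrev eX (p : H401.Num) (s r : ℝ) (o : ℤ) (K : ℕ) (x : Pt) (u : ℤ → ℤ → ι → ℝ) (x0 : ℤ) :
    ℕ → ℤ → ℤ → Matrix ι ι ℝ := fun k x1 m =>
  eb (p.lam s r) K (cx K x).2.1 (KT (p.lam s r) u x1) (o - 2) x0 x1 (k + 1) m

/-- the move -/
abbrev dX (p : H401.Num) (s r : ℝ) (o : ℤ) (K : ℕ) (x : Pt) (u : ℤ → ℤ → ι → ℝ) (x0 : ℤ) :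
    ℕ → ℤ → ℤ → Matrix ι ι ℝ := fun k x1 m =>
  ah (p.lam s r) K (cx K x).2.1 (KT (p.lam s r) u x1) (o - 2) x0 x1 k m

theorem kinds_nonneg (ht : 0 < p.t) (hs : 0 < s) (hr : 1 ≤ r) (a : ℕ) (x1 z : ℤ) (w : ι → ℝ) :
    0 ≤ H548.kinds p s r o K x u x0 a x1 z w := by
  have h1 := H548.zm_nonneg ht hs hr o K x u x0 a x1 z w
  have h2 := H548.ze_nonneg ht hs hr o K x u x0 a x1 z w
  have h3 := H548.zd_nonneg ht hs hr o K x u x0 a x1 z w
  have h4 := H548.zq_nonneg ht hs hr o K x u x0 a x1 z w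
  unfold H548.kinds
  linarith

theorem beI_pos (ht : 0 < p.t) (hr : 1 ≤ r) : 0 < beI p r :=
  Real.rpow_pos_of_pos (div_pos ht (by linarith)) _

theorem Dn_le (ht : 0 < p.t) (hs : 0 < s) (hr : 1 ≤ r) (f : ℤ → ℤ → ι → ℝ) (a : ℕ) :
    (beI p r)⁻¹ * Dn K (cx K x).2.2 (cx K x).1 (dX p s r o K x u x0) f a ≤
      ∑ x1 ∈ iv K (cx K x).1, ∑ z ∈ iv K (cx K x).2.2,
        (H548.chg p s r o K x u x0 a x1 z (f x1 z) +
          H548.kinds p s r o K x u x0 a x1 z (f x1 z)) := by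
  unfold Dn
  rw [mul_sum]
  refine sum_le_sum fun x1 _ => ?_
  rw [mul_sum]
  refine sum_le_sum fun z _ => ?_
  have hb : 0 < (beI p r)⁻¹ := inv_pos.2 (beI_pos ht hr)
  have h1 := H548.raw_le ht hs hr o K x u x0 a x1 z (f x1 z)
  have h2 := kinds_nonneg (o := o) (K := K) (x := x) (u := u) (x0 := x0) ht hs hr a x1 z (f x1 z)
  have h3 := mul_nonneg hb.le (H548.ze_nonneg ht hs hr o K x u x0 a x1 z (f x1 z))
  have h4 : 0 ≤ (beI p r)⁻¹ * (f x1 z ⬝ᵥ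
        eb (p.lam s r) K (cx K x).2.1 (KT (p.lam s r) u x1) (o - 2) x0 x1 (a + 1)
          (ix (a + 1) z) *ᵥ f x1 z) := h3
  refine le_trans ?_ ((add_le_add h1 h2))
  refine le_trans ?_ (le_add_of_nonneg_right le_rfl)
  exact le_add_of_nonneg_right h4

theorem En_le (ht : 0 < p.t) (hs : 0 < s) (hr : 1 ≤ r) (f : ℤ → ℤ → ι → ℝ) (a : ℕ) :
    (beI p r)⁻¹ * En K (cx K x).2.2 (cx K x).1 (eX p s r o K x u x0) f a ≤
      ∑ x1 ∈ iv K (cx K x).1, ∑ z ∈ iv K (cx K x).2.2,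
        (H548.chg p s r o K x u x0 a x1 z (f x1 z) +
          H548.kinds p s r o K x u x0 a x1 z (f x1 z)) := by
  unfold En
  rw [mul_sum]
  refine sum_le_sum fun x1 _ => ?_
  rw [mul_sum]
  refine sum_le_sum fun z _ => ?_
  have hb : 0 < (beI p r)⁻¹ := inv_pos.2 (beI_pos ht hr)
  have h1 := H548.raw_le ht hs hr o K x u x0 a x1 z (f x1 z)
  have h2 := kinds_nonneg (o := o) (K := K) (x := x) (u := u) (x0 := x0) ht hs hr a x1 z (f x1 z)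
  have h4 := mul_nonneg hb.le (H447.dot_self_nonneg
    (ah (p.lam s r) K (cx K x).2.1 (KT (p.lam s r) u x1) (o - 2) x0 x1 a (ix (a + 1) z) *ᵥ
      f x1 z))
  refine le_trans ?_ (h1.trans (le_add_of_nonneg_right h2))
  exact le_add_of_nonneg_left h4

/-- the numbers `vN` -/
theorem nmD_vN (ht : 0 < p.t) (hs : 0 < s) (hr : 1 ≤ r) (q n : ℕ)
    (F1 F3 : ℕ → Pt → ℝ) (g : ℤ → ℤ → ℝ) (Q1 Q2 Q3 : ℕ → Pt → Prop) :
    (beI p r)⁻¹ * nmD K (cx K x).2.2 (cx K x).1 (dX p s r o K x u x0) (cS p ez U K v F2 x0) q ≤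
      H548.vN 0 q ι p n ez F1 F2 F3 o K x s r U g u v Q1 Q2 Q3 x0 := by
  unfold nmD H548.vN
  rw [mul_sum, range_eq_Ico]
  exact sum_le_sum fun k _ => Dn_le ht hs hr _ _

theorem nmE_vN (ht : 0 < p.t) (hs : 0 < s) (hr : 1 ≤ r) (q n : ℕ)
    (F1 F3 : ℕ → Pt → ℝ) (g : ℤ → ℤ → ℝ) (Q1 Q2 Q3 : ℕ → Pt → Prop) :
    (beI p r)⁻¹ * nmE K (cx K x).2.2 (cx K x).1 (eX p s r o K x u x0) (cS p ez U K v F2 x0) q ≤
      H548.vN 0 q ι p n ez F1 F2 F3 o K x s r U g u v Q1 Q2 Q3 x0 := by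
  unfold nmE H548.vN
  rw [mul_sum, range_eq_Ico]
  exact sum_le_sum fun k _ => En_le ht hs hr _ _

theorem nmD_vN1 (ht : 0 < p.t) (hs : 0 < s) (hr : 1 ≤ r) (q n : ℕ)
    (F1 F3 : ℕ → Pt → ℝ) (g : ℤ → ℤ → ℝ) (Q1 Q2 Q3 : ℕ → Pt → Prop) :
    (beI p r)⁻¹ * nmD K (cx K x).2.2 (cx K x).1 (dX p s r o K x u x0)
        (c1 K (cS p ez U K v F2 x0)) q ≤
      H548.vN 1 q ι p n ez F1 F2 F3 o K x s r U g u v Q1 Q2 Q3 x0 := by
  rw [nmD_c1]
  unfold H548.vN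
  rw [mul_sum, range_eq_Ico]
  exact sum_le_sum fun k _ => Dn_le ht hs hr _ _

theorem nmE_vN1 (ht : 0 < p.t) (hs : 0 < s) (hr : 1 ≤ r) (q n : ℕ)
    (F1 F3 : ℕ → Pt → ℝ) (g : ℤ → ℤ → ℝ) (Q1 Q2 Q3 : ℕ → Pt → Prop) :
    (beI p r)⁻¹ * nmE K (cx K x).2.2 (cx K x).1 (eX p s r o K x u x0)
        (c1 K (cS p ez U K v F2 x0)) q ≤
      H548.vN 1 q ι p n ez F1 F2 F3 o K x s r U g u v Q1 Q2 Q3 x0 := by
  rw [nmE_c1]
  unfold H548.vN
  rw [mul_sum, range_eq_Ico]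
  exact sum_le_sum fun k _ => En_le ht hs hr _ _

theorem nmH_zero (be : ℝ) (T : ℕ → ℤ → ℤ → Matrix ι ι ℝ) (R S : ℤ) (q : ℕ) :
    nmH K R S be T (cS p ez U K v F2 x0) q = 0 := by
  unfold nmH Wn
  refine sum_eq_zero fun x1 _ => sum_eq_zero fun z _ => ?_
  rw [H548.cS_zero, zero_dotProduct]

theorem nmH_oN (n : ℕ) (F1 F3 : ℕ → Pt → ℝ) (g : ℤ → ℤ → ℝ) (Q1 Q2 Q3 : ℕ → Pt → Prop) :
    nmH K (cx K x).2.2 (cx K x).1 (beI p r) (thX p s r o K x u x0)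
        (c1 K (cS p ez U K v F2 x0)) 0 ≤
      H548.oN 0 ι p n ez F1 F2 F3 o K x s r U g u v Q1 Q2 Q3 x0 := by
  unfold nmH Wn H548.oN
  refine sum_le_sum fun x1 _ => sum_le_sum fun z _ => ?_
  have e1 : c1 K (cS p ez U K v F2 x0) 0 x1 z = cS p ez U K v F2 x0 1 x1 z := by
    show C1 p ez U K v F2 x0 (min (min (0 + 1) K) K) z x1 =
      C1 p ez U K v F2 x0 (min 1 K) z x1
    rw [Nat.zero_add, min_eq_left (min_le_right 1 K)]
  rw [e1, Nat.zero_min]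
  exact le_rfl

theorem vN_nonneg (ht : 0 < p.t) (hs : 0 < s) (hr : 1 ≤ r) (j q n : ℕ)
    (F1 F3 : ℕ → Pt → ℝ) (g : ℤ → ℤ → ℝ) (Q1 Q2 Q3 : ℕ → Pt → Prop) :
    0 ≤ H548.vN j q ι p n ez F1 F2 F3 o K x s r U g u v Q1 Q2 Q3 x0 :=
  sum_nonneg fun k _ => sum_nonneg fun x1 _ => sum_nonneg fun z _ =>
    add_nonneg (H548.chg_nonneg ht hs hr o K x u x0 _ x1 z _) (kinds_nonneg ht hs hr _ _ _ _)

theorem bN_nonneg (ht : 0 < p.t) (hs : 0 < s) (hr : 1 ≤ r) (q n : ℕ)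
    (F1 F3 : ℕ → Pt → ℝ) (g : ℤ → ℤ → ℝ) (Q1 Q2 Q3 : ℕ → Pt → Prop) :
    0 ≤ H302.bN q ι p n ez F1 F2 F3 o K x s r U g u v Q1 Q2 Q3 x0 := by
  refine sum_nonneg fun k _ => sum_nonneg fun x1 _ => sum_nonneg fun z _ => ?_
  split_ifs
  · exact H302.eT_nn ht hs hr _ _ _ _
  · exact le_rfl

theorem oN_nonneg (ht : 0 < p.t) (hs : 0 < s) (hr : 1 ≤ r) (q n : ℕ)
    (F1 F3 : ℕ → Pt → ℝ) (g : ℤ → ℤ → ℝ) (Q1 Q2 Q3 : ℕ → Pt → Prop) :
    0 ≤ H548.oN q ι p n ez F1 F2 F3 o K x s r U g u v Q1 Q2 Q3 x0 :=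
  sum_nonneg fun x1 _ => sum_nonneg fun z _ => H302.eT_nn ht hs hr _ _ _ _

theorem cN_nonneg (ht : 0 < p.t) (hs : 0 < s) (hr : 1 ≤ r) (Pb : H989.CrB.MarkF) (n : ℕ)
    (F1 F3 : ℕ → Pt → ℝ) (g : ℤ → ℤ → ℝ) (Q1 Q2 Q3 : ℕ → Pt → Prop) :
    0 ≤ H989.CrB.fCRB Pb ι p n ez F1 F2 F3 o K x s r U g u v Q1 Q2 Q3 x0 := by
  refine sum_nonneg fun k _ => sum_nonneg fun x1 _ => sum_nonneg fun z _ => ?_
  split_ifs
  · exact H302.eT_nn (p := p) (s := s) (r := r) (o := o) (K := K) (x := x) (u := u) (x0 := x0)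
      ht hs hr (cS p ez U K v F2 x0 (k + 1)) k x1 z
  · exact le_rfl

end one

/-- **The inequality at one `x0`, class data.** -/
theorem fixBC : FixBC (18 * 120000) 2 nE nB := by
  intro ι _ _ p n ez F1 F2 F3 o K x s r U g u v Q1 Q2 Q3 ha ha1 he0 he04 hk8 hk3 hc hd hd1 hKt he
    hcP hL ht ht1 h1 h3 h2 ho hKn hs hr hcls q1 q2 q3 hez fU fP t' ht' x0 hx0 z J hz1 hz2 hJ
  have hr0 : 0 < r := by linarith
  have hy : 0 < p.t / r := div_pos ht hr0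
  have hy1 : p.t / r ≤ 1 := (div_le_self ht.le hr).trans ht1
  have hbe : 0 < beI p r := beI_pos ht hr
  have hbe1 : beI p r ≤ 1 := Real.rpow_le_one hy.le hy1 (by linarith)
  have hl : 0 < p.lam s r := H401.Num.lam_pos (p := p) ht hs hr
  have hth : 0 < p.th s r := H401.Num.th_pos (p := p) ht hs hr
  have htau : 0 < tauI p s r := mul_pos two_pos hth
  have hg : 0 < gI p s r := mul_pos (Real.rpow_pos_of_pos hy _) htau
  have hz0 : 0 < z := hg.trans_le hz1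
  have hT : ∀ x1, H420.Tr (p.lam s r) K (GT u x1) (KT (p.lam s r) u x1) := fun x1 => tr_T hl K u x1
  have hW : H419.Wt (thX p s r o K x u x0) (eX p s r o K x u x0) (dX p s r o K x u x0) :=
    H652.wt_Th hT (cx K x).2.1 (o - 2) x0
  refine (H329.WinBC.pBC_le (Al := p.al U K) (o := o) (M := cx K x) hbe hT
    (cb p s r U K u F3 Q3) (C1 p ez U K v F2) htau hz0 x0).trans ?_
  have e1 : ∑ k ∈ Ico 0 K, GW K (cx K x).2.1 (cx K x).1 (cx K x).2.2 (k + 1) (cP o x0 (k + 1))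
        (gnV (ι := fun k => Ix k × ι) (fun k a n m => CP (cb p s r U K u F3 Q3 x0 k) k a n m)
          (fun k a n m => PG (beI p r) (z ^ 2) (fun a x1 j => Th (p.lam s r) K (cx K x).2.1
            (KT (p.lam s r) u x1) (o - 2) x0 x1 a j)
            (fun x w => C1 p ez U K v F2 x0 k w x) k a n m) (fun k => H874.sk (k + 1) ι) k) =
      ∑ k ∈ Ico 0 K, GW K (cx K x).2.1 (cx K x).1 (cx K x).2.2 (k + 1) (cP o x0 (k + 1))
        (gnV (ι := fun k => Ix k × ι) (fun k a n m => CP (H652.bS p s r U K u F3 Q3 x0 k) k a n m)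
          (fun k a n m => PG (beI p r) (z ^ 2) (thX p s r o K x u x0)
            (cS p ez U K v F2 x0 k) k a n m) (fun k => H874.sk (k + 1) ι) k) := by
    refine sum_congr rfl fun k hk => ?_
    have hkK : k + 1 ≤ K := (mem_Ico.1 hk).2
    have e2 : (fun x w => C1 p ez U K v F2 x0 (k + 1) w x) = cS p ez U K v F2 x0 (k + 1) := by
      funext x1 w
      show _ = C1 p ez U K v F2 x0 (min (k + 1) K) w x1
      rw [min_eq_left hkK]
    congr 1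
    funext n1 n2 m
    unfold gnV
    beta_reduce
    rw [e2, H652.bS_le hkK]
    rfl
  rw [e1, ← H74.CutBC.GW_win_cut (N := K) (S := (cx K x).1) (R := (cx K x).2.2)
    (c := cS p ez U K v F2 x0) (be := beI p r) (s := z ^ 2) (T := thX p s r o K x u x0)
    (cx K x).2.1 (cP o x0) (fun k a n m => CP (H652.bS p s r U K u F3 Q3 x0 k) k a n m)
    (fun k => H874.sk (k + 1) ι)]
  -- the numbers
  have a1 : 0 ≤ dB p s r U K x u F3 Q3 x0 := H652.dB_nonneg x x0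
  have a2 : 0 ≤ payS (beI p r) (p.lam s r) o K (cx K x) u
      (fun k => H652.bS p s r U K u F3 Q3 x0 k) x0 := H652.payS_nonneg hbe hl _
  obtain ⟨V0, hV0⟩ : ∃ V : ℕ → ℝ, V = fun q => H548.vN 0 q ι p n ez F1 F2 F3 o K x s r U g u v Q1
    Q2 Q3 x0 := ⟨_, rfl⟩
  obtain ⟨B0, hB0⟩ : ∃ V : ℕ → ℝ, V = fun q => H302.bN (q + 1) ι p n ez F1 F2 F3 o K x s r U g u v
    Q1 Q2 Q3 x0 := ⟨_, rfl⟩
  have b1 : 0 ≤ wS K V0 := H912.wS_nonneg fun q => by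
    rw [hV0]
    exact vN_nonneg ht hs hr 0 q n F1 F3 g Q1 Q2 Q3
  have b2 : 0 ≤ H548.vN 1 0 ι p n ez F1 F2 F3 o K x s r U g u v Q1 Q2 Q3 x0 :=
    vN_nonneg ht hs hr 1 0 n F1 F3 g Q1 Q2 Q3
  have b3 : 0 ≤ wS K B0 := H912.wS_nonneg fun q => by
    rw [hB0]
    exact bN_nonneg ht hs hr (q + 1) n F1 F3 g Q1 Q2 Q3
  have b4 : 0 ≤ H302.bN 0 ι p n ez F1 F2 F3 o K x s r U g u v Q1 Q2 Q3 x0 :=
    bN_nonneg ht hs hr 0 n F1 F3 g Q1 Q2 Q3
  have b5 : 0 ≤ H548.oN 0 ι p n ez F1 F2 F3 o K x s r U g u v Q1 Q2 Q3 x0 :=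
    oN_nonneg ht hs hr 0 n F1 F3 g Q1 Q2 Q3
  have b6 : 0 ≤ H989.CrB.fCRB H989.CrB.mB ι p n ez F1 F2 F3 o K x s r U g u v Q1 Q2 Q3 x0 :=
    cN_nonneg ht hs hr H989.CrB.mB n F1 F3 g Q1 Q2 Q3
  obtain ⟨E, hE⟩ : ∃ E : ℝ, E = nE ι p n ez F1 F2 F3 o K x s r U g u v Q1 Q2 Q3 x0 := ⟨_, rfl⟩
  obtain ⟨EB, hEB⟩ : ∃ E : ℝ, E = nB ι p n ez F1 F2 F3 o K x s r U g u v Q1 Q2 Q3 x0 := ⟨_, rfl⟩
  have hE' : E = ((wS K V0 + H548.vN 1 0 ι p n ez F1 F2 F3 o K x s r U g u v Q1 Q2 Q3 x0) +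
      (wS K B0 + H302.bN 0 ι p n ez F1 F2 F3 o K x s r U g u v Q1 Q2 Q3 x0)) +
      (H548.oN 0 ι p n ez F1 F2 F3 o K x s r U g u v Q1 Q2 Q3 x0 +
        H989.CrB.fCRB H989.CrB.mB ι p n ez F1 F2 F3 o K x s r U g u v Q1 Q2 Q3 x0) := by
    rw [hE, hV0, hB0]
    rfl
  have hEB' : EB = dB p s r U K x u F3 Q3 x0 + payS (beI p r) (p.lam s r) o K (cx K x) u
      (fun k => H652.bS p s r U K u F3 Q3 x0 k) x0 := hEB
  have hE0 : 0 ≤ E := by rw [hE']; linarith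
  have hEB0 : 0 ≤ EB := by rw [hEB']; linarith
  rw [← hE, ← hEB]
  have hPc := H74.CutBC.cut_row (N := K) (S := (cx K x).1) (R := (cx K x).2.2)
    (c := cS p ez U K v F2 x0) (Pc := H302.Pr (cS p ez U K v F2 x0)) H302.pr_not
  have hcC : (0 : ℝ) ≤ cCI p s r ^ 2 := sq_nonneg _
  have hJ' : 2 * cCI p s r ^ 2 ≤ z ^ 2 * 4 ^ J := by
    have : (2 * cCI p s r) ^ 2 = 4 * cCI p s r ^ 2 := by ring
    rw [this] at hJ
    linarith
  have fin := H736.fix_BC2 (κ := ι) (be := beI p r) (T := thX p s r o K x u x0)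
    (e := eX p s r o K x u x0) (d := dX p s r o K x u x0) hbe hbe1 (s := z ^ 2)
    (q := p.th s r ^ 2) (τ := 2) (by positivity) (sq_nonneg _) zero_le_two le_rfl hW
    (fun k x1 m => H652.Th_le_two (hT x1) (o - 2) x0 x1 k m) (N := K)
    (b := H652.bS p s r U K u F3 Q3 x0)
    (c := Win.cut K (cx K x).1 (cx K x).2.2 (cS p ez U K v F2 x0))
    (Pb := H652.PbS p s r U K u F3 Q3 x0) (Pc := H302.Pr (cS p ez U K v F2 x0))
    (H652.PbS_off x0) hPc (H652.bS_capk hth x0) (H652.bS_capk1 hth x0) (H652.bS_capN hth x0)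
    (C := cCI p s r ^ 2)
    (fun k a n' m hka haK => H74.CapBC.cut_capX ht ht1 hd1 he0.le hs hr hez hKn hcls.toCls q2 x0
      (by omega) (by omega) (by omega) n' m)
    (fun k a n' m hka haK => H74.CapBC.cut_capX ht ht1 hd1 he0.le hs hr hez hKn hcls.toCls q2 x0
      (by omega) (by omega) (by omega) n' m)
    (J := J) hJ' (R₁ := (cx K x).2.1) (S₁ := (cx K x).1) (T₁ := (cx K x).2.2) (cc := cP o x0)
    (cP_pl ho x0) (E := E) (EB := EB) hE0 hEB0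
    ((H652.bS_hB1 x x0).trans (by rw [hEB']; linarith))
    ((H652.bS_hB2 x x0).trans (by rw [hEB']; linarith))
    ((H652.pay_hB3 hbe hl _).trans (by rw [hEB']; linarith))
    ((H652.pay_hB4 hbe _).trans (by rw [hEB']; linarith))
    ?_ ?_ ?_ ?_ ?_ ?_ ?_ ?_ ?_
  · refine fin.trans ?_
    have hq : p.th s r ^ 2 ≤ tauI p s r ^ 2 := by
      have : tauI p s r ^ 2 = 4 * p.th s r ^ 2 := by
        unfold H408.tauI
        ring
      rw [this]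
      have := sq_nonneg (p.th s r)
      linarith
    have g1 : z ^ 2 * E * (p.th s r ^ 2 * EB) ≤ z ^ 2 * E * (tauI p s r ^ 2 * EB) :=
      mul_le_mul_of_nonneg_left (mul_le_mul_of_nonneg_right hq hEB0) (by positivity)
    have g2 : p.th s r ^ 2 * E ≤ tauI p s r ^ 2 * E := mul_le_mul_of_nonneg_right hq hE0
    have g3 := add_le_add (Real.sqrt_le_sqrt g1) g2
    rw [← mul_assoc]
    exact mul_le_mul_of_nonneg_left g3 (by positivity)
  · rw [H74.CutBC.c1_cut, H74.CutBC.nmH_cut]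
    refine (nmH_oN n F1 F3 g Q1 Q2 Q3).trans ?_
    rw [hE']
    linarith
  · rw [H74.CutBC.c1_cut, H74.CutBC.nmD_cut]
    refine (nmD_vN1 ht hs hr 0 n F1 F3 g Q1 Q2 Q3).trans ?_
    rw [hE']
    linarith
  · rw [H74.CutBC.c1_cut, H74.CutBC.nmE_cut]
    refine (nmE_vN1 ht hs hr 0 n F1 F3 g Q1 Q2 Q3).trans ?_
    rw [hE']
    linarith
  · refine le_trans (le_of_eq ?_) (show H989.CrB.fCRB H989.CrB.mB ι p n ez F1 F2 F3 o K x s r U g u
      v Q1 Q2 Q3 x0 ≤ E by rw [hE']; linarith)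
    refine sum_congr rfl fun k hk => sum_congr rfl fun x1 hx1 => sum_congr rfl fun z1 hz1' => ?_
    rw [H74.CutBC.wE_cut (mem_Ico.1 hk).2 hx1 hz1']
    rfl
  · refine le_trans (le_of_eq ?_) ((H302.Wn_bN (o := o) (x := x) (u := u) ht hs hr
      (P := H302.Pr (cS p ez U K v F2 x0)) H302.pr_ch n F1 F3 g Q1 Q2 Q3).trans
      (show _ ≤ E by rw [hE']; linarith))
    exact sum_congr rfl fun k hk => H74.CutBC.Wn_rs_cut (mem_Ico.1 hk).2 _ _ _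
  · rw [H74.CutBC.nmH_cut]
    refine le_trans (le_of_eq ?_) hE0
    unfold H912.wS
    refine sum_eq_zero fun q _ => ?_
    rw [nmH_zero, mul_zero]
  · rw [H74.CutBC.nmD_cut]
    refine (H912.wS_mono (Y := V0) fun q => ?_).trans (by rw [hE']; linarith)
    rw [hV0]
    exact nmD_vN ht hs hr q n F1 F3 g Q1 Q2 Q3
  · rw [H74.CutBC.nmE_cut]
    refine (H912.wS_mono (Y := V0) fun q => ?_).trans (by rw [hE']; linarith)
    rw [hV0]
    exact nmE_vN ht hs hr q n F1 F3 g Q1 Q2 Q3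
  · rw [H74.CutBC.nmB_cut]
    refine (H912.wS_mono (Y := B0) fun q => ?_).trans (by rw [hE']; linarith)
    rw [hB0]
    exact H302.nmB_bN ht hs hr H302.pr_ch q n F1 F3 g Q1 Q2 Q3

/-- a number of the second slot is not negative -/
theorem nn_nE : NN nE := by
  intro ι _ _ p n ez F1 F2 F3 o K x s r U g u v Q1 Q2 Q3 x0 ht hs hr hez
  exact add_nonneg (add_nonneg (add_nonneg
    (sum_nonneg fun l _ => mul_nonneg (by positivity) (vN_nonneg ht hs hr 0 l n F1 F3 g Q1 Q2 Q3))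
    (vN_nonneg ht hs hr 1 0 n F1 F3 g Q1 Q2 Q3))
    (add_nonneg (sum_nonneg fun l _ => mul_nonneg (by positivity)
      (bN_nonneg ht hs hr (l + 1) n F1 F3 g Q1 Q2 Q3)) (bN_nonneg ht hs hr 0 n F1 F3 g Q1 Q2 Q3)))
    (add_nonneg (oN_nonneg ht hs hr 0 n F1 F3 g Q1 Q2 Q3)
      (cN_nonneg ht hs hr H989.CrB.mB n F1 F3 g Q1 Q2 Q3))

/-- a number of the first slot is not negative -/
theorem nn_nB : NN nB := by
  intro ι _ _ p n ez F1 F2 F3 o K x s r U g u v Q1 Q2 Q3 x0 ht hs hr hez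
  exact add_nonneg (H652.dB_nonneg x x0) (H652.payS_nonneg (beI_pos ht hr)
    (H401.Num.lam_pos (p := p) ht hs hr) _)

/-- **The numbers of the pair.** -/
theorem numBC : NumBC (18 * 120000) 2 := numBC_of sumU_nE sumU_nB nn_nE nn_nB fixBC

/-- **The leaf `LBCg`.** -/
theorem lBCg : LBCg := lbc_end (by norm_num) (by norm_num) numBC

end

end Vale.Agent.P141.H784.Lbc
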