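import Vale.Agent.P141.H784.Klein
import Vale.Agent.P141.H922.TieSum

/-!
# P141, line (A): the mass of a weight of one cell against the Gram matrix of another cell

Letters of `H420.Tr`; `gd K k P = tr dK²` of the cell `(k, P)`.

* `step` : `|tr (Y Kp²) - tr (Y K²)| ≤ 2 √(c tr dK²) √(tr (Y K²))` for `0 ≤ Y ≤ c`;
* `al_child`, `chain_up`, `adj`, `walk` : the same along the tree and across neighbours;
* `dl_sum` : the neighbour differences are square summable, constant 128;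
* `nb_mass` : the mass of `Y i q` on a cell of scale `i + r` at distance `≤ J` of the ancestor;
* `nb_mass'` : the same with the entropy bound `1 + log (1 + P / l)`.
-/

namespace Vale.Agent.P141.H784

open Matrix Finset
open Vale.Agent.P141.PL (iv mem_iv card_iv ix ix_ix)
open Vale.Agent.P141.H420 (Tr Nd tr_symm trace_mul_nonneg quad_nonneg)
open Vale.Agent.P141.H483 (tmean hd nd')
open Vale.Agent.P141.H922 (iv_iv tsum_iv)

noncomputable section

variable {ι : Type*} [Fintype ι] [DecidableEq ι]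

/-- the mass of the weight `Y` against `K²` -/
def ms (Y K : Matrix ι ι ℝ) : ℝ := (Y * (K * K)).trace

theorem sq_psd {A : Matrix ι ι ℝ} (hA : A.IsHermitian) : (A * A).PosSemidef := by
  have h := posSemidef_self_mul_conjTranspose A
  rwa [hA.eq] at h

theorem ms_nonneg {Y K : Matrix ι ι ℝ} (hY : Y.PosSemidef) (hK : K.IsHermitian) : 0 ≤ ms Y K :=
  trace_mul_nonneg hY (sq_psd hK)

/-- Cauchy-Schwarz for the weight `Y` -/
theorem cs_weight {Y X Z : Matrix ι ι ℝ} (hY : Y.PosSemidef) (hX : X.IsHermitian)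
    (hZ : Z.IsHermitian) :
    (X * Y * Z).trace ^ 2 ≤ (X * Y * X).trace * (Z * Y * Z).trace := by
  have hsym : (Z * Y * X).trace = (X * Y * Z).trace := by
    rw [← trace_transpose, transpose_mul, transpose_mul, tr_symm hX, tr_symm hZ,
      tr_symm hY.isHermitian, Matrix.mul_assoc]
  have h1 : ∀ t : ℝ, 0 ≤ (X * Y * X).trace * (t * t) + (2 * (X * Y * Z).trace) * t +
      (Z * Y * Z).trace := by
    intro t
    have hS : (t • X + Z).IsHermitian := by
      show (t • X + Z)ᴴ = _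
      rw [conjTranspose_add, conjTranspose_smul, hX.eq, hZ.eq]
      simp
    have h2 := (hY.mul_mul_conjTranspose_same (t • X + Z)).trace_nonneg
    rw [hS.eq] at h2
    have h3 : (t • X + Z) * Y * (t • X + Z) = (t * t) • (X * Y * X) + t • (X * Y * Z) +
        (t • (Z * Y * X) + Z * Y * Z) := by
      simp only [Matrix.add_mul, Matrix.mul_add, Matrix.smul_mul, Matrix.mul_smul, smul_add,
        smul_smul]
      abel
    rw [h3, trace_add, trace_add, trace_add, trace_smul, trace_smul, trace_smul, hsym] at h2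
    simp only [smul_eq_mul] at h2
    linarith
  have h4 := discrim_le_zero h1
  rw [discrim] at h4
  nlinarith

/-- the mass of the other child: one step -/
theorem step {l c : ℝ} {G D K Kp Km : Matrix ι ι ℝ} (h : Nd l G D K Kp Km) {Y : Matrix ι ι ℝ}
    (hY : Y.PosSemidef) (hYc : (c • (1 : Matrix ι ι ℝ) - Y).PosSemidef) (hc : 0 ≤ c) :
    (ms Y Kp - ms Y K) ^ 2 ≤ 4 * (c * (Nd.dK Kp Km * Nd.dK Kp Km).trace) * ms Y K ∧
    (ms Y Km - ms Y K) ^ 2 ≤ 4 * (c * (Nd.dK Kp Km * Nd.dK Kp Km).trace) * ms Y K := by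
  set d := Nd.dK Kp Km with hd
  set B := Nd.Kb Kp Km with hB
  have hdH := h.herm_dK
  rw [← hd] at hdH
  have hBH := h.pdb.isHermitian
  rw [← hB] at hBH
  have ep : Kp = B + d := by
    rw [hB, hd, Nd.Kb, Nd.dK, ← smul_add, add_add_sub_cancel, ← two_smul ℝ Kp, smul_smul]
    norm_num
  have em : Km = B - d := by
    rw [hB, hd, Nd.Kb, Nd.dK, ← smul_sub, add_sub_sub_cancel, ← two_smul ℝ Km, smul_smul]
    norm_num
  have eK : K * K = B * B + d * d := h.sq_eq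
  have t1 : (Y * (B * d)).trace = (d * Y * B).trace := by
    rw [← Matrix.mul_assoc, trace_mul_comm, ← Matrix.mul_assoc]
  have t2 : (Y * (d * B)).trace = (d * Y * B).trace := by
    rw [← trace_transpose, transpose_mul, transpose_mul, tr_symm hdH, tr_symm hBH,
      tr_symm hY.isHermitian, Matrix.mul_assoc, trace_mul_comm]
  have e1 : ms Y Kp - ms Y K = 2 * (d * Y * B).trace := by
    have : Kp * Kp = K * K + (B * d + d * B) := by
      rw [eK, ep]
      simp only [Matrix.mul_add, Matrix.add_mul]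
      abel
    rw [ms, ms, this, Matrix.mul_add, trace_add, Matrix.mul_add, trace_add, t1, t2]
    ring
  have e2 : ms Y Km - ms Y K = -(2 * (d * Y * B).trace) := by
    have : Km * Km = K * K - (B * d + d * B) := by
      rw [eK, em]
      simp only [Matrix.mul_sub, Matrix.sub_mul]
      abel
    rw [ms, ms, this, Matrix.mul_sub, trace_sub, Matrix.mul_add, trace_add, t1, t2]
    ring
  have h1 := cs_weight hY hdH hBH
  have h2 : (d * Y * d).trace ≤ c * (d * d).trace := by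
    have h3 := trace_mul_nonneg hYc (sq_psd hdH)
    rw [Matrix.sub_mul, Matrix.smul_mul, Matrix.one_mul, trace_sub, trace_smul, smul_eq_mul] at h3
    have h4 : (d * Y * d).trace = (Y * (d * d)).trace := by
      rw [Matrix.mul_assoc, trace_mul_comm, Matrix.mul_assoc]
    linarith
  have h3 : (B * Y * B).trace ≤ ms Y K := by
    have h4 : (B * Y * B).trace = (Y * (B * B)).trace := by
      rw [Matrix.mul_assoc, trace_mul_comm, Matrix.mul_assoc]
    have h5 := trace_mul_nonneg hY (sq_psd hdH)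
    rw [h4, ms, eK, Matrix.mul_add, trace_add]
    linarith
  have h0 : 0 ≤ (B * Y * B).trace := by
    have := (hY.mul_mul_conjTranspose_same B).trace_nonneg
    rwa [hBH.eq] at this
  have h6 : 0 ≤ c * (d * d).trace := mul_nonneg hc (sq_psd hdH).trace_nonneg
  have h7 : (d * Y * B).trace ^ 2 ≤ (c * (d * d).trace) * ms Y K :=
    h1.trans (mul_le_mul h2 h3 h0 h6)
  constructor
  · rw [e1]; nlinarith
  · rw [e2]; nlinarith

theorem root_diff {x y g : ℝ} (hx : 0 ≤ x) (hy : 0 ≤ y) (hg : 0 ≤ g)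
    (h : (y - x) ^ 2 ≤ 4 * g * x) : |√y - √x| ≤ 2 * √g := by
  have h1 : |y - x| ≤ 2 * √g * √x := by
    rw [← Real.sqrt_sq_eq_abs]
    have h2 : 2 * √g * √x = √(4 * g * x) := by
      rw [Real.sqrt_mul (by positivity), Real.sqrt_mul (by norm_num)]
      have : √(4 : ℝ) = 2 := by
        rw [show (4 : ℝ) = 2 ^ 2 by norm_num]; exact Real.sqrt_sq (by norm_num)
      rw [this]
    rw [h2]
    exact Real.sqrt_le_sqrt h
  have h3 : y - x = (√y - √x) * (√y + √x) := by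
    have e1 := Real.mul_self_sqrt hx
    have e2 := Real.mul_self_sqrt hy
    nlinarith
  have hsx := Real.sqrt_nonneg x
  have hsy := Real.sqrt_nonneg y
  have hsg := Real.sqrt_nonneg g
  rw [h3, abs_mul, abs_of_nonneg (add_nonneg hsy hsx)] at h1
  by_contra hcon
  push Not at hcon
  have h4 : 0 ≤ |√y - √x| := abs_nonneg _
  rcases hsx.eq_or_lt with h5 | h5
  · rw [← h5] at h1 hcon h4
    have h6 : |√y - 0| * (√y + 0) ≤ 0 := by linarith [h1]
    rw [sub_zero, abs_of_nonneg hsy, add_zero] at h6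
    rw [sub_zero, abs_of_nonneg hsy] at hcon
    nlinarith
  · nlinarith [mul_lt_mul_of_pos_right hcon h5, mul_nonneg h4 hsy]

section tree

variable {l c : ℝ} {N : ℕ} {G K : ℕ → ℤ → Matrix ι ι ℝ} (h : Tr l N G K) (hc : 0 ≤ c)
  {Y : Matrix ι ι ℝ} (hY : Y.PosSemidef) (hYc : (c • (1 : Matrix ι ι ℝ) - Y).PosSemidef)

include h hc hY hYc

/-- from a cell to its parent -/
theorem al_child {j : ℕ} (hj : j < N) (m : ℤ) :
    |√(ms Y (K j m)) - √(ms Y (K (j + 1) (m / 2)))| ≤ 2 * √(c * gd K (j + 1) (m / 2)) := by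
  have h1 := step (h.nd hj (m / 2)) hY hYc hc
  have hg : 0 ≤ c * gd K (j + 1) (m / 2) := mul_nonneg hc (gd_nonneg h _ _)
  refine root_diff (ms_nonneg hY (h.pdK _ _).isHermitian) (ms_nonneg hY (h.pdK _ _).isHermitian)
    hg ?_
  have e : gd K (j + 1) (m / 2) = (Nd.dK (K j (2 * (m / 2))) (K j (2 * (m / 2) + 1)) *
      Nd.dK (K j (2 * (m / 2))) (K j (2 * (m / 2) + 1))).trace := rfl
  rw [e]
  rcases Int.emod_two_eq_zero_or_one m with h2 | h2
  · have h3 : m = 2 * (m / 2) := by omega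
    have h4 := h1.1
    rwa [← h3] at h4 ⊢
  · have h3 : m = 2 * (m / 2) + 1 := by omega
    have h4 := h1.2
    rwa [← h3] at h4 ⊢

/-- from a cell to its ancestor -/
theorem chain_up {i : ℕ} (q : ℤ) : ∀ r, i + r ≤ N →
    √(ms Y (K (i + r) (q / 2 ^ r))) ≤ √(ms Y (K i q)) +
      2 * ∑ s ∈ range r, √(c * gd K (i + s + 1) (q / 2 ^ (s + 1))) := by
  intro r
  induction r with
  | zero => intro _; simp
  | succ r ih =>
    intro hr
    have h1 := ih (by omega)
    have h2 := al_child h hc hY hYc (j := i + r) (by omega) (q / 2 ^ r)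
    have e : q / 2 ^ r / 2 = q / 2 ^ (r + 1) := by
      rw [Int.ediv_ediv_of_nonneg (by positivity), pow_succ]
    rw [e] at h2
    rw [sum_range_succ]
    have h3 := (abs_le.1 h2).1
    have e2 : i + (r + 1) = i + r + 1 := by ring
    rw [e2]
    linarith

end tree

/-- the neighbour differences across the left end of a cell at depth `n` below the root `m0` -/
def dl (s : ℕ → ℤ → ℝ) (N : ℕ) (m0 : ℤ) : ℕ → ℤ → ℝ
  | 0, _ => 0
  | (n + 1), m => if m = 2 ^ (n + 1) * m0 then 0 else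
      2 * s (N - n) ((m - 1) / 2) + 2 * s (N - n) (m / 2) +
        (if m % 2 = 0 then dl s N m0 n (m / 2) else 0)

theorem dl_nonneg {s : ℕ → ℤ → ℝ} (hs : ∀ k m, 0 ≤ s k m) (N : ℕ) (m0 : ℤ) :
    ∀ n m, 0 ≤ dl s N m0 n m := by
  intro n
  induction n with
  | zero => intro m; exact le_refl _
  | succ n ih =>
    intro m
    have h1 := hs (N - n) ((m - 1) / 2)
    have h2 := hs (N - n) (m / 2)
    have h3 := ih (m / 2)
    rw [dl]
    split_ifs <;> linarith

theorem mem_iv' {n : ℕ} {m0 x : ℤ} : x ∈ iv n m0 ↔ 2 ^ n * m0 ≤ x ∧ x < 2 ^ n * m0 + 2 ^ n := by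
  rw [iv, mem_Ico]

/-- neighbours at depth `n` -/
theorem adj {l c : ℝ} {N : ℕ} {G K : ℕ → ℤ → Matrix ι ι ℝ} (h : Tr l N G K) (hc : 0 ≤ c)
    {Y : Matrix ι ι ℝ} (hY : Y.PosSemidef) (hYc : (c • (1 : Matrix ι ι ℝ) - Y).PosSemidef)
    (m0 : ℤ) : ∀ n ≤ N, ∀ m ∈ iv n m0, m ≠ 2 ^ n * m0 →
    |√(ms Y (K (N - n) (m - 1))) - √(ms Y (K (N - n) m))| ≤
      dl (fun k p => √(c * gd K k p)) N m0 n m := by
  intro n
  induction n with
  | zero =>
    intro _ m hm hne
    rw [mem_iv'] at hm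
    simp only [pow_zero, one_mul] at hm hne
    omega
  | succ n ih =>
    intro hn m hm hne
    obtain ⟨j, hj⟩ : ∃ j, N = j + (n + 1) := ⟨N - (n + 1), by omega⟩
    have ej : N - (n + 1) = j := by omega
    have ej' : N - n = j + 1 := by omega
    rw [dl, if_neg hne, ej, ej']
    have h1 := al_child h hc hY hYc (j := j) (by omega) (m - 1)
    have h2 := al_child h hc hY hYc (j := j) (by omega) m
    rw [mem_iv', pow_succ] at hm
    rw [pow_succ] at hne
    rcases Int.emod_two_eq_zero_or_one m with h3 | h3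
    · have h4 : (m - 1) / 2 = m / 2 - 1 := by omega
      have h5 : m / 2 ∈ iv n m0 := by
        rw [mem_iv']
        constructor
        · have : 2 ^ n * m0 * 2 ≤ m := by linarith [hm.1]
          omega
        · have : m < (2 ^ n * m0 + 2 ^ n) * 2 := by linarith [hm.2]
          omega
      have h6 : m / 2 ≠ 2 ^ n * m0 := by
        intro hh
        apply hne
        have : m = 2 * (m / 2) := by omega
        rw [this, hh]; ring
      have h7 := ih (by omega) (m / 2) h5 h6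
      rw [ej'] at h7
      rw [if_pos h3]
      rw [h4] at h1 ⊢
      rw [abs_le] at h1 h2 h7 ⊢
      constructor <;> linarith [h1.1, h1.2, h2.1, h2.2, h7.1, h7.2]
    · have h4 : (m - 1) / 2 = m / 2 := by omega
      rw [if_neg (by omega)]
      rw [h4] at h1 ⊢
      rw [abs_le] at h1 h2 ⊢
      constructor <;> linarith [h1.1, h1.2, h2.1, h2.2]

/-- cells at bounded distance -/
theorem walk {l c : ℝ} {N : ℕ} {G K : ℕ → ℤ → Matrix ι ι ℝ} (h : Tr l N G K) (hc : 0 ≤ c)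
    {Y : Matrix ι ι ℝ} (hY : Y.PosSemidef) (hYc : (c • (1 : Matrix ι ι ℝ) - Y).PosSemidef)
    (m0 : ℤ) {n : ℕ} (hn : n ≤ N) (t : ℕ) : ∀ p ∈ iv n m0, p + t ∈ iv n m0 →
    |√(ms Y (K (N - n) (p + t))) - √(ms Y (K (N - n) p))| ≤
      ∑ x ∈ Ioc p (p + t), dl (fun k p => √(c * gd K k p)) N m0 n x := by
  induction t with
  | zero => intro p _ _; simp
  | succ t ih =>
    intro p hp hpt
    have hp' := mem_iv'.1 hp
    have hpt' := mem_iv'.1 hpt
    push_cast at hpt' hpt ⊢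
    have h1 : p + (t : ℤ) ∈ iv n m0 := by rw [mem_iv']; omega
    have h2 := ih p hp h1
    have h3 := adj h hc hY hYc m0 n hn (p + (t + 1)) hpt (by omega)
    have e1 : p + ((t : ℤ) + 1) - 1 = p + t := by ring
    rw [e1] at h3
    have e2 : Ioc p (p + ((t : ℤ) + 1)) = insert (p + ((t : ℤ) + 1)) (Ioc p (p + t)) := by
      ext x; simp only [mem_Ioc, mem_insert]; omega
    have e3 : p + ((t : ℤ) + 1) ∉ Ioc p (p + (t : ℤ)) := by
      simp only [mem_Ioc]; omega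
    rw [e2, sum_insert e3]
    rw [abs_le] at h2 h3 ⊢
    constructor <;> linarith [h2.1, h2.2, h3.1, h3.2]

/-- the near cells -/
def near (n : ℕ) (m0 : ℤ) (J : ℕ) (p : ℤ) : Finset ℤ :=
  (iv n m0).filter fun x => |x - p| ≤ J

theorem walk' {l c : ℝ} {N : ℕ} {G K : ℕ → ℤ → Matrix ι ι ℝ} (h : Tr l N G K) (hc : 0 ≤ c)
    {Y : Matrix ι ι ℝ} (hY : Y.PosSemidef) (hYc : (c • (1 : Matrix ι ι ℝ) - Y).PosSemidef)
    (m0 : ℤ) {n : ℕ} (hn : n ≤ N) (J : ℕ) {p p' : ℤ} (hp : p ∈ iv n m0) (hp' : p' ∈ iv n m0)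
    (hJ : |p' - p| ≤ J) :
    √(ms Y (K (N - n) p')) ≤ √(ms Y (K (N - n) p)) +
      ∑ x ∈ near n m0 J p, dl (fun k p => √(c * gd K k p)) N m0 n x := by
  have hs : ∀ k p, 0 ≤ (fun k p => √(c * gd K k p)) k p := fun k p => Real.sqrt_nonneg _
  have hpv := mem_iv'.1 hp
  have hpv' := mem_iv'.1 hp'
  rw [abs_le] at hJ
  rcases le_total p p' with h1 | h1
  · obtain ⟨t, ht⟩ := Int.eq_ofNat_of_zero_le (sub_nonneg.2 h1)
    have e : p' = p + t := by omega
    subst e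
    have h2 := walk h hc hY hYc m0 hn t p hp hp'
    have h3 : ∑ x ∈ Ioc p (p + t), dl (fun k p => √(c * gd K k p)) N m0 n x ≤
        ∑ x ∈ near n m0 J p, dl (fun k p => √(c * gd K k p)) N m0 n x := by
      refine sum_le_sum_of_subset_of_nonneg (fun x hx => ?_) fun x _ _ => dl_nonneg hs N m0 n x
      rw [mem_Ioc] at hx
      rw [near, mem_filter, mem_iv', abs_le]
      omega
    have := (abs_le.1 h2).2
    linarith
  · obtain ⟨t, ht⟩ := Int.eq_ofNat_of_zero_le (sub_nonneg.2 h1)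
    have e : p = p' + t := by omega
    subst e
    have h2 := walk h hc hY hYc m0 hn t p' hp' hp
    have h3 : ∑ x ∈ Ioc p' (p' + t), dl (fun k p => √(c * gd K k p)) N m0 n x ≤
        ∑ x ∈ near n m0 J (p' + t), dl (fun k p => √(c * gd K k p)) N m0 n x := by
      refine sum_le_sum_of_subset_of_nonneg (fun x hx => ?_) fun x _ _ => dl_nonneg hs N m0 n x
      rw [mem_Ioc] at hx
      rw [near, mem_filter, mem_iv', abs_le]
      omega
    have := (abs_le.1 h2).1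
    linarith

/-! ### Sums over the cells -/

theorem sum_anc {n s : ℕ} (hs : s ≤ n) (m0 : ℤ) (F : ℤ → ℝ) :
    ∑ q ∈ iv n m0, F (q / 2 ^ s) = 2 ^ s * ∑ P ∈ iv (n - s) m0, F P := by
  rw [← iv_iv hs m0, mul_sum]
  refine sum_congr rfl fun a _ => ?_
  have h1 : ∀ x ∈ iv s a, F (x / 2 ^ s) = F a := by
    intro x hx
    rw [mem_iv] at hx
    rw [← hx]
    rfl
  rw [sum_congr rfl h1, sum_const, card_iv]
  simp

theorem sum_two {n : ℕ} (m0 : ℤ) (F : ℤ → ℝ) :
    ∑ q ∈ iv (n + 1) m0, F q = ∑ P ∈ iv n m0, (F (2 * P) + F (2 * P + 1)) := by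
  rw [← iv_iv (show 1 ≤ n + 1 by omega) m0]
  have e : n + 1 - 1 = n := by omega
  rw [e]
  refine sum_congr rfl fun a _ => ?_
  have e2 : iv 1 a = {2 * a, 2 * a + 1} := by
    ext x
    rw [mem_iv']
    simp only [pow_one, mem_insert, mem_singleton]
    omega
  rw [e2, sum_pair (by omega)]

theorem sum_pred {n : ℕ} (m0 : ℤ) {F : ℤ → ℝ} (hF : ∀ x, 0 ≤ F x) :
    ∑ P ∈ iv n m0, (if P = 2 ^ n * m0 then 0 else F (P - 1)) ≤ ∑ P ∈ iv n m0, F P := by
  have h1 : ∑ P ∈ iv n m0, (if P = 2 ^ n * m0 then 0 else F (P - 1)) =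
      ∑ P ∈ (iv n m0).filter (fun P => P ≠ 2 ^ n * m0), F (P - 1) := by
    rw [sum_filter]
    refine sum_congr rfl fun P _ => ?_
    by_cases hP : P = 2 ^ n * m0 <;> simp [hP]
  rw [h1]
  have h2 : ∑ P ∈ (iv n m0).filter (fun P => P ≠ 2 ^ n * m0), F (P - 1) =
      ∑ Q ∈ ((iv n m0).filter (fun P => P ≠ 2 ^ n * m0)).image (fun P => P - 1), F Q := by
    rw [sum_image]
    intro a _ b _ hab
    simp only at hab
    omega
  rw [h2]
  refine sum_le_sum_of_subset_of_nonneg (fun x hx => ?_) fun x _ _ => hF x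
  rw [mem_image] at hx
  obtain ⟨P, hP, rfl⟩ := hx
  rw [mem_filter, mem_iv'] at hP
  rw [mem_iv']
  omega

/-- the recursion of the square sums -/
theorem dl_step {s : ℕ → ℤ → ℝ} (hs : ∀ k m, 0 ≤ s k m) (N : ℕ) (m0 : ℤ) (n : ℕ) :
    ∑ m ∈ iv (n + 1) m0, dl s N m0 (n + 1) m ^ 2 ≤
      (3 / 2) * ∑ m ∈ iv n m0, dl s N m0 n m ^ 2 + 64 * ∑ P ∈ iv n m0, s (N - n) P ^ 2 := by
  rw [sum_two]
  have h1 : ∀ P ∈ iv n m0, dl s N m0 (n + 1) (2 * P) ^ 2 + dl s N m0 (n + 1) (2 * P + 1) ^ 2 ≤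
      (3 / 2) * dl s N m0 n P ^ 2 + (24 * (if P = 2 ^ n * m0 then 0 else s (N - n) (P - 1) ^ 2) +
        40 * s (N - n) P ^ 2) := by
    intro P _
    have hd := dl_nonneg hs N m0 n P
    have ha := hs (N - n) (P - 1)
    have hb := hs (N - n) P
    have e1 : dl s N m0 (n + 1) (2 * P + 1) ^ 2 ≤ 16 * s (N - n) P ^ 2 := by
      have p1 : (2 * P + 1 - 1) / 2 = P := by omega
      have p2 : (2 * P + 1) / 2 = P := by omega
      rw [dl]
      split_ifs with q1 q2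
      · nlinarith
      · omega
      · rw [p1, p2]; nlinarith
    have e2 : dl s N m0 (n + 1) (2 * P) ^ 2 ≤ (3 / 2) * dl s N m0 n P ^ 2 +
        24 * (if P = 2 ^ n * m0 then 0 else s (N - n) (P - 1) ^ 2) + 24 * s (N - n) P ^ 2 := by
      have p1 : (2 * P - 1) / 2 = P - 1 := by omega
      have p2 : (2 * P) / 2 = P := by omega
      rw [dl]
      by_cases q1 : P = 2 ^ n * m0
      · have q2 : 2 * P = 2 ^ (n + 1) * m0 := by rw [q1, pow_succ]; ring
        rw [if_pos q2, if_pos q1]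
        nlinarith [sq_nonneg (dl s N m0 n P)]
      · have q2 : ¬ 2 * P = 2 ^ (n + 1) * m0 := by
          rw [pow_succ]
          intro hh
          apply q1
          have : 2 * P = 2 * (2 ^ n * m0) := by rw [hh]; ring
          omega
        rw [if_neg q2, if_neg q1, if_pos (by omega), p1, p2]
        set A := s (N - n) (P - 1)
        set B := s (N - n) P
        set D := dl s N m0 n P
        nlinarith [sq_nonneg (D - 4 * (A + B)), sq_nonneg (A - B)]
    linarith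
  refine (sum_le_sum h1).trans ?_
  rw [sum_add_distrib, sum_add_distrib, ← mul_sum, ← mul_sum, ← mul_sum]
  have h2 := sum_pred (n := n) m0 (F := fun P => s (N - n) P ^ 2) (fun x => sq_nonneg _)
  linarith

/-- **the neighbour differences are square summable** -/
theorem dl_sum {s : ℕ → ℤ → ℝ} (hs : ∀ k m, 0 ≤ s k m) (N : ℕ) (m0 : ℤ) (M : ℕ) :
    ∑ n ∈ range (M + 1), (2 ^ n : ℝ)⁻¹ * ∑ m ∈ iv n m0, dl s N m0 n m ^ 2 +
      3 * ((2 ^ M : ℝ)⁻¹ * ∑ m ∈ iv M m0, dl s N m0 M m ^ 2) ≤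
      128 * ∑ n ∈ range M, (2 ^ n : ℝ)⁻¹ * ∑ P ∈ iv n m0, s (N - n) P ^ 2 := by
  induction M with
  | zero => simp [dl]
  | succ M ih =>
    have e1 := sum_range_succ (fun n => (2 ^ n : ℝ)⁻¹ * ∑ m ∈ iv n m0, dl s N m0 n m ^ 2) (M + 1)
    have e2 := sum_range_succ (fun n => (2 ^ n : ℝ)⁻¹ * ∑ P ∈ iv n m0, s (N - n) P ^ 2) M
    rw [e1, e2]
    have h1 := dl_step hs N m0 M
    have h2 : (2 ^ (M + 1) : ℝ)⁻¹ = (1 / 2) * (2 ^ M : ℝ)⁻¹ := by
      rw [pow_succ, mul_inv]; ring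
    have h3 : (0 : ℝ) ≤ (1 / 2) * (2 ^ M : ℝ)⁻¹ := by positivity
    have h4 := mul_le_mul_of_nonneg_left h1 h3
    rw [h2]
    linarith

theorem near_card (n : ℕ) (m0 : ℤ) (J : ℕ) (p : ℤ) : (near n m0 J p).card ≤ 2 * J + 1 := by
  have h1 : near n m0 J p ⊆ Icc (p - J) (p + J) := by
    intro x hx
    rw [near, mem_filter, abs_le] at hx
    rw [mem_Icc]
    omega
  refine (card_le_card h1).trans ?_
  rw [Int.card_Icc]
  omega

theorem sum_near (n : ℕ) (m0 : ℤ) (J : ℕ) {F : ℤ → ℝ} (hF : ∀ x, 0 ≤ F x) :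
    ∑ p ∈ iv n m0, ∑ x ∈ near n m0 J p, F x ≤ (2 * J + 1) * ∑ x ∈ iv n m0, F x := by
  simp only [near, sum_filter]
  rw [sum_comm, mul_sum]
  refine sum_le_sum fun x _ => ?_
  rw [← sum_filter, sum_const, nsmul_eq_mul]
  refine mul_le_mul_of_nonneg_right ?_ (hF x)
  have h1 : ((iv n m0).filter fun p => |x - p| ≤ J) ⊆ near n m0 J x := by
    intro p hp
    rw [mem_filter] at hp
    rw [near, mem_filter, abs_sub_comm]
    exact hp
  have h2 := (card_le_card h1).trans (near_card n m0 J x)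
  exact_mod_cast h2

/-- the total square function in the letters of `iv` -/
theorem DK_eq {l : ℝ} {N : ℕ} {G K : ℕ → ℤ → Matrix ι ι ℝ} (_ : Tr l N G K) (m0 : ℤ) :
    2 ^ N * ∑ n ∈ range N, (2 ^ n : ℝ)⁻¹ * ∑ P ∈ iv n m0, gd K (N - n) P =
      ∑ k ∈ Icc 1 N, 2 ^ k * ∑ P ∈ iv (N - k) m0, gd K k P := by
  rw [mul_sum]
  refine sum_nbij' (fun n => N - n) (fun k => N - k) ?_ ?_ ?_ ?_ ?_
  · intro n hn; rw [mem_range] at hn; rw [mem_Icc]; omega
  · intro k hk; rw [mem_Icc] at hk; rw [mem_range]; omega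
  · intro n hn; rw [mem_range] at hn; show N - (N - n) = n; omega
  · intro k hk; rw [mem_Icc] at hk; show N - (N - k) = k; omega
  · intro n hn
    rw [mem_range] at hn
    have e : N - (N - n) = n := by omega
    rw [e, ← mul_assoc]
    congr 1
    have e2 : (2 : ℝ) ^ N = 2 ^ (N - n) * 2 ^ n := by rw [← pow_add]; congr 1; omega
    rw [e2, mul_assoc, mul_inv_cancel₀ (by positivity), mul_one]

/-- pointwise: the mass on a cell near the ancestor -/
theorem mass_pt {l c : ℝ} {N : ℕ} {G K : ℕ → ℤ → Matrix ι ι ℝ} (h : Tr l N G K) (hc : 0 ≤ c)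
    {Y : Matrix ι ι ℝ} (hY : Y.PosSemidef) (hYc : (c • (1 : Matrix ι ι ℝ) - Y).PosSemidef)
    (m0 : ℤ) {i r : ℕ} (hr : i + r ≤ N) (J : ℕ) {q p : ℤ} (hq : q ∈ iv (N - i) m0)
    (hp : p ∈ iv (N - (i + r)) m0) (hJ : |p - q / 2 ^ r| ≤ J) :
    ms Y (K (i + r) p) ≤ 3 * ms Y (K i q) +
      12 * c * r * ∑ s ∈ range r, gd K (i + s + 1) (q / 2 ^ (s + 1)) +
      3 * (2 * J + 1) * ∑ x ∈ near (N - (i + r)) m0 J (q / 2 ^ r),
        dl (fun k p => √(c * gd K k p)) N m0 (N - (i + r)) x ^ 2 := by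
  have hqa : q / 2 ^ r ∈ iv (N - (i + r)) m0 := by
    rw [mem_iv] at hq ⊢
    have e1 : q / 2 ^ r = ix r q := rfl
    rw [e1, ix_ix]
    have e2 : r + (N - (i + r)) = N - i := by omega
    rw [e2]
    exact hq
  have h1 := chain_up h hc hY hYc (i := i) q r hr
  have e0 : N - (N - (i + r)) = i + r := by omega
  have h2 := walk' h hc hY hYc m0 (n := N - (i + r)) (by omega) J hqa hp hJ
  rw [e0] at h2
  set A := ∑ s ∈ range r, √(c * gd K (i + s + 1) (q / 2 ^ (s + 1))) with hA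
  set B := ∑ x ∈ near (N - (i + r)) m0 J (q / 2 ^ r),
    dl (fun k p => √(c * gd K k p)) N m0 (N - (i + r)) x with hB
  have n1 : 0 ≤ ms Y (K (i + r) p) := ms_nonneg hY (h.pdK _ _).isHermitian
  have n2 : 0 ≤ ms Y (K i q) := ms_nonneg hY (h.pdK _ _).isHermitian
  have hA0 : 0 ≤ A := sum_nonneg fun _ _ => Real.sqrt_nonneg _
  have hB0 : 0 ≤ B := sum_nonneg fun x _ =>
    dl_nonneg (fun k p => Real.sqrt_nonneg (c * gd K k p)) N m0 _ x
  have hA2 : A ^ 2 ≤ r * ∑ s ∈ range r, c * gd K (i + s + 1) (q / 2 ^ (s + 1)) := by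
    have h3 := sq_sum_le_card_mul_sum_sq (s := range r)
      (f := fun s => √(c * gd K (i + s + 1) (q / 2 ^ (s + 1))))
    rw [card_range] at h3
    refine h3.trans (le_of_eq ?_)
    congr 1
    exact sum_congr rfl fun s _ => Real.sq_sqrt (mul_nonneg hc (gd_nonneg h _ _))
  have hB2 : B ^ 2 ≤ (2 * J + 1) * ∑ x ∈ near (N - (i + r)) m0 J (q / 2 ^ r),
      dl (fun k p => √(c * gd K k p)) N m0 (N - (i + r)) x ^ 2 := by
    have h3 := sq_sum_le_card_mul_sum_sq (s := near (N - (i + r)) m0 J (q / 2 ^ r))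
      (f := fun x => dl (fun k p => √(c * gd K k p)) N m0 (N - (i + r)) x)
    refine h3.trans (mul_le_mul_of_nonneg_right ?_ (sum_nonneg fun _ _ => sq_nonneg _))
    exact_mod_cast near_card _ _ _ _
  have h4 : √(ms Y (K (i + r) p)) ≤ √(ms Y (K i q)) + 2 * A + B := by linarith
  have h5 := Real.sq_sqrt n1
  have h6 := Real.sq_sqrt n2
  have h7 : √(ms Y (K (i + r) p)) ^ 2 ≤ (√(ms Y (K i q)) + 2 * A + B) ^ 2 :=
    pow_le_pow_left₀ (Real.sqrt_nonneg _) h4 2
  rw [h5] at h7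
  have h8 : (√(ms Y (K i q)) + 2 * A + B) ^ 2 ≤ 3 * ms Y (K i q) + 12 * A ^ 2 + 3 * B ^ 2 := by
    have h6' : ms Y (K i q) = √(ms Y (K i q)) ^ 2 := h6.symm
    generalize √(ms Y (K i q)) = x at *
    rw [h6']
    nlinarith [sq_nonneg (x - 2 * A), sq_nonneg (x - B), sq_nonneg (2 * A - B)]
  have h9 : 12 * A ^ 2 ≤ 12 * c * r * ∑ s ∈ range r, gd K (i + s + 1) (q / 2 ^ (s + 1)) := by
    have := mul_le_mul_of_nonneg_left hA2 (by norm_num : (0 : ℝ) ≤ 12)
    refine this.trans (le_of_eq ?_)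
    rw [← mul_sum]; ring
  have h10 := mul_le_mul_of_nonneg_left hB2 (by norm_num : (0 : ℝ) ≤ 3)
  linarith

/-- **the mass of a family of weights against the near cells of the ancestors** -/
theorem nb_mass {l c : ℝ} {N : ℕ} {G K : ℕ → ℤ → Matrix ι ι ℝ} (h : Tr l N G K) (hc : 0 ≤ c)
    {Y : ℕ → ℤ → Matrix ι ι ℝ} (hY : ∀ i q, (Y i q).PosSemidef)
    (hYc : ∀ i q, (c • (1 : Matrix ι ι ℝ) - Y i q).PosSemidef) (m0 : ℤ) (r J : ℕ) (hrN : r ≤ N) :
    ∑ i ∈ range (N + 1 - r), 2 ^ i * ∑ q ∈ iv (N - i) m0,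
      ∑ p ∈ near (N - (i + r)) m0 J (q / 2 ^ r), ms (Y i q) (K (i + r) p) ≤
    (2 * J + 1) * (3 * ∑ i ∈ range (N + 1 - r), 2 ^ i * ∑ q ∈ iv (N - i) m0, ms (Y i q) (K i q) +
      c * (12 * r ^ 2 + 384 * (2 * J + 1) ^ 2) *
        ∑ k ∈ Icc 1 N, 2 ^ k * ∑ P ∈ iv (N - k) m0, gd K k P) := by
  set DK := ∑ k ∈ Icc 1 N, 2 ^ k * ∑ P ∈ iv (N - k) m0, gd K k P with hDK
  set d := dl (fun k p => √(c * gd K k p)) N m0 with hd
  have hJ0 : (0 : ℝ) ≤ 2 * J + 1 := by positivity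
  have hg0 : ∀ k p, 0 ≤ gd K k p := fun k p => gd_nonneg h k p
  -- pointwise
  have h1 : ∀ i ∈ range (N + 1 - r), ∀ q ∈ iv (N - i) m0,
      ∑ p ∈ near (N - (i + r)) m0 J (q / 2 ^ r), ms (Y i q) (K (i + r) p) ≤
      (2 * J + 1) * (3 * ms (Y i q) (K i q) +
        12 * c * r * ∑ s ∈ range r, gd K (i + s + 1) (q / 2 ^ (s + 1)) +
        3 * (2 * J + 1) * ∑ x ∈ near (N - (i + r)) m0 J (q / 2 ^ r),
          d (N - (i + r)) x ^ 2) := by
    intro i hi q hq
    rw [mem_range] at hi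
    have h2 : ∀ p ∈ near (N - (i + r)) m0 J (q / 2 ^ r), ms (Y i q) (K (i + r) p) ≤
        3 * ms (Y i q) (K i q) +
        12 * c * r * ∑ s ∈ range r, gd K (i + s + 1) (q / 2 ^ (s + 1)) +
        3 * (2 * J + 1) * ∑ x ∈ near (N - (i + r)) m0 J (q / 2 ^ r),
          d (N - (i + r)) x ^ 2 := by
      intro p hp
      rw [near, mem_filter] at hp
      exact mass_pt h hc (hY i q) (hYc i q) m0 (by omega) J hq hp.1 hp.2
    refine (sum_le_sum h2).trans ?_
    rw [sum_const, nsmul_eq_mul]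
    refine mul_le_mul_of_nonneg_right (by exact_mod_cast near_card _ _ _ _) ?_
    have a1 : 0 ≤ ms (Y i q) (K i q) := ms_nonneg (hY i q) (h.pdK _ _).isHermitian
    have a2 : 0 ≤ ∑ s ∈ range r, gd K (i + s + 1) (q / 2 ^ (s + 1)) :=
      sum_nonneg fun _ _ => hg0 _ _
    have a3 : 0 ≤ ∑ x ∈ near (N - (i + r)) m0 J (q / 2 ^ r), d (N - (i + r)) x ^ 2 :=
      sum_nonneg fun _ _ => sq_nonneg _
    positivity
  -- the chain term
  have hW : ∀ s ∈ range r, ∑ i ∈ range (N + 1 - r),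
      2 ^ i * ∑ q ∈ iv (N - i) m0, gd K (i + s + 1) (q / 2 ^ (s + 1)) ≤ DK := by
    intro s hs
    rw [mem_range] at hs
    have e1 : ∀ i ∈ range (N + 1 - r), (2 : ℝ) ^ i * ∑ q ∈ iv (N - i) m0,
        gd K (i + s + 1) (q / 2 ^ (s + 1)) =
        2 ^ (i + s + 1) * ∑ P ∈ iv (N - (i + s + 1)) m0, gd K (i + s + 1) P := by
      intro i hi
      rw [mem_range] at hi
      rw [sum_anc (n := N - i) (s := s + 1) (by omega) m0 (fun P => gd K (i + s + 1) P)]
      have e2 : N - i - (s + 1) = N - (i + s + 1) := by omega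
      rw [e2, ← mul_assoc, ← pow_add, add_assoc]
    rw [sum_congr rfl e1]
    have e3 : ∑ i ∈ range (N + 1 - r), (2 : ℝ) ^ (i + s + 1) *
        ∑ P ∈ iv (N - (i + s + 1)) m0, gd K (i + s + 1) P =
        ∑ k ∈ (range (N + 1 - r)).image (fun i => i + s + 1), (2 : ℝ) ^ k *
          ∑ P ∈ iv (N - k) m0, gd K k P := by
      rw [sum_image]
      intro a _ b _ hab
      simp only at hab
      omega
    rw [e3, hDK]
    refine sum_le_sum_of_subset_of_nonneg (fun k hk => ?_) fun k _ _ =>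
      mul_nonneg (by positivity) (sum_nonneg fun _ _ => hg0 _ _)
    rw [mem_image] at hk
    obtain ⟨i, hi, rfl⟩ := hk
    rw [mem_range] at hi
    rw [mem_Icc]
    omega
  -- the neighbour term
  have hN : ∑ i ∈ range (N + 1 - r), 2 ^ i * ∑ q ∈ iv (N - i) m0,
      ∑ x ∈ near (N - (i + r)) m0 J (q / 2 ^ r), d (N - (i + r)) x ^ 2 ≤
      (2 * J + 1) * (128 * (c * DK)) := by
    have e1 : ∀ i ∈ range (N + 1 - r), (2 : ℝ) ^ i * ∑ q ∈ iv (N - i) m0,
        ∑ x ∈ near (N - (i + r)) m0 J (q / 2 ^ r), d (N - (i + r)) x ^ 2 ≤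
        (2 * J + 1) * (2 ^ (i + r) * ∑ x ∈ iv (N - (i + r)) m0, d (N - (i + r)) x ^ 2) := by
      intro i hi
      rw [mem_range] at hi
      rw [sum_anc (n := N - i) (s := r) (by omega) m0
        (fun P => ∑ x ∈ near (N - (i + r)) m0 J P, d (N - (i + r)) x ^ 2)]
      have e2 : N - i - r = N - (i + r) := by omega
      rw [e2, ← mul_assoc, ← pow_add]
      have h3 := sum_near (N - (i + r)) m0 J (F := fun x => d (N - (i + r)) x ^ 2)
        (fun x => sq_nonneg _)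
      have h4 := mul_le_mul_of_nonneg_left h3 (show (0 : ℝ) ≤ 2 ^ (i + r) by positivity)
      linarith
    refine (sum_le_sum e1).trans ?_
    rw [← mul_sum]
    refine mul_le_mul_of_nonneg_left ?_ hJ0
    have e3 : ∑ i ∈ range (N + 1 - r), (2 : ℝ) ^ (i + r) *
        ∑ x ∈ iv (N - (i + r)) m0, d (N - (i + r)) x ^ 2 =
        ∑ n ∈ (range (N + 1 - r)).image (fun i => N - (i + r)), (2 : ℝ) ^ (N - n) *
          ∑ x ∈ iv n m0, d n x ^ 2 := by
      rw [sum_image]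
      · refine sum_congr rfl fun i hi => ?_
        rw [mem_range] at hi
        have e4 : N - (N - (i + r)) = i + r := by omega
        rw [e4]
      · intro a ha b hb hab
        rw [coe_range, Set.mem_Iio] at ha hb
        simp only at hab
        omega
    rw [e3]
    have h5 : ∑ n ∈ (range (N + 1 - r)).image (fun i => N - (i + r)), (2 : ℝ) ^ (N - n) *
        ∑ x ∈ iv n m0, d n x ^ 2 ≤
        ∑ n ∈ range (N + 1), (2 : ℝ) ^ (N - n) * ∑ x ∈ iv n m0, d n x ^ 2 := by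
      refine sum_le_sum_of_subset_of_nonneg (fun n hn => ?_) fun n _ _ =>
        mul_nonneg (by positivity) (sum_nonneg fun _ _ => sq_nonneg _)
      rw [mem_image] at hn
      obtain ⟨i, hi, rfl⟩ := hn
      rw [mem_range] at hi ⊢
      omega
    refine h5.trans ?_
    have h6 := dl_sum (s := fun k p => √(c * gd K k p)) (fun k m => Real.sqrt_nonneg _) N m0 N
    have h7 : (0 : ℝ) ≤ 3 * ((2 ^ N : ℝ)⁻¹ * ∑ m ∈ iv N m0, d N m ^ 2) := by
      have : 0 ≤ ∑ m ∈ iv N m0, d N m ^ 2 := sum_nonneg fun _ _ => sq_nonneg _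
      positivity
    have h8 : ∑ n ∈ range N, (2 ^ n : ℝ)⁻¹ * ∑ P ∈ iv n m0,
        (fun k p => √(c * gd K k p)) (N - n) P ^ 2 =
        c * ∑ n ∈ range N, (2 ^ n : ℝ)⁻¹ * ∑ P ∈ iv n m0, gd K (N - n) P := by
      rw [mul_sum]
      refine sum_congr rfl fun n _ => ?_
      have e5 : ∑ P ∈ iv n m0, (fun k p => √(c * gd K k p)) (N - n) P ^ 2 =
          c * ∑ P ∈ iv n m0, gd K (N - n) P := by
        rw [mul_sum]
        exact sum_congr rfl fun P _ => Real.sq_sqrt (mul_nonneg hc (hg0 _ _))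
      rw [e5]
      ring
    rw [h8, ← hd] at h6
    have h9 : ∑ n ∈ range (N + 1), (2 ^ n : ℝ)⁻¹ * ∑ m ∈ iv n m0, d n m ^ 2 ≤
        128 * (c * ∑ n ∈ range N, (2 ^ n : ℝ)⁻¹ * ∑ P ∈ iv n m0, gd K (N - n) P) := by
      linarith
    have h10 := mul_le_mul_of_nonneg_left h9 (show (0 : ℝ) ≤ 2 ^ N by positivity)
    have e6 : (2 : ℝ) ^ N * ∑ n ∈ range (N + 1), (2 ^ n : ℝ)⁻¹ * ∑ m ∈ iv n m0, d n m ^ 2 =
        ∑ n ∈ range (N + 1), (2 : ℝ) ^ (N - n) * ∑ x ∈ iv n m0, d n x ^ 2 := by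
      rw [mul_sum]
      refine sum_congr rfl fun n hn => ?_
      rw [mem_range] at hn
      have e7 : (2 : ℝ) ^ N = 2 ^ (N - n) * 2 ^ n := by rw [← pow_add]; congr 1; omega
      rw [e7, ← mul_assoc, mul_assoc ((2 : ℝ) ^ (N - n)), mul_inv_cancel₀ (by positivity),
        mul_one]
    rw [e6] at h10
    refine h10.trans (le_of_eq ?_)
    rw [hDK, ← DK_eq h m0]
    ring
  -- together
  have h11 : ∑ i ∈ range (N + 1 - r), 2 ^ i * ∑ q ∈ iv (N - i) m0,
      ∑ p ∈ near (N - (i + r)) m0 J (q / 2 ^ r), ms (Y i q) (K (i + r) p) ≤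
      ∑ i ∈ range (N + 1 - r), 2 ^ i * ∑ q ∈ iv (N - i) m0, (2 * J + 1) *
        (3 * ms (Y i q) (K i q) +
        12 * c * r * ∑ s ∈ range r, gd K (i + s + 1) (q / 2 ^ (s + 1)) +
        3 * (2 * J + 1) * ∑ x ∈ near (N - (i + r)) m0 J (q / 2 ^ r),
          d (N - (i + r)) x ^ 2) :=
    sum_le_sum fun i hi => mul_le_mul_of_nonneg_left (sum_le_sum (h1 i hi)) (by positivity)
  refine h11.trans ?_
  have e8 : ∑ i ∈ range (N + 1 - r), (2 : ℝ) ^ i * ∑ q ∈ iv (N - i) m0, (2 * J + 1) *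
        (3 * ms (Y i q) (K i q) +
        12 * c * r * ∑ s ∈ range r, gd K (i + s + 1) (q / 2 ^ (s + 1)) +
        3 * (2 * J + 1) * ∑ x ∈ near (N - (i + r)) m0 J (q / 2 ^ r),
          d (N - (i + r)) x ^ 2) =
      (2 * J + 1) * (3 * ∑ i ∈ range (N + 1 - r), 2 ^ i * ∑ q ∈ iv (N - i) m0,
          ms (Y i q) (K i q) +
        12 * c * r * ∑ s ∈ range r, ∑ i ∈ range (N + 1 - r),
          2 ^ i * ∑ q ∈ iv (N - i) m0, gd K (i + s + 1) (q / 2 ^ (s + 1)) +
        3 * (2 * J + 1) * ∑ i ∈ range (N + 1 - r), 2 ^ i * ∑ q ∈ iv (N - i) m0,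
          ∑ x ∈ near (N - (i + r)) m0 J (q / 2 ^ r), d (N - (i + r)) x ^ 2) := by
    rw [sum_comm (s := range r)]
    rw [mul_sum, mul_sum, mul_sum, ← sum_add_distrib, ← sum_add_distrib, mul_sum]
    refine sum_congr rfl fun i _ => ?_
    rw [← mul_sum, sum_add_distrib, sum_add_distrib, ← mul_sum, ← mul_sum, ← mul_sum]
    rw [sum_comm (s := iv (N - i) m0) (t := range r)]
    have e9 : ∑ s ∈ range r, (2 : ℝ) ^ i * ∑ q ∈ iv (N - i) m0,
        gd K (i + s + 1) (q / 2 ^ (s + 1)) = 2 ^ i * ∑ s ∈ range r, ∑ q ∈ iv (N - i) m0,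
        gd K (i + s + 1) (q / 2 ^ (s + 1)) := (mul_sum _ _ _).symm
    rw [e9]
    ring
  rw [e8]
  refine mul_le_mul_of_nonneg_left ?_ hJ0
  have h12 := mul_le_mul_of_nonneg_left (sum_le_sum hW)
    (show (0 : ℝ) ≤ 12 * c * r by positivity)
  rw [sum_const, card_range, nsmul_eq_mul] at h12
  have h13 := mul_le_mul_of_nonneg_left hN (show (0 : ℝ) ≤ 3 * (2 * J + 1) by positivity)
  have e10 : 12 * c * (r : ℝ) * (r * DK) + 3 * (2 * J + 1) * ((2 * J + 1) * (128 * (c * DK))) =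
      c * (12 * r ^ 2 + 384 * (2 * J + 1) ^ 2) * DK := by ring
  linarith

/-- the same with the entropy bound at the top -/
theorem DK_le {l P : ℝ} {N : ℕ} {G K : ℕ → ℤ → Matrix ι ι ℝ} (h : Tr l N G K) (hP : 0 ≤ P)
    (hGP : ∀ m, ∀ v : ι → ℝ, v ⬝ᵥ G 0 m *ᵥ v ≤ P * (v ⬝ᵥ v)) (m0 : ℤ) :
    ∑ k ∈ Icc 1 N, 2 ^ k * ∑ Q ∈ iv (N - k) m0, gd K k Q ≤
      2 ^ N * ((1 + Real.log (1 + P / l)) * (G N m0).trace) := by
  rw [← tsum_iv (gd K) N m0]
  exact mul_le_mul_of_nonneg_left (dK_tree h hP hGP le_rfl m0) (by positivity)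

end

end Vale.Agent.P141.H784
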