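import Vale.Agent.P141.H784.NbMass

/-!
# P141, line (A): own terms and near cells at one scale

* `wt Y X = tr (X Y X)`, `wt_tri`, `al_lip` : the mass is Lipschitz in `K` (Hilbert-Schmidt);
* `sub_le`, `inv_diff_mass` : `tr (X² K²) ≤ |K - K'|²`, `X = √l (K⁻¹ - K'⁻¹)`;
* `own_dS`, `own_drift`, `own_flow` : own terms of `dS²`, of the drift and of `S'²`: at most
  `2 tr dK²`;
* `adjK` : neighbour differences of `K`.
-/

namespace Vale.Agent.P141.H784

open Matrix Finset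
open Vale.Agent.P141.PL (iv mem_iv card_iv ix ix_ix)
open Vale.Agent.P141.H420 (Tr Nd tr_symm trace_mul_nonneg quad_nonneg inv_mul_self' mul_inv_self'
  inv_G_inv inv_le)
open Vale.Agent.P141.H483 (tmean hd nd')

noncomputable section

variable {ι : Type*} [Fintype ι] [DecidableEq ι]

/-- the mass of `X` for the weight `Y` -/
def wt (Y X : Matrix ι ι ℝ) : ℝ := (X * Y * X).trace

theorem ms_eq_wt (Y K : Matrix ι ι ℝ) : ms Y K = wt Y K := by
  rw [ms, wt, Matrix.mul_assoc, trace_mul_comm K, Matrix.mul_assoc]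

theorem wt_nonneg {Y X : Matrix ι ι ℝ} (hY : Y.PosSemidef) (hX : X.IsHermitian) : 0 ≤ wt Y X := by
  have := (hY.mul_mul_conjTranspose_same X).trace_nonneg
  rwa [hX.eq] at this

theorem wt_tri {Y X Z : Matrix ι ι ℝ} (hY : Y.PosSemidef) (hX : X.IsHermitian)
    (hZ : Z.IsHermitian) : √(wt Y (X + Z)) ≤ √(wt Y X) + √(wt Y Z) := by
  have h1 := cs_weight hY hX hZ
  have hx := wt_nonneg hY hX
  have hz := wt_nonneg hY hZ
  have hsym : (Z * Y * X).trace = (X * Y * Z).trace := by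
    rw [← trace_transpose, transpose_mul, transpose_mul, tr_symm hX, tr_symm hZ,
      tr_symm hY.isHermitian, Matrix.mul_assoc]
  have h2 : wt Y (X + Z) = wt Y X + 2 * (X * Y * Z).trace + wt Y Z := by
    simp only [wt, Matrix.add_mul, Matrix.mul_add, trace_add]
    rw [hsym]; ring
  have h3 : (X * Y * Z).trace ≤ √(wt Y X) * √(wt Y Z) := by
    rw [← Real.sqrt_mul hx]
    exact Real.le_sqrt_of_sq_le h1
  rw [Real.sqrt_le_left (add_nonneg (Real.sqrt_nonneg _) (Real.sqrt_nonneg _))]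
  have e1 := Real.sq_sqrt hx
  have e2 := Real.sq_sqrt hz
  rw [h2]
  nlinarith

theorem wt_le {Y X : Matrix ι ι ℝ} {c : ℝ} (hYc : (c • (1 : Matrix ι ι ℝ) - Y).PosSemidef)
    (hX : X.IsHermitian) : wt Y X ≤ c * (X * X).trace := by
  have h3 := trace_mul_nonneg hYc (sq_psd hX)
  rw [Matrix.sub_mul, Matrix.smul_mul, Matrix.one_mul, trace_sub, trace_smul, smul_eq_mul] at h3
  have h4 : wt Y X = (Y * (X * X)).trace := by rw [← ms_eq_wt]; rfl
  linarith

/-- the mass is Lipschitz -/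
theorem al_lip {Y K K' : Matrix ι ι ℝ} (hY : Y.PosSemidef)
    (hY1 : ((1 : Matrix ι ι ℝ) - Y).PosSemidef) (hK : K.IsHermitian) (hK' : K'.IsHermitian) :
    √(ms Y K') ≤ √(ms Y K) + √(((K' - K) * (K' - K)).trace) := by
  have h1 := wt_tri hY hK (hK'.sub hK)
  rw [add_sub_cancel] at h1
  have h2 : wt Y (K' - K) ≤ ((K' - K) * (K' - K)).trace := by
    have := wt_le (c := 1) (Y := Y) (X := K' - K) (by rwa [one_smul]) (hK'.sub hK)
    rwa [one_mul] at this
  rw [ms_eq_wt, ms_eq_wt]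
  exact h1.trans (add_le_add le_rfl (Real.sqrt_le_sqrt h2))

/-- Hilbert-Schmidt distance -/
def rho (K K' : Matrix ι ι ℝ) : ℝ := √(((K' - K) * (K' - K)).trace)

theorem rho_nonneg (K K' : Matrix ι ι ℝ) : 0 ≤ rho K K' := Real.sqrt_nonneg _

theorem rho_comm (K K' : Matrix ι ι ℝ) : rho K K' = rho K' K := by
  rw [rho, rho]
  have : (K' - K) * (K' - K) = (K - K') * (K - K') := by
    rw [← neg_sub K K', Matrix.neg_mul, Matrix.mul_neg, neg_neg]
  rw [this]

theorem rho_tri {A B C : Matrix ι ι ℝ} (hA : A.IsHermitian) (hB : B.IsHermitian)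
    (hC : C.IsHermitian) : rho A C ≤ rho A B + rho B C := by
  have h1 := wt_tri (Y := 1) PosSemidef.one (hB.sub hA) (hC.sub hB)
  have e : B - A + (C - B) = C - A := by abel
  rw [e] at h1
  simpa [wt, rho] using h1

/-- `l K⁻² ≤ 1` -/
theorem lin_psd {l : ℝ} {G K : Matrix ι ι ℝ} (hG : G.PosSemidef) (hK : K.PosDef)
    (h : K * K = l • (1 : Matrix ι ι ℝ) + G) :
    ((1 : Matrix ι ι ℝ) - l • (K⁻¹ * K⁻¹)).PosSemidef := by
  rw [← inv_G_inv hK h]
  have h3 := hG.conjTranspose_mul_mul_same (K⁻¹)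
  rwa [hK.inv.isHermitian.eq] at h3

/-- `√l K⁻¹ ≤ 1` -/
theorem S_le {l : ℝ} (hl : 0 < l) {G K : Matrix ι ι ℝ} (hG : G.PosSemidef) (hK : K.PosDef)
    (h : K * K = l • (1 : Matrix ι ι ℝ) + G) :
    ((1 : Matrix ι ι ℝ) - √l • K⁻¹).PosSemidef := by
  have hs : 0 < √l := Real.sqrt_pos.2 hl
  have h1 := (inv_le hl hG hK h).smul hs.le
  rwa [smul_sub, smul_smul, mul_inv_cancel₀ hs.ne', one_smul] at h1

theorem S_psd {l : ℝ} {K : Matrix ι ι ℝ} (hK : K.PosDef) : (√l • K⁻¹).PosSemidef :=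
  hK.inv.posSemidef.smul (Real.sqrt_nonneg l)

/-- `X² ≤ 1` from `-1 ≤ X ≤ 1` -/
theorem sq_le_one {X : Matrix ι ι ℝ} (h1 : ((1 : Matrix ι ι ℝ) - X).PosSemidef)
    (h2 : ((1 : Matrix ι ι ℝ) + X).PosSemidef) : ((1 : Matrix ι ι ℝ) - X * X).PosSemidef := by
  have a1 := h2.conjTranspose_mul_mul_same (1 - X)
  have a2 := h1.conjTranspose_mul_mul_same (1 + X)
  rw [h1.isHermitian.eq] at a1
  rw [h2.isHermitian.eq] at a2
  have e : (1 : Matrix ι ι ℝ) - X * X =
      (1 / 2 : ℝ) • ((1 - X) * (1 + X) * (1 - X) + (1 + X) * (1 - X) * (1 + X)) := by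
    have e1 : (1 - X) * (1 + X) * (1 - X) + (1 + X) * (1 - X) * (1 + X) =
        (2 : ℝ) • ((1 : Matrix ι ι ℝ) - X * X) := by
      rw [two_smul]
      noncomm_ring
    rw [e1, smul_smul]
    norm_num
  rw [e]
  exact (a1.add a2).smul (by norm_num)

/-- the difference of two contractions in `[0, 1]` -/
theorem diff_sq_le {A B : Matrix ι ι ℝ} (hA : A.PosSemidef) (hA1 : ((1 : Matrix ι ι ℝ) - A).PosSemidef)
    (hB : B.PosSemidef) (hB1 : ((1 : Matrix ι ι ℝ) - B).PosSemidef) :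
    ((1 : Matrix ι ι ℝ) - (A - B) * (A - B)).PosSemidef := by
  refine sq_le_one ?_ ?_
  · have : (1 : Matrix ι ι ℝ) - (A - B) = (1 - A) + B := by abel
    rw [this]; exact hA1.add hB
  · have : (1 : Matrix ι ι ℝ) + (A - B) = (1 - B) + A := by abel
    rw [this]; exact hB1.add hA

/-- **the mass of a difference of `S`** -/
theorem inv_diff_mass {l : ℝ} (hl : 0 < l) {G' K K' : Matrix ι ι ℝ} (hG' : G'.PosSemidef)
    (hK : K.PosDef) (hK' : K'.PosDef) (h' : K' * K' = l • (1 : Matrix ι ι ℝ) + G') :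
    ms ((√l • K⁻¹ - √l • K'⁻¹) * (√l • K⁻¹ - √l • K'⁻¹)) K ≤
      ((K' - K) * (K' - K)).trace := by
  set D := K' - K with hD
  have hDH : D.IsHermitian := hK'.isHermitian.sub hK.isHermitian
  set X := √l • K⁻¹ - √l • K'⁻¹ with hX
  have e1 : X * K = √l • (K'⁻¹ * D) := by
    rw [hX, hD, Matrix.sub_mul, Matrix.smul_mul, Matrix.smul_mul, inv_mul_self' hK,
      Matrix.mul_sub, inv_mul_self' hK', smul_sub]
  have e2 : K * X = √l • (D * K'⁻¹) := by
    rw [hX, hD, Matrix.mul_sub, Matrix.mul_smul, Matrix.mul_smul, mul_inv_self' hK,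
      Matrix.sub_mul, mul_inv_self' hK', smul_sub]
  have e3 : ms (X * X) K = (K * X * (X * K)).trace := by
    rw [ms_eq_wt, wt]
    simp only [Matrix.mul_assoc]
  rw [e3, e1, e2, smul_mul_smul_comm, Real.mul_self_sqrt hl.le]
  have h1 := trace_mul_nonneg (lin_psd hG' hK' h') (sq_psd hDH)
  have e4 : ((1 - l • (K'⁻¹ * K'⁻¹)) * (D * D)).trace =
      (D * D).trace - (l • (D * K'⁻¹ * (K'⁻¹ * D))).trace := by
    rw [Matrix.sub_mul, Matrix.one_mul, trace_sub, Matrix.smul_mul, trace_smul, trace_smul]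
    congr 2
    rw [← Matrix.mul_assoc, trace_mul_comm]
    simp only [Matrix.mul_assoc]
  rw [e4] at h1
  linarith

theorem ms_half {K Kp Km : Matrix ι ι ℝ} (e : Kp * Kp + Km * Km = (2 : ℝ) • (K * K))
    (Y : Matrix ι ι ℝ) : ms Y K = (1 / 2) * (ms Y Kp + ms Y Km) := by
  have h1 : K * K = (1 / 2 : ℝ) • (Kp * Kp + Km * Km) := by rw [e, smul_smul]; norm_num
  rw [ms, ms, ms, h1, Matrix.mul_smul, trace_smul, Matrix.mul_add, trace_add, smul_eq_mul]

section node

variable {l : ℝ} {G D K Kp Km : Matrix ι ι ℝ} (h : Nd l G D K Kp Km)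

include h

theorem nd_sum : Kp * Kp + Km * Km = (2 : ℝ) • (K * K) := by
  rw [h.sqp, h.sqm, h.sq, two_smul]; abel

/-- `|K - Kb| ≤ |dK|` -/
theorem sub_Kb : ((K - Nd.Kb Kp Km) * (K - Nd.Kb Kp Km)).trace ≤
    (Nd.dK Kp Km * Nd.dK Kp Km).trace := by
  have h1 := trace_mul_nonneg h.pdb.posSemidef h.Kb_le
  have h2 := congrArg trace h.sq_eq
  rw [trace_add] at h2
  rw [Matrix.mul_sub, trace_sub] at h1
  rw [Matrix.mul_sub, Matrix.sub_mul, Matrix.sub_mul, trace_sub, trace_sub, trace_sub,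
    trace_mul_comm K (Nd.Kb Kp Km)]
  linarith

/-- the children are near the parent -/
theorem rho_child : rho K Kp ≤ 2 * √((Nd.dK Kp Km * Nd.dK Kp Km).trace) ∧
    rho K Km ≤ 2 * √((Nd.dK Kp Km * Nd.dK Kp Km).trace) := by
  set d := Nd.dK Kp Km with hd
  set B := Nd.Kb Kp Km with hB
  have hdH := h.herm_dK
  rw [← hd] at hdH
  have hBH := h.pdb.isHermitian
  rw [← hB] at hBH
  have ep : Kp = B + d := by
    rw [hB, hd, Nd.Kb, Nd.dK, ← smul_add, add_add_sub_cancel, ← two_smul ℝ Kp, smul_smul]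
    norm_num
  have em : Km = B - d := by
    rw [hB, hd, Nd.Kb, Nd.dK, ← smul_sub, add_sub_sub_cancel, ← two_smul ℝ Km, smul_smul]
    norm_num
  have h1 : rho K B ≤ √((d * d).trace) := by
    rw [rho_comm, rho]
    exact Real.sqrt_le_sqrt (sub_Kb h)
  have h2 : rho B Kp = √((d * d).trace) := by rw [rho, ep, add_sub_cancel_left]
  have h3 : rho B Km = √((d * d).trace) := by
    rw [rho, em, sub_sub_cancel_left, Matrix.neg_mul, Matrix.mul_neg, neg_neg]
  have hK := h.pdK.isHermitian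
  constructor
  · have := rho_tri hK hBH h.pdp.isHermitian
    linarith
  · have := rho_tri hK hBH h.pdm.isHermitian
    linarith

/-- own term of `dS²` -/
theorem own_dS (hp : (G + D).PosSemidef) (hm : (G - D).PosSemidef) :
    ms (((1 / 2 : ℝ) • (√l • Kp⁻¹ - √l • Km⁻¹)) * ((1 / 2 : ℝ) • (√l • Kp⁻¹ - √l • Km⁻¹))) K ≤
      (Nd.dK Kp Km * Nd.dK Kp Km).trace := by
  have a1 := inv_diff_mass h.l_pos hm h.pdp h.pdm h.sqm
  have a2 := inv_diff_mass h.l_pos hp h.pdm h.pdp h.sqp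
  have e0 : (√l • Km⁻¹ - √l • Kp⁻¹) * (√l • Km⁻¹ - √l • Kp⁻¹) =
      (√l • Kp⁻¹ - √l • Km⁻¹) * (√l • Kp⁻¹ - √l • Km⁻¹) := by
    rw [← neg_sub (√l • Kp⁻¹) (√l • Km⁻¹), Matrix.neg_mul, Matrix.mul_neg, neg_neg]
  rw [e0] at a2
  have e1 : ((Km - Kp) * (Km - Kp)).trace = 4 * (Nd.dK Kp Km * Nd.dK Kp Km).trace := by
    rw [← neg_sub Kp Km, Matrix.neg_mul, Matrix.mul_neg, neg_neg, Nd.dK, smul_mul_smul_comm,
      trace_smul, smul_eq_mul]
    ring
  have e2 : ((Kp - Km) * (Kp - Km)).trace = 4 * (Nd.dK Kp Km * Nd.dK Kp Km).trace := by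
    rw [Nd.dK, smul_mul_smul_comm, trace_smul, smul_eq_mul]
    ring
  rw [e1] at a1
  rw [e2] at a2
  rw [smul_mul_smul_comm, ms_half (nd_sum h)]
  simp only [ms] at a1 a2 ⊢
  rw [Matrix.smul_mul, Matrix.smul_mul, trace_smul, trace_smul, smul_eq_mul, smul_eq_mul]
  linarith

/-- own term of the drift -/
theorem own_drift (hp : (G + D).PosSemidef) (hm : (G - D).PosSemidef) :
    ms ((1 / 2 : ℝ) • (√l • Kp⁻¹ + √l • Km⁻¹) - √l • K⁻¹) K ≤
      2 * (Nd.dK Kp Km * Nd.dK Kp Km).trace := by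
  have hl := h.l_pos
  have hs : 0 < √l := Real.sqrt_pos.2 hl
  have hdH := h.herm_dK
  have em : Km = Kp - (2 : ℝ) • Nd.dK Kp Km := by
    rw [Nd.dK, smul_smul]; norm_num
  generalize Nd.dK Kp Km = d at hdH em ⊢
  have ep : Kp = Km + (2 : ℝ) • d := by rw [em]; abel
  have eK : K * K = (1 / 2 : ℝ) • (Kp * Kp + Km * Km) := by rw [nd_sum h, smul_smul]; norm_num
  have td : Kp.trace - Km.trace = 2 * d.trace := by
    have := congrArg trace ep
    rw [trace_add, trace_smul, smul_eq_mul] at this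
    linarith
  have t1 : (Kp⁻¹ * (Km * Km)).trace = Kp.trace - 4 * d.trace + 4 * (Kp⁻¹ * (d * d)).trace := by
    have e1 : Km * Km = Kp * Kp - (2 : ℝ) • (Kp * d) - (2 : ℝ) • (d * Kp) +
        (4 : ℝ) • (d * d) := by
      rw [em]
      simp only [Matrix.mul_sub, Matrix.sub_mul, Matrix.mul_smul, Matrix.smul_mul, smul_smul,
        smul_sub]
      norm_num
      abel
    have e2 : Kp⁻¹ * (Kp * Kp) = Kp := by
      rw [← Matrix.mul_assoc, inv_mul_self' h.pdp, Matrix.one_mul]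
    have e3 : Kp⁻¹ * (Kp * d) = d := by
      rw [← Matrix.mul_assoc, inv_mul_self' h.pdp, Matrix.one_mul]
    have e4 : (Kp⁻¹ * (d * Kp)).trace = d.trace := by
      rw [trace_mul_comm, Matrix.mul_assoc, mul_inv_self' h.pdp, Matrix.mul_one]
    rw [e1, Matrix.mul_add, Matrix.mul_sub, Matrix.mul_sub, Matrix.mul_smul, Matrix.mul_smul,
      Matrix.mul_smul, e2, e3, trace_add, trace_sub, trace_sub, trace_smul, trace_smul,
      trace_smul, e4]
    simp only [smul_eq_mul]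
    ring
  have t2 : (Km⁻¹ * (Kp * Kp)).trace = Km.trace + 4 * d.trace + 4 * (Km⁻¹ * (d * d)).trace := by
    have e1 : Kp * Kp = Km * Km + (2 : ℝ) • (Km * d) + (2 : ℝ) • (d * Km) +
        (4 : ℝ) • (d * d) := by
      rw [ep]
      simp only [Matrix.mul_add, Matrix.add_mul, Matrix.mul_smul, Matrix.smul_mul, smul_smul,
        smul_add]
      norm_num
      abel
    have e2 : Km⁻¹ * (Km * Km) = Km := by
      rw [← Matrix.mul_assoc, inv_mul_self' h.pdm, Matrix.one_mul]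
    have e3 : Km⁻¹ * (Km * d) = d := by
      rw [← Matrix.mul_assoc, inv_mul_self' h.pdm, Matrix.one_mul]
    have e4 : (Km⁻¹ * (d * Km)).trace = d.trace := by
      rw [trace_mul_comm, Matrix.mul_assoc, mul_inv_self' h.pdm, Matrix.mul_one]
    rw [e1, Matrix.mul_add, Matrix.mul_add, Matrix.mul_add, Matrix.mul_smul, Matrix.mul_smul,
      Matrix.mul_smul, e2, e3, trace_add, trace_add, trace_add, trace_smul, trace_smul,
      trace_smul, e4]
    simp only [smul_eq_mul]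
    ring
  have t3 : (Kp⁻¹ * (Kp * Kp)).trace = Kp.trace := by
    rw [← Matrix.mul_assoc, inv_mul_self' h.pdp, Matrix.one_mul]
  have t4 : (Km⁻¹ * (Km * Km)).trace = Km.trace := by
    rw [← Matrix.mul_assoc, inv_mul_self' h.pdm, Matrix.one_mul]
  have t5 : (K⁻¹ * (K * K)).trace = K.trace := by
    rw [← Matrix.mul_assoc, inv_mul_self' h.pdK, Matrix.one_mul]
  have u1 : (Kp⁻¹ * (K * K)).trace = Km.trace + 2 * (Kp⁻¹ * (d * d)).trace := by
    rw [eK, Matrix.mul_smul, Matrix.mul_add, trace_smul, trace_add, smul_eq_mul, t1, t3]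
    linarith
  have u2 : (Km⁻¹ * (K * K)).trace = Kp.trace + 2 * (Km⁻¹ * (d * d)).trace := by
    rw [eK, Matrix.mul_smul, Matrix.mul_add, trace_smul, trace_add, smul_eq_mul, t2, t4]
    linarith
  have u3 : ms ((1 / 2 : ℝ) • (√l • Kp⁻¹ + √l • Km⁻¹) - √l • K⁻¹) K =
      √l * ((1 / 2) * (Kp.trace + Km.trace) - K.trace + (Kp⁻¹ * (d * d)).trace +
        (Km⁻¹ * (d * d)).trace) := by
    rw [ms, Matrix.sub_mul, Matrix.smul_mul, Matrix.add_mul, Matrix.smul_mul, Matrix.smul_mul,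
      Matrix.smul_mul, trace_sub, trace_smul, trace_add, trace_smul, trace_smul, trace_smul,
      u1, u2, t5]
    simp only [smul_eq_mul]
    ring
  have v1 : (1 / 2) * (Kp.trace + Km.trace) ≤ K.trace := by
    have := h.Kb_le.trace_nonneg
    rw [trace_sub, Nd.Kb, trace_smul, trace_add, smul_eq_mul] at this
    linarith
  have v2 : √l * (Kp⁻¹ * (d * d)).trace ≤ (d * d).trace := by
    have h1 := trace_mul_nonneg (S_le hl hp h.pdp h.sqp) (sq_psd hdH)
    rw [Matrix.sub_mul, Matrix.one_mul, trace_sub, Matrix.smul_mul, trace_smul, smul_eq_mul] at h1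
    linarith
  have v3 : √l * (Km⁻¹ * (d * d)).trace ≤ (d * d).trace := by
    have h1 := trace_mul_nonneg (S_le hl hm h.pdm h.sqm) (sq_psd hdH)
    rw [Matrix.sub_mul, Matrix.one_mul, trace_sub, Matrix.smul_mul, trace_smul, smul_eq_mul] at h1
    linarith
  rw [u3]
  nlinarith [mul_nonneg hs.le (sub_nonneg.2 v1)]

/-- own term of the flow matrix -/
theorem own_flow : ms ((√l • (K⁻¹ * Nd.dK Kp Km * K⁻¹)) * (√l • (K⁻¹ * Nd.dK Kp Km * K⁻¹))) K ≤
      (Nd.dK Kp Km * Nd.dK Kp Km).trace := by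
  have hl := h.l_pos
  have hdH := h.herm_dK
  generalize Nd.dK Kp Km = d at hdH ⊢
  rw [smul_mul_smul_comm, Real.mul_self_sqrt hl.le, ms_eq_wt, wt]
  have e1 : K * (l • (K⁻¹ * d * K⁻¹ * (K⁻¹ * d * K⁻¹))) * K = l • (d * (K⁻¹ * K⁻¹) * d) := by
    rw [Matrix.mul_smul, Matrix.smul_mul]
    congr 1
    calc K * (K⁻¹ * d * K⁻¹ * (K⁻¹ * d * K⁻¹)) * K
        = (K * K⁻¹) * d * (K⁻¹ * K⁻¹) * d * (K⁻¹ * K) := by simp only [Matrix.mul_assoc]
      _ = d * (K⁻¹ * K⁻¹) * d := by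
          rw [mul_inv_self' h.pdK, inv_mul_self' h.pdK, Matrix.one_mul, Matrix.mul_one]
  rw [e1, trace_smul, smul_eq_mul]
  have h1 := trace_mul_nonneg (lin_psd h.psG h.pdK h.sq) (sq_psd hdH)
  rw [Matrix.sub_mul, Matrix.one_mul, trace_sub, Matrix.smul_mul, trace_smul, smul_eq_mul] at h1
  have e2 : (d * (K⁻¹ * K⁻¹) * d).trace = (K⁻¹ * K⁻¹ * (d * d)).trace := by
    rw [Matrix.mul_assoc, trace_mul_comm, Matrix.mul_assoc]
  rw [e2]
  linarith

end node

section tree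

variable {l : ℝ} {N : ℕ} {G K : ℕ → ℤ → Matrix ι ι ℝ} (h : Tr l N G K)

include h

theorem rho_up {j : ℕ} (hj : j < N) (m : ℤ) :
    rho (K (j + 1) (m / 2)) (K j m) ≤ 2 * √(gd K (j + 1) (m / 2)) := by
  have h1 := rho_child (h.nd hj (m / 2))
  have e : gd K (j + 1) (m / 2) = (Nd.dK (K j (2 * (m / 2))) (K j (2 * (m / 2) + 1)) *
      Nd.dK (K j (2 * (m / 2))) (K j (2 * (m / 2) + 1))).trace := rfl
  rw [e]
  rcases Int.emod_two_eq_zero_or_one m with h2 | h2
  · have h3 : m = 2 * (m / 2) := by omega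
    have h4 := h1.1
    rwa [← h3] at h4 ⊢
  · have h3 : m = 2 * (m / 2) + 1 := by omega
    have h4 := h1.2
    rwa [← h3] at h4 ⊢

/-- neighbour differences of `K` inside the root -/
theorem adjK (m0 : ℤ) : ∀ n ≤ N, ∀ m ∈ iv n m0, m ≠ 2 ^ n * m0 →
    rho (K (N - n) (m - 1)) (K (N - n) m) ≤ dl (fun k p => √(gd K k p)) N m0 n m := by
  intro n
  induction n with
  | zero =>
    intro _ m hm hne
    rw [mem_iv'] at hm
    simp only [pow_zero, one_mul] at hm hne
    omega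
  | succ n ih =>
    intro hn m hm hne
    obtain ⟨j, hj⟩ : ∃ j, N = j + (n + 1) := ⟨N - (n + 1), by omega⟩
    have ej : N - (n + 1) = j := by omega
    have ej' : N - n = j + 1 := by omega
    rw [dl, if_neg hne, ej, ej']
    have h1 := rho_up h (j := j) (by omega) (m - 1)
    have h2 := rho_up h (j := j) (by omega) m
    rw [rho_comm] at h1
    have hH : ∀ k p, (K k p).IsHermitian := fun k p => (h.pdK k p).isHermitian
    have t1 := rho_tri (hH j (m - 1)) (hH (j + 1) ((m - 1) / 2)) (hH j m)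
    rw [mem_iv', pow_succ] at hm
    rw [pow_succ] at hne
    rcases Int.emod_two_eq_zero_or_one m with h3 | h3
    · have h4 : (m - 1) / 2 = m / 2 - 1 := by omega
      have h5 : m / 2 ∈ iv n m0 := by
        rw [mem_iv']
        constructor
        · have : 2 ^ n * m0 * 2 ≤ m := by linarith [hm.1]
          omega
        · have : m < (2 ^ n * m0 + 2 ^ n) * 2 := by linarith [hm.2]
          omega
      have h6 : m / 2 ≠ 2 ^ n * m0 := by
        intro hh
        apply hne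
        have : m = 2 * (m / 2) := by omega
        rw [this, hh]; ring
      have h7 := ih (by omega) (m / 2) h5 h6
      rw [ej'] at h7
      rw [if_pos h3]
      rw [h4] at h1 t1 ⊢
      have t2 := rho_tri (hH (j + 1) (m / 2 - 1)) (hH (j + 1) (m / 2)) (hH j m)
      linarith
    · have h4 : (m - 1) / 2 = m / 2 := by omega
      rw [if_neg (by omega)]
      rw [h4] at h1 t1 ⊢
      linarith

end tree

end

end Vale.Agent.P141.H784
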