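import Vale.Agent.P141.H784.BMst

/-!
# P141, line (A): pairs of a low cell and a cell near a high one

`g` a tree of means, `h` a height, bad cells = inside or equal to a maximal cell with `2 h < g`.

* `pair_sum` : `∑ 2^k ∑ (p low) ∑ (q near p) Rb k q * g k p ≤ (2 J + 1)^2 * 2^N * g N M`.

The mass of a maximal high cell is more than `2 h 2^j`, these cells are disjoint: no logarithm.
-/

namespace Vale.Agent.P141.H784

open Finset
open Vale.Agent.P141.PL (iv mem_iv card_iv ix ix_ix)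
open Vale.Agent.P141.H652 (in_left in_right)

noncomputable section

/-- inside or equal to a cell of height more than `2 h` -/
def bad (N : ℕ) (M : ℤ) (g : ℕ → ℤ → ℝ) (h : ℝ) (k : ℕ) (q : ℤ) : Prop :=
  q ∈ iv (N - k) M ∧ ∃ i ≤ N - k, 2 * h < g (k + i) (q / 2 ^ i)

section pairs

variable {N : ℕ} {M : ℤ} {g : ℕ → ℤ → ℝ} {h : ℝ}

instance (k : ℕ) (q : ℤ) : Decidable (bad N M g h k q) := Classical.dec _

theorem bad_top (q : ℤ) : bad N M g h N q ↔ (q ∈ iv 0 M ∧ 2 * h < g N q) := by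
  unfold bad
  rw [Nat.sub_self]
  constructor
  · rintro ⟨h1, i, hi, h2⟩
    have e : i = 0 := by omega
    subst e
    exact ⟨h1, by simpa using h2⟩
  · rintro ⟨h1, h2⟩
    exact ⟨h1, 0, le_rfl, by simpa using h2⟩

theorem iv_half {k : ℕ} (hk : k < N) {q : ℤ} :
    q / 2 ∈ iv (N - (k + 1)) M ↔ q ∈ iv (N - k) M := by
  rcases Int.emod_two_eq_zero_or_one q with e | e
  · have e2 : 2 * (q / 2) = q := by omega
    rw [← in_left hk, e2]
  · have e2 : 2 * (q / 2) + 1 = q := by omega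
    rw [← in_right hk, e2]

theorem bad_step {k : ℕ} (hk : k < N) (q : ℤ) : bad N M g h k q ↔
    (bad N M g h (k + 1) (q / 2) ∨ (q ∈ iv (N - k) M ∧ 2 * h < g k q)) := by
  constructor
  · rintro ⟨h1, i, hi, h2⟩
    rcases Nat.eq_zero_or_pos i with e | e
    · subst e
      right
      exact ⟨h1, by simpa using h2⟩
    · left
      obtain ⟨j, rfl⟩ : ∃ j, i = j + 1 := ⟨i - 1, by omega⟩
      refine ⟨(iv_half hk).2 h1, j, by omega, ?_⟩
      rw [Int.ediv_ediv_of_nonneg (by norm_num), show k + 1 + j = k + (j + 1) by ring,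
        show (2 : ℤ) * 2 ^ j = 2 ^ (j + 1) by rw [pow_succ]; ring]
      exact h2
  · rintro (⟨h1, i, hi, h2⟩ | ⟨h1, h2⟩)
    · refine ⟨(iv_half hk).1 h1, i + 1, by omega, ?_⟩
      rw [Int.ediv_ediv_of_nonneg (by norm_num), show k + 1 + i = k + (i + 1) by ring,
        show (2 : ℤ) * 2 ^ i = 2 ^ (i + 1) by rw [pow_succ]; ring] at h2
      exact h2
    · exact ⟨h1, 0, by omega, by simpa using h2⟩

theorem bad_in {k : ℕ} {q : ℤ} (hq : bad N M g h k q) : q ∈ iv (N - k) M := hq.1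

theorem bad_child {k : ℕ} (hk : k < N) {q : ℤ} (hq : bad N M g h (k + 1) (q / 2)) :
    bad N M g h k q := (bad_step hk q).2 (Or.inl hq)

theorem bad_down {k : ℕ} : ∀ i, k + i ≤ N → ∀ p : ℤ, bad N M g h (k + i) (p / 2 ^ i) →
    bad N M g h k p := by
  intro i
  induction i generalizing k with
  | zero => intro _ p hp; simpa using hp
  | succ i ih =>
    intro hi p hp
    refine bad_child (by omega) (ih (k := k + 1) (by omega) (p / 2) ?_)
    rw [Int.ediv_ediv_of_nonneg (by norm_num), show k + 1 + i = k + (i + 1) by ring,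
      show (2 : ℤ) * 2 ^ i = 2 ^ (i + 1) by rw [pow_succ]; ring]
    exact hp

/-- the maximal high cells -/
def tz (N : ℕ) (M : ℤ) (g : ℕ → ℤ → ℝ) (h : ℝ) (k : ℕ) (q : ℤ) : Prop :=
  2 * h < g k q ∧ (k < N → ¬ bad N M g h (k + 1) (q / 2))

instance (k : ℕ) (q : ℤ) : Decidable (tz N M g h k q) := Classical.dec _

theorem tz_bad {k : ℕ} {q : ℤ} (hq : q ∈ iv (N - k) M) (h1 : tz N M g h k q) :
    bad N M g h k q := ⟨hq, 0, by omega, by simpa using h1.1⟩

/-- the maximal high cells of one scale -/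
def T0 (N : ℕ) (M : ℤ) (g : ℕ → ℤ → ℝ) (h : ℝ) (k : ℕ) : Finset ℤ :=
  (iv (N - k) M).filter (fun q => tz N M g h k q)

/-- the good cells of one scale -/
def Gs (N : ℕ) (M : ℤ) (g : ℕ → ℤ → ℝ) (h : ℝ) (k : ℕ) : Finset ℤ :=
  (iv (N - k) M).filter (fun q => ¬ bad N M g h k q)

/-- children of the good cells -/
theorem good_split {k : ℕ} (hk : k < N) (F : ℤ → ℝ) :
    ∑ Q ∈ Gs N M g h (k + 1), (F (2 * Q) + F (2 * Q + 1)) =
      ∑ q ∈ Gs N M g h k, F q + ∑ q ∈ T0 N M g h k, F q := by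
  have e1 : ∑ Q ∈ Gs N M g h (k + 1), (F (2 * Q) + F (2 * Q + 1)) =
      ∑ q ∈ iv (N - k) M, if ¬ bad N M g h (k + 1) (q / 2) then F q else 0 := by
    rw [Gs, sum_filter, show N - k = (N - (k + 1)) + 1 by omega, sum_two]
    refine sum_congr rfl fun Q _ => ?_
    have a1 : 2 * Q / 2 = Q := by omega
    have a2 : (2 * Q + 1) / 2 = Q := by omega
    rw [a1, a2]
    split_ifs <;> ring
  rw [e1, Gs, T0, sum_filter, sum_filter, ← sum_add_distrib]
  refine sum_congr rfl fun q hq => ?_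
  have hs := bad_step (g := g) (h := h) (M := M) hk q
  by_cases b1 : bad N M g h (k + 1) (q / 2)
  · have b2 : bad N M g h k q := hs.2 (Or.inl b1)
    have b3 : ¬ tz N M g h k q := fun h3 => h3.2 hk b1
    rw [if_neg (not_not.2 b1), if_neg (not_not.2 b2), if_neg b3, add_zero]
  · by_cases b2 : 2 * h < g k q
    · have b3 : bad N M g h k q := hs.2 (Or.inr ⟨hq, b2⟩)
      have b4 : tz N M g h k q := ⟨b2, fun _ => b1⟩
      rw [if_pos b1, if_neg (not_not.2 b3), if_pos b4, zero_add]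
    · have b3 : ¬ bad N M g h k q := by
        intro h3
        rcases hs.1 h3 with h4 | h4
        · exact b1 h4
        · exact b2 h4.2
      have b4 : ¬ tz N M g h k q := fun h3 => b2 h3.1
      rw [if_pos b1, if_pos b3, if_neg b4, add_zero]

/-- **the masses of the maximal high cells** -/
theorem tz_mass (hm : ∀ k < N, ∀ q, 2 * g (k + 1) q = g k (2 * q) + g k (2 * q + 1)) :
    ∀ n ≤ N, 2 ^ (N - n) * ∑ q ∈ Gs N M g h (N - n), g (N - n) q +
      ∑ j ∈ range (n + 1), (2 : ℝ) ^ (N - j) * ∑ q ∈ T0 N M g h (N - j), g (N - j) q =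
      2 ^ N * g N M := by
  intro n
  induction n with
  | zero =>
    intro _
    have e1 : iv 0 M = {M} := by
      ext x; rw [mem_iv']; simp only [pow_zero, one_mul, mem_singleton]; omega
    have e2 : iv (N - N) M = {M} := by rw [Nat.sub_self, e1]
    rw [range_one, sum_singleton, Nat.sub_zero, Gs, T0, e2, ← mul_add, sum_filter, sum_filter,
      sum_singleton, sum_singleton]
    by_cases b : 2 * h < g N M
    · have b1 : bad N M g h N M := (bad_top M).2 ⟨by rw [e1]; exact mem_singleton_self M, b⟩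
      have b2 : tz N M g h N M := ⟨b, fun h => absurd h (lt_irrefl _)⟩
      rw [if_neg (not_not.2 b1), if_pos b2, zero_add]
    · have b1 : ¬ bad N M g h N M := fun h3 => b ((bad_top M).1 h3).2
      have b2 : ¬ tz N M g h N M := fun h3 => b h3.1
      rw [if_pos b1, if_neg b2, add_zero]
  | succ n ih =>
    intro hn
    have h1 := ih (by omega)
    obtain ⟨k, hk⟩ : ∃ k, k = N - (n + 1) := ⟨_, rfl⟩
    have e1 : N - n = k + 1 := by omega
    rw [sum_range_succ, ← hk]
    rw [e1] at h1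
    have h2 := good_split (N := N) (M := M) (g := g) (h := h) (k := k) (by omega) (g k)
    have e2 : ∑ Q ∈ Gs N M g h (k + 1), (g k (2 * Q) + g k (2 * Q + 1)) =
        2 * ∑ Q ∈ Gs N M g h (k + 1), g (k + 1) Q := by
      rw [mul_sum]
      exact sum_congr rfl fun Q _ => (hm k (by omega) Q).symm
    rw [e2] at h2
    have e3 : (2 : ℝ) ^ (k + 1) = 2 ^ k * 2 := pow_succ _ _
    rw [e3, mul_assoc, h2] at h1
    linarith

theorem tz_count (hg : ∀ k q, 0 ≤ g k q)
    (hm : ∀ k < N, ∀ q, 2 * g (k + 1) q = g k (2 * q) + g k (2 * q + 1)) :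
    2 * h * ∑ k ∈ range (N + 1), (2 : ℝ) ^ k * (T0 N M g h k).card ≤ 2 ^ N * g N M := by
  have h1 := tz_mass (M := M) (h := h) hm N le_rfl
  have e1 : ∑ j ∈ range (N + 1), (2 : ℝ) ^ (N - j) * ∑ q ∈ T0 N M g h (N - j), g (N - j) q =
      ∑ k ∈ range (N + 1), (2 : ℝ) ^ k * ∑ q ∈ T0 N M g h k, g k q := by
    have e2 := sum_range_reflect (fun k => (2 : ℝ) ^ k * ∑ q ∈ T0 N M g h k, g k q) (N + 1)
    rw [← e2]
    refine sum_congr rfl fun j _ => ?_
    have e3 : N + 1 - 1 - j = N - j := by omega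
    rw [e3]
  rw [e1] at h1
  have h2 : (0 : ℝ) ≤ 2 ^ (N - N) * ∑ q ∈ Gs N M g h (N - N), g (N - N) q :=
    mul_nonneg (by positivity) (sum_nonneg fun q _ => hg _ q)
  have h3 : 2 * h * ∑ k ∈ range (N + 1), (2 : ℝ) ^ k * (T0 N M g h k).card ≤
      ∑ k ∈ range (N + 1), (2 : ℝ) ^ k * ∑ q ∈ T0 N M g h k, g k q := by
    rw [mul_sum]
    refine sum_le_sum fun k _ => ?_
    have h4 : (T0 N M g h k).card • (2 * h) ≤ ∑ q ∈ T0 N M g h k, g k q :=
      card_nsmul_le_sum _ _ _ fun q hq => (mem_filter.1 hq).2.1.le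
    rw [nsmul_eq_mul] at h4
    have h5 := mul_le_mul_of_nonneg_left h4 (show (0 : ℝ) ≤ 2 ^ k by positivity)
    linarith
  linarith

theorem Rb_out : ∀ k ≤ N, ∀ q, q ∉ iv (N - k) M → Rb (bad N M g h) k q = 0 := by
  intro k
  induction k with
  | zero => intro _ q hq; rw [Rb, if_neg fun h3 => hq (bad_in h3)]
  | succ k ih =>
    intro hk q hq
    rw [Rb, if_neg fun h3 => hq (bad_in h3), ih (by omega) _ fun h1 => hq ((in_left hk).1 h1),
      ih (by omega) _ fun h1 => hq ((in_right hk).1 h1)]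
    norm_num

/-- **the walk on the good cells** -/
theorem Rb_good : ∀ R ≤ N, ∑ k ∈ range (R + 1), (2 : ℝ) ^ k *
      ∑ q ∈ Gs N M g h k, Rb (bad N M g h) k q +
      2 * (2 ^ R * ∑ q ∈ Gs N M g h R, Rb (bad N M g h) R q) =
    2 * ∑ k ∈ range R, (2 : ℝ) ^ k * (T0 N M g h k).card := by
  intro R
  induction R with
  | zero =>
    intro _
    have e : ∑ q ∈ Gs N M g h 0, Rb (bad N M g h) 0 q = 0 := by
      refine sum_eq_zero fun q hq => ?_
      rw [Rb, if_neg (mem_filter.1 hq).2]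
    simp [e]
  | succ R ih =>
    intro hR
    have h1 := ih (by omega)
    have h2 := good_split (N := N) (M := M) (g := g) (h := h) (k := R) (by omega) (Rb (bad N M g h) R)
    have e1 : ∑ Q ∈ Gs N M g h (R + 1), Rb (bad N M g h) (R + 1) Q =
        (1 / 3) * ∑ Q ∈ Gs N M g h (R + 1), (Rb (bad N M g h) R (2 * Q) +
          Rb (bad N M g h) R (2 * Q + 1)) := by
      rw [mul_sum]
      refine sum_congr rfl fun Q hQ => ?_
      rw [Rb, if_neg (mem_filter.1 hQ).2]
    have e2 : ∑ q ∈ T0 N M g h R, Rb (bad N M g h) R q = (T0 N M g h R).card := by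
      have h3 : ∀ q ∈ T0 N M g h R, Rb (bad N M g h) R q = 1 := by
        intro q hq
        have h4 := mem_filter.1 hq
        exact Rb_bad (tz_bad h4.1 h4.2)
      rw [sum_congr rfl h3, sum_const, nsmul_eq_mul, mul_one]
    rw [h2, e2] at e1
    have s1 := sum_range_succ (fun k => (2 : ℝ) ^ k * ∑ q ∈ Gs N M g h k, Rb (bad N M g h) k q)
      (R + 1)
    have s2 := sum_range_succ (fun k => (2 : ℝ) ^ k * ((T0 N M g h k).card : ℝ)) R
    have e3 : (2 : ℝ) ^ (R + 1) = 2 ^ R * 2 := pow_succ _ _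
    rw [s1, s2, e1, e3]
    linarith

/-- the maximal high cell above a bad one -/
theorem anc : ∀ n k, k + n = N → ∀ q, bad N M g h k q →
    ∃ i ≤ n, tz N M g h (k + i) (q / 2 ^ i) := by
  intro n
  induction n with
  | zero =>
    intro k hk q hq
    have e : k = N := by omega
    subst e
    refine ⟨0, le_rfl, ?_⟩
    have h1 := ((bad_top q).1 hq).2
    refine ⟨by simpa using h1, fun h3 => ?_⟩
    omega
  | succ n ih =>
    intro k hk q hq
    by_cases b : bad N M g h (k + 1) (q / 2)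
    · obtain ⟨i, hi, h1⟩ := ih (k + 1) (by omega) (q / 2) b
      refine ⟨i + 1, by omega, ?_⟩
      rw [Int.ediv_ediv_of_nonneg (by norm_num), show k + 1 + i = k + (i + 1) by ring,
        show (2 : ℤ) * 2 ^ i = 2 ^ (i + 1) by rw [pow_succ]; ring] at h1
      exact h1
    · refine ⟨0, by omega, ?_⟩
      rcases (bad_step (by omega) q).1 hq with h3 | h3
      · exact absurd h3 b
      · refine ⟨by simpa using h3.2, fun _ => ?_⟩
        simpa using b

/-- bad, near a good one -/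
def nb (N : ℕ) (M : ℤ) (g : ℕ → ℤ → ℝ) (h : ℝ) (J k : ℕ) (q : ℤ) : Prop :=
  bad N M g h k q ∧ ∃ p, ¬ bad N M g h k p ∧ p ∈ iv (N - k) M ∧ |p - q| ≤ J

instance (J k : ℕ) (q : ℤ) : Decidable (nb N M g h J k q) := Classical.dec _

/-- the bad cells near a good one -/
def nu (N : ℕ) (M : ℤ) (g : ℕ → ℤ → ℝ) (h : ℝ) (J k : ℕ) : Finset ℤ :=
  (iv (N - k) M).filter (fun q => nb N M g h J k q)

theorem nu_card (J : ℕ) {k : ℕ} (hk : k ≤ N) :
    ((nu N M g h J k).card : ℝ) ≤ 2 * J * ∑ j ∈ Icc k N, ((T0 N M g h j).card : ℝ) := by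
  have hsub : nu N M g h J k ⊆ (Icc k N).biUnion (fun j => (T0 N M g h j).biUnion (fun z =>
      Ico (2 ^ (j - k) * z) (2 ^ (j - k) * z + J) ∪
        Ico (2 ^ (j - k) * z + 2 ^ (j - k) - J) (2 ^ (j - k) * z + 2 ^ (j - k)))) := by
    intro q hq
    rw [nu, mem_filter] at hq
    obtain ⟨hq1, hq2, p, hp1, hp2, hp3⟩ := hq
    obtain ⟨i, hi, h1⟩ := anc (N - k) k (by omega) q hq2
    have e1 : q ∈ iv i (q / 2 ^ i) := mem_iv.2 rfl
    rw [mem_iv'] at e1
    have e2 : q / 2 ^ i ∈ iv (N - (k + i)) M := by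
      rw [mem_iv] at hq1 ⊢
      show ix (N - (k + i)) (ix i q) = M
      rw [ix_ix, show i + (N - (k + i)) = N - k by omega]
      exact hq1
    have h2 : p / 2 ^ i ≠ q / 2 ^ i := by
      intro h3
      refine hp1 (bad_down i (by omega) p ?_)
      rw [h3]
      exact tz_bad e2 h1
    have h3 : ¬ (2 ^ i * (q / 2 ^ i) ≤ p ∧ p < 2 ^ i * (q / 2 ^ i) + 2 ^ i) := by
      intro h4
      have h5 : p ∈ iv i (q / 2 ^ i) := mem_iv'.2 h4
      exact h2 (mem_iv.1 h5)
    rw [mem_biUnion]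
    refine ⟨k + i, by rw [mem_Icc]; omega, ?_⟩
    rw [mem_biUnion]
    refine ⟨q / 2 ^ i, mem_filter.2 ⟨e2, h1⟩, ?_⟩
    rw [show k + i - k = i by omega, mem_union, mem_Ico, mem_Ico]
    rw [abs_le] at hp3
    generalize (2 : ℤ) ^ i = P at *
    generalize P * (q / P) = W at *
    omega
  have h1 : ((nu N M g h J k).card : ℝ) ≤ ((∑ j ∈ Icc k N, ∑ _z ∈ T0 N M g h j, 2 * J : ℕ) : ℝ) := by
    have h2 := (card_le_card hsub).trans (card_biUnion_le.trans (sum_le_sum fun j _ =>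
      card_biUnion_le.trans (sum_le_sum (g := fun _ => 2 * J) fun z _ => ?_)))
    · exact_mod_cast h2
    · refine (card_union_le _ _).trans ?_
      rw [Int.card_Ico, Int.card_Ico]
      omega
  refine h1.trans (le_of_eq ?_)
  push_cast
  rw [mul_sum]
  refine sum_congr rfl fun j _ => ?_
  rw [sum_const, nsmul_eq_mul]
  ring

theorem nu_sum (J : ℕ) : ∑ k ∈ range (N + 1), (2 : ℝ) ^ k * (nu N M g h J k).card ≤
    4 * J * ∑ k ∈ range (N + 1), (2 : ℝ) ^ k * (T0 N M g h k).card := by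
  have h1 : ∀ k ∈ range (N + 1), (2 : ℝ) ^ k * (nu N M g h J k).card ≤
      ∑ j ∈ range (N + 1), if k ≤ j then 2 ^ k * (2 * J * ((T0 N M g h j).card : ℝ)) else 0 := by
    intro k hk
    rw [mem_range] at hk
    have h2 := mul_le_mul_of_nonneg_left (nu_card (N := N) (M := M) (g := g) (h := h) J
      (k := k) (by omega)) (show (0 : ℝ) ≤ 2 ^ k by positivity)
    refine h2.trans (le_of_eq ?_)
    rw [← sum_filter, mul_sum, mul_sum]
    refine sum_congr ?_ fun j _ => rfl
    ext j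
    rw [mem_Icc, mem_filter, mem_range]
    omega
  refine (sum_le_sum h1).trans ?_
  rw [sum_comm, mul_sum]
  refine sum_le_sum fun j hj => ?_
  rw [← sum_filter, ← sum_mul]
  have h3 : ∑ k ∈ (range (N + 1)).filter (fun k => k ≤ j), (2 : ℝ) ^ k ≤ 2 ^ (j + 1) := by
    refine (sum_le_sum_of_subset_of_nonneg (fun k hk => ?_) fun _ _ _ => by positivity).trans
      (sum_pow_two (j + 1))
    rw [mem_filter] at hk
    rw [mem_range]
    omega
  have h4 := mul_le_mul_of_nonneg_right h3 (show (0 : ℝ) ≤ 2 * J * ((T0 N M g h j).card : ℝ) by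
    positivity)
  refine h4.trans (le_of_eq ?_)
  rw [pow_succ]
  ring

/-- **the pairs of a low cell and a cell near a high one** -/
theorem pair_sum (hg : ∀ k q, 0 ≤ g k q)
    (hm : ∀ k < N, ∀ q, 2 * g (k + 1) q = g k (2 * q) + g k (2 * q + 1)) (hh : 0 ≤ h)
    {al : ℕ → ℤ → Prop} [∀ k q, Decidable (al k q)]
    (hal : ∀ k ≤ N, ∀ p ∈ iv (N - k) M, al k p → g k p ≤ h ∧ ¬ bad N M g h k p) (J : ℕ) :
    ∑ k ∈ range (N + 1), (2 : ℝ) ^ k * ∑ p ∈ (iv (N - k) M).filter (al k),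
      (∑ q ∈ Icc (p - (J : ℤ)) (p + J), Rb (bad N M g h) k q) * g k p ≤
    (2 * J + 1) ^ 2 * (2 ^ N * g N M) := by
  have hR0 : ∀ k q, 0 ≤ Rb (bad N M g h) k q := Rb_nonneg
  have hT0 : ∀ k, (0 : ℝ) ≤ ((T0 N M g h k).card : ℝ) := fun k => Nat.cast_nonneg _
  -- one scale
  have h1 : ∀ k ∈ range (N + 1), (2 : ℝ) ^ k * ∑ p ∈ (iv (N - k) M).filter (al k),
      (∑ q ∈ Icc (p - (J : ℤ)) (p + J), Rb (bad N M g h) k q) * g k p ≤
      h * (2 * J + 1) * (2 ^ k * ∑ q ∈ Gs N M g h k, Rb (bad N M g h) k q +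
        2 ^ k * (nu N M g h J k).card) := by
    intro k hk
    rw [mem_range] at hk
    have a1 : ∑ p ∈ (iv (N - k) M).filter (al k),
        (∑ q ∈ Icc (p - (J : ℤ)) (p + J), Rb (bad N M g h) k q) * g k p ≤
        h * ∑ p ∈ Gs N M g h k, ∑ q ∈ Icc (p - (J : ℤ)) (p + J), Rb (bad N M g h) k q := by
      have a2 : ∑ p ∈ (iv (N - k) M).filter (al k),
          (∑ q ∈ Icc (p - (J : ℤ)) (p + J), Rb (bad N M g h) k q) * g k p ≤
          ∑ p ∈ (iv (N - k) M).filter (al k),
          h * (∑ q ∈ Icc (p - (J : ℤ)) (p + J), Rb (bad N M g h) k q) := by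
        refine sum_le_sum fun p hp => ?_
        have hp' := mem_filter.1 hp
        have h3 := (hal k (by omega) p hp'.1 hp'.2).1
        rw [mul_comm h]
        exact mul_le_mul_of_nonneg_left h3 (sum_nonneg fun q _ => hR0 k q)
      refine a2.trans ?_
      rw [← mul_sum]
      refine mul_le_mul_of_nonneg_left (sum_le_sum_of_subset_of_nonneg (fun p hp => ?_)
        fun p _ _ => sum_nonneg fun q _ => hR0 k q) hh
      have hp' := mem_filter.1 hp
      exact mem_filter.2 ⟨hp'.1, (hal k (by omega) p hp'.1 hp'.2).2⟩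
    have a3 : ∑ p ∈ Gs N M g h k, ∑ q ∈ Icc (p - (J : ℤ)) (p + J), Rb (bad N M g h) k q ≤
        (2 * J + 1) * (∑ q ∈ Gs N M g h k, Rb (bad N M g h) k q + (nu N M g h J k).card) := by
      -- the values which are seen
      have b1 : ∀ p ∈ Gs N M g h k, ∑ q ∈ Icc (p - (J : ℤ)) (p + J), Rb (bad N M g h) k q =
          ∑ q ∈ Icc (p - (J : ℤ)) (p + J),
            (if q ∈ Gs N M g h k ∪ nu N M g h J k then Rb (bad N M g h) k q else 0) := by
        intro p hp
        refine sum_congr rfl fun q hq => ?_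
        split_ifs with h3
        · rfl
        · rw [mem_union, not_or] at h3
          by_cases hq1 : q ∈ iv (N - k) M
          · by_cases hq2 : bad N M g h k q
            · exfalso
              apply h3.2
              have hp' := mem_filter.1 hp
              rw [mem_Icc] at hq
              exact mem_filter.2 ⟨hq1, hq2, p, hp'.2, hp'.1, by rw [abs_le]; omega⟩
            · exact absurd (mem_filter.2 ⟨hq1, hq2⟩) h3.1
          · exact Rb_out k (by omega) q hq1
      rw [sum_congr rfl b1]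
      refine (sum_win (Gs N M g h k) (Gs N M g h k ∪ nu N M g h J k) J
        (f := fun q => if q ∈ Gs N M g h k ∪ nu N M g h J k then Rb (bad N M g h) k q else 0)
        (fun q => by
          show (0 : ℝ) ≤ if q ∈ Gs N M g h k ∪ nu N M g h J k then Rb (bad N M g h) k q else 0
          split_ifs
          · exact hR0 k q
          · exact le_rfl) (fun q hq => if_neg hq)).trans ?_
      refine mul_le_mul_of_nonneg_left ?_ (by positivity)
      have b2 : ∑ q ∈ Gs N M g h k ∪ nu N M g h J k,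
          (if q ∈ Gs N M g h k ∪ nu N M g h J k then Rb (bad N M g h) k q else 0) =
          ∑ q ∈ Gs N M g h k ∪ nu N M g h J k, Rb (bad N M g h) k q :=
        sum_congr rfl fun q hq => if_pos hq
      rw [b2]
      have b3 := sum_union_inter (s₁ := Gs N M g h k) (s₂ := nu N M g h J k)
        (f := Rb (bad N M g h) k)
      have b4 : 0 ≤ ∑ q ∈ Gs N M g h k ∩ nu N M g h J k, Rb (bad N M g h) k q :=
        sum_nonneg fun q _ => hR0 k q
      have b5 : ∑ q ∈ nu N M g h J k, Rb (bad N M g h) k q ≤ (nu N M g h J k).card := by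
        refine (sum_le_sum fun q _ => Rb_le_one k q).trans (le_of_eq ?_)
        rw [sum_const, nsmul_eq_mul, mul_one]
      linarith
    have a4 := mul_le_mul_of_nonneg_left (a1.trans (mul_le_mul_of_nonneg_left a3 hh))
      (show (0 : ℝ) ≤ 2 ^ k by positivity)
    refine a4.trans (le_of_eq ?_)
    ring
  refine (sum_le_sum h1).trans ?_
  rw [← mul_sum, sum_add_distrib]
  have h2 := Rb_good (M := M) (g := g) (h := h) N le_rfl
  have h3 := nu_sum (N := N) (M := M) (g := g) (h := h) J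
  have h4 := tz_count (M := M) (h := h) hg hm
  have h5 : (0 : ℝ) ≤ 2 * (2 ^ N * ∑ q ∈ Gs N M g h N, Rb (bad N M g h) N q) := by
    have : 0 ≤ ∑ q ∈ Gs N M g h N, Rb (bad N M g h) N q := sum_nonneg fun q _ => hR0 N q
    positivity
  have h6 : ∑ k ∈ range N, (2 : ℝ) ^ k * (T0 N M g h k).card ≤
      ∑ k ∈ range (N + 1), (2 : ℝ) ^ k * (T0 N M g h k).card := by
    rw [sum_range_succ]
    have := mul_nonneg (show (0 : ℝ) ≤ 2 ^ N by positivity) (hT0 N)
    linarith
  set B := ∑ k ∈ range (N + 1), (2 : ℝ) ^ k * ((T0 N M g h k).card : ℝ) with hB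
  have h7 : ∑ k ∈ range (N + 1), (2 : ℝ) ^ k * ∑ q ∈ Gs N M g h k, Rb (bad N M g h) k q +
      ∑ k ∈ range (N + 1), (2 : ℝ) ^ k * ((nu N M g h J k).card : ℝ) ≤ (2 + 4 * J) * B := by
    linarith
  have h8 := mul_le_mul_of_nonneg_left h7 (show 0 ≤ h * (2 * (J : ℝ) + 1) by positivity)
  have h9 := mul_le_mul_of_nonneg_left h4 (show 0 ≤ (2 * (J : ℝ) + 1) ^ 2 by positivity)
  refine h8.trans (le_trans (le_of_eq ?_) h9)
  ring

end pairs

end

end Vale.Agent.P141.H784
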