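import Vale.Agent.P141.H784.BMact
import Vale.Agent.P141.H652.NumB
import Vale.Agent.P141.H516.StopFib
import Vale.Agent.P141.H676.MassG
import Vale.Agent.P141.H305.TopM

/-!
# P141, line (A), (TI): the payers of the moving pair on the slot `b`, class data with fibres

* `alU`, `actU` : live cells and active rows of class data;
* `bS_rows`, `bS_off` : rows of the cut family;
* `card_actU` : number of active rows;
* `pay_ah_cls`, `pay_eb_cls` : the payers, number `payN`;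
* `payN_le` : `payN ≤ C * (1 + log (r / t)) * (s * 8 ^ K)`.
-/

namespace Vale.Agent.P141.H784

set_option linter.unusedSectionVars false

open Matrix Finset
open Vale.Agent.P141.PL (Pt iv mem_iv card_iv ix ix_ix cx)
open Vale.Agent.P141.PL.H315 (Tri A2 avg)
open Vale.Agent.P141.H420 (Tr quad_nonneg)
open Vale.Agent.P141.H103 (GW)
open Vale.Agent.P141.H48 (US ES BSl sst)
open Vale.Agent.P141.H305 (Cls ClsM kapM)
open Vale.Agent.P141.H677 (GT KT GT_trace GT_psd tr_T kF fb)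
open Vale.Agent.P141.H677.Sk (lam1)
open Vale.Agent.P141.H401 (mb cb FibU)
open Vale.Agent.P141.H652 (WT ET ET_psd ah eb bS_le)
open Vale.Agent.P141.H769 (iv_pt)

noncomputable section

open scoped Classical

variable {ι : Type} [Fintype ι] [DecidableEq ι] {p : H401.Num} {n : ℕ} {e cP : ℝ}
  {F3 : ℕ → Pt → ℝ} {Q3 : ℕ → Pt → Prop} {K : ℕ} {x : Pt} {s r P κ : ℝ} {U : Tri}
  {g : ℤ → ℤ → ℝ} {u v : ℤ → ℤ → ι → ℝ}

/-- live cells of `x2` above a row -/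
def alU (p : H401.Num) (U : Tri) (K : ℕ) (x1 : ℤ) (k : ℕ) (q : ℤ) : Prop :=
  ∃ y ∈ iv k q, ¬ sst p.Lm U.1 K k x1 y

/-- active rows -/
def actU (K : ℕ) (x : Pt) (u : ℤ → ℤ → ι → ℝ) : Finset ℤ :=
  (iv K (ix K x.1)).filter (fun z => ∃ y, u z y ≠ 0)

theorem actU_sub : actU K x u ⊆ iv K (ix K x.1) := filter_subset _ _

/-- the rows of the cut family at its own time -/
theorem bS_rows (hB : BSl n e cP F3 Q3) (hK : K ≤ n) {k : ℕ} (hk : k ≤ K) (x0 x1 m : ℤ)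
    (w : ι → ℝ) :
    ∑ y ∈ iv k m, (H652.bS p s r U K u F3 Q3 x0 k x1 y ⬝ᵥ w) ^ 2 ≤
      ∑ y ∈ iv k m, kF p.Lm U.1 K F3 k (x0, x1, y) ^ 2 * (u x1 y ⬝ᵥ w) ^ 2 := by
  rw [bS_le hk]
  refine (H816.row_tt (K := K) (f := fun j y => (cb p s r U K u F3 Q3 x0 j x1 y ⬝ᵥ w) ^ 2)
    (g := fun j y => (mb p U K u F3 x0 j x1 y ⬝ᵥ w) ^ 2) ?_ (fun _ => sq_nonneg _)
    (fun k hk m => H816.rowb_one p s r U hK u hB x0 x1 w k hk m) k hk k (Or.inl rfl) m).trans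
      (le_of_eq ?_)
  · intro y
    show (cb p s r U K u F3 Q3 x0 0 x1 y ⬝ᵥ w) ^ 2 = 0
    rw [H816.cb_zero, zero_dotProduct, zero_pow two_ne_zero]
  · refine sum_congr rfl fun y _ => ?_
    show ((kF p.Lm U.1 K F3 k (x0, x1, y) • u x1 y) ⬝ᵥ w) ^ 2 = _
    rw [smul_dotProduct, smul_eq_mul, mul_pow]

/-- where the killed input vanishes on a row piece the cut family vanishes -/
theorem bS_off (hB : BSl n e cP F3 Q3) (hK : K ≤ n) {k : ℕ} (hk : k ≤ K) (x0 x1 m : ℤ)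
    (h : ∀ y ∈ iv k m, kF p.Lm U.1 K F3 k (x0, x1, y) = 0 ∨ u x1 y = 0) :
    ∀ y ∈ iv k m, H652.bS p s r U K u F3 Q3 x0 k x1 y = 0 := by
  intro y hy
  set b := H652.bS p s r U K u F3 Q3 x0 k x1 y with hb
  have h1 := bS_rows (p := p) (s := s) (r := r) (U := U) (u := u) hB hK hk x0 x1 m b
  have h2 : ∑ y ∈ iv k m, kF p.Lm U.1 K F3 k (x0, x1, y) ^ 2 * (u x1 y ⬝ᵥ b) ^ 2 = 0 := by
    refine sum_eq_zero fun y hy => ?_
    rcases h y hy with h3 | h3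
    · rw [h3]; ring
    · rw [h3, zero_dotProduct]; ring
  rw [h2] at h1
  have h3 : (b ⬝ᵥ b) ^ 2 ≤ 0 :=
    (single_le_sum (f := fun y => (H652.bS p s r U K u F3 Q3 x0 k x1 y ⬝ᵥ b) ^ 2)
      (fun y _ => sq_nonneg _) hy).trans h1
  have h4 : b ⬝ᵥ b = 0 := by
    have := sq_nonneg (b ⬝ᵥ b)
    exact pow_eq_zero_iff (two_ne_zero) |>.1 (le_antisymm h3 this)
  exact dotProduct_self_eq_zero.1 h4

/-- **The number of active rows.** -/
theorem card_actU (hκ : 0 < κ) (hc : ClsM K x s r P κ U g u v) :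
    ((actU K x u).card : ℝ) * κ ≤ 2 ^ K * s := by
  have h1 := hc.U_u2
  unfold A2 avg at h1
  rw [iv_pt, iv_pt, card_product, card_iv, card_iv, sum_product] at h1
  have h2 : ∑ z ∈ iv K (ix K x.1), ∑ y ∈ iv K (ix K x.2.1), U.1 (z, y) ^ 2 ≤
      2 ^ K * 2 ^ K * s := by
    have h3 := (inv_mul_le_iff₀ (show (0 : ℝ) < ((2 ^ K * 2 ^ K : ℕ) : ℝ) by positivity)).1 h1
    push_cast at h3
    exact h3
  have h3 : ∀ z ∈ actU K x u, 2 ^ K * κ ≤ ∑ y ∈ iv K (ix K x.2.1), U.1 (z, y) ^ 2 := by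
    intro z hz
    obtain ⟨h4, y0, h5⟩ := mem_filter.1 hz
    have h6 : ∀ y ∈ iv K (ix K x.2.1), κ ≤ U.1 (z, y) ^ 2 := by
      rcases hc.act z (by rw [iv_pt]; exact h4) with h7 | h7
      · intro y hy
        exact h7 y (by rw [iv_pt]; exact hy)
      · exact absurd (h7.1 y0) h5
    have h8 : (iv K (ix K x.2.1)).card • κ ≤ ∑ y ∈ iv K (ix K x.2.1), U.1 (z, y) ^ 2 :=
      card_nsmul_le_sum _ _ _ h6
    rw [card_iv, nsmul_eq_mul] at h8
    push_cast at h8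
    exact h8
  have h4 : (actU K x u).card • (2 ^ K * κ) ≤
      ∑ z ∈ actU K x u, ∑ y ∈ iv K (ix K x.2.1), U.1 (z, y) ^ 2 := card_nsmul_le_sum _ _ _ h3
  have h5 : ∑ z ∈ actU K x u, ∑ y ∈ iv K (ix K x.2.1), U.1 (z, y) ^ 2 ≤
      ∑ z ∈ iv K (ix K x.1), ∑ y ∈ iv K (ix K x.2.1), U.1 (z, y) ^ 2 :=
    sum_le_sum_of_subset_of_nonneg actU_sub fun z _ _ => sum_nonneg fun y _ => sq_nonneg _
  rw [nsmul_eq_mul] at h4
  have h6 : (0 : ℝ) < 2 ^ K := by positivity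
  nlinarith

theorem card_actU' : ((actU K x u).card : ℝ) ≤ 2 ^ K := by
  have h := card_le_card (actU_sub (K := K) (x := x) (u := u))
  rw [card_iv] at h
  exact_mod_cast h

/-- the number of the payers -/
def payN (p : H401.Num) (K : ℕ) (s r l κ : ℝ) (A : ℕ) : ℝ :=
  8 ^ K * (s * (2 + Real.log (1 + 4 * lam1 p s r / l) + 2 * A) +
    min 1 (s / κ) * (16 * lam1 p s r / 2 ^ A))

/-- the sum over the active rows -/
theorem sum_numB (ht : 0 < p.t) (hs : 0 < s) (hr : 1 ≤ r) {l : ℝ} (hl : 0 < l) (hκ : 0 < κ)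
    (hc : ClsM K x s r P κ U g u v) (A : ℕ) :
    2 ^ K * ∑ z ∈ actU K x u, numB l K (ix K x.2.1) (GT u z) (lam1 p s r) A ≤
      payN p K s r l κ A := by
  have hL : 0 < lam1 p s r := H401.lam1_pos ht hs hr
  have hlog : 0 ≤ Real.log (1 + 4 * lam1 p s r / l) :=
    Real.log_nonneg (by have := div_nonneg (mul_nonneg (by norm_num : (0 : ℝ) ≤ 4) hL.le) hl.le
                        linarith)
  have h1 : ∑ z ∈ actU K x u, (GT u z K (ix K x.2.1)).trace ≤ 2 ^ K * s :=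
    (sum_le_sum_of_subset_of_nonneg actU_sub fun z _ _ => (GT_psd u z K _).trace_nonneg).trans
      (H676.mass_GT hc.toCls)
  have h2 : ((actU K x u).card : ℝ) ≤ 2 ^ K * min 1 (s / κ) := by
    rcases le_total 1 (s / κ) with h3 | h3
    · rw [min_eq_left h3, mul_one]
      exact card_actU'
    · rw [min_eq_right h3, mul_div_assoc', le_div_iff₀ hκ]
      exact card_actU hκ hc
  have e1 : ∑ z ∈ actU K x u, numB l K (ix K x.2.1) (GT u z) (lam1 p s r) A =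
      2 ^ K * ((2 + Real.log (1 + 4 * lam1 p s r / l) + 2 * A) *
        ∑ z ∈ actU K x u, (GT u z K (ix K x.2.1)).trace +
        (actU K x u).card * (16 * lam1 p s r / 2 ^ A)) := by
    unfold numB
    rw [← mul_sum, sum_add_distrib, ← mul_sum, sum_const, nsmul_eq_mul]
  have hA : (0 : ℝ) ≤ 2 + Real.log (1 + 4 * lam1 p s r / l) + 2 * A := by positivity
  have hB : (0 : ℝ) ≤ 16 * lam1 p s r / 2 ^ A := by positivity
  have h3 := mul_le_mul_of_nonneg_left h1 hA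
  have h4 := mul_le_mul_of_nonneg_right h2 hB
  have h5 : (0 : ℝ) < 2 ^ K := by positivity
  rw [e1, payN]
  have e8 : (8 : ℝ) ^ K = 2 ^ K * (2 ^ K * 2 ^ K) := by
    rw [← mul_pow, ← mul_pow]; norm_num
  have h6 := mul_le_mul_of_nonneg_left (add_le_add h3 h4)
    (show (0 : ℝ) ≤ 2 ^ K * 2 ^ K by positivity)
  rw [e8]
  linarith

section pay

variable {l : ℝ} {o : ℤ}

/-- **The half differences on the side `b`, class data with fibres.** -/
theorem pay_ah_cls (hB : BSl n e cP F3 Q3) (he : 0 ≤ e) (hK : K ≤ n) (ht : 0 < p.t) (hs : 0 < s)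
    (hr : 1 ≤ r) (hκ : 0 < κ) (hc : ClsM K x s r P κ U g u v) (hU : FibU p K x s r U u)
    (hl : 0 < l) (ho : o = 1 ∨ o = -1) (X : Finset ℤ)
    {F : ℤ → ℤ → ℕ → ℤ → Matrix ι ι ℝ} {c : ℝ} (hg : 0 ≤ c)
    (hF : ∀ x0 ∈ X, ∀ x1 ∈ iv K (ix K x.1), ∀ k ∈ Icc 1 K, ∀ m, (F x0 x1 k m).PosSemidef)
    (hFa : ∀ x0 ∈ X, ∀ x1 ∈ iv K (ix K x.1), ∀ k ∈ Icc 1 K, ∀ m, ∀ w : ι → ℝ,
      w ⬝ᵥ F x0 x1 k m *ᵥ w ≤
      c * ((ah l K (ix K x.2.1) (KT l u x1) (o - 2) x0 x1 (k - 1) m *ᵥ w) ⬝ᵥ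
        (ah l K (ix K x.2.1) (KT l u x1) (o - 2) x0 x1 (k - 1) m *ᵥ w))) (A : ℕ) :
    ∑ x0 ∈ X, ∑ k ∈ Icc 1 K, GW K (ix K x.2.1) (ix K x.1) (ix K x.2.2) k (o - 2 - ix k x0)
      (fun n n' m => av k n m fun x1 y => H652.bS p s r U K u F3 Q3 x0 k x1 y ⬝ᵥ
        F x0 x1 k n' *ᵥ H652.bS p s r U K u F3 Q3 x0 k x1 y) ≤
    c * (e * (515625000 * payN p K s r l κ A)) := by
  have h1 := payB_ah_act (al := alU p U K) (a := lam1 p s r) (φ := kF p.Lm U.1 K F3)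
    (G := GT u) (Kq := KT l u) (u := u) (T := ix K x.2.2) ho X (actU_sub (K := K) (x := x) (u := u))
    (fun z _ => tr_T hl K u z) (fun z _ k _ q => rfl) (H401.lam1_pos ht hs hr).le
    (fun z hz k hk q hq ha i hi => ?_) he
    (fun k hk j a y => H816.line_kF0 hB he U.1 K ((mem_Icc.1 hk).2.trans hK) j a y)
    (B := fun x0 k => H652.bS p s r U K u F3 Q3 x0 k)
    (fun x0 _ k hk z _ q _ _ w => bS_rows hB hK (mem_Icc.1 hk).2 x0 z q w)
    (fun x0 _ k hk z _ q hq ha => bS_off hB hK (mem_Icc.1 hk).2 x0 z q fun y hy => ?_)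
    (fun x0 _ k hk z hz hzY y hy => ?_) hg hF hFa A
  · refine h1.trans (mul_le_mul_of_nonneg_left (mul_le_mul_of_nonneg_left ?_ he) hg)
    rw [← mul_sum, mul_left_comm]
    exact mul_le_mul_of_nonneg_left (sum_numB ht hs hr hl hκ hc A) (by norm_num)
  · obtain ⟨y, hy, h2⟩ := ha
    have h3 := H516.al_fib hU (actU_sub hz) (mem_iv.2 (H576.root_pt hk hq hy)) h2 i (by omega)
    rwa [mem_iv.1 hy] at h3
  · left
    refine H816.kF_dead ?_
    by_contra h2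
    exact ha ⟨y, hy, h2⟩
  · refine bS_off hB hK (mem_Icc.1 hk).2 x0 z (ix k y) (fun y' _ => Or.inr ?_) y (mem_iv.2 rfl)
    by_contra h2
    exact hzY (mem_filter.2 ⟨hz, y', h2⟩)

/-- **The losses on the side `b`, class data with fibres.** -/
theorem pay_eb_cls (hB : BSl n e cP F3 Q3) (he : 0 ≤ e) (hK : K ≤ n) (ht : 0 < p.t) (hs : 0 < s)
    (hr : 1 ≤ r) (hκ : 0 < κ) (hc : ClsM K x s r P κ U g u v) (hU : FibU p K x s r U u)
    (hl : 0 < l) (ho : o = 1 ∨ o = -1) (X : Finset ℤ)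
    {F : ℤ → ℤ → ℕ → ℤ → Matrix ι ι ℝ} {c : ℝ} (hg : 0 ≤ c)
    (hF : ∀ x0 ∈ X, ∀ x1 ∈ iv K (ix K x.1), ∀ k ∈ Icc 1 K, ∀ m, (F x0 x1 k m).PosSemidef)
    (hFa : ∀ x0 ∈ X, ∀ x1 ∈ iv K (ix K x.1), ∀ k ∈ Icc 1 K, ∀ m, ∀ w : ι → ℝ,
      w ⬝ᵥ F x0 x1 k m *ᵥ w ≤
      c * (w ⬝ᵥ eb l K (ix K x.2.1) (KT l u x1) (o - 2) x0 x1 k m *ᵥ w)) (A : ℕ) :
    ∑ x0 ∈ X, ∑ k ∈ Icc 1 K, GW K (ix K x.2.1) (ix K x.1) (ix K x.2.2) k (o - 2 - ix k x0)
      (fun n n' m => av k n m fun x1 y => H652.bS p s r U K u F3 Q3 x0 k x1 y ⬝ᵥ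
        F x0 x1 k n' *ᵥ H652.bS p s r U K u F3 Q3 x0 k x1 y) ≤
    c * (e * (89180 * payN p K s r l κ A)) := by
  have h1 := payB_eb_act (al := alU p U K) (a := lam1 p s r) (φ := kF p.Lm U.1 K F3)
    (G := GT u) (Kq := KT l u) (u := u) (T := ix K x.2.2) ho X (actU_sub (K := K) (x := x) (u := u))
    (fun z _ => tr_T hl K u z) (fun z _ k _ q => rfl) (H401.lam1_pos ht hs hr).le
    (fun z hz k hk q hq ha i hi => ?_) he
    (fun k hk j a y => H816.line_kF0 hB he U.1 K ((mem_Icc.1 hk).2.trans hK) j a y)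
    (B := fun x0 k => H652.bS p s r U K u F3 Q3 x0 k)
    (fun x0 _ k hk z _ q _ _ w => bS_rows hB hK (mem_Icc.1 hk).2 x0 z q w)
    (fun x0 _ k hk z _ q hq ha => bS_off hB hK (mem_Icc.1 hk).2 x0 z q fun y hy => ?_)
    (fun x0 _ k hk z hz hzY y hy => ?_) hg hF hFa A
  · refine h1.trans (mul_le_mul_of_nonneg_left (mul_le_mul_of_nonneg_left ?_ he) hg)
    rw [← mul_sum, mul_left_comm]
    exact mul_le_mul_of_nonneg_left (sum_numB ht hs hr hl hκ hc A) (by norm_num)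
  · obtain ⟨y, hy, h2⟩ := ha
    have h3 := H516.al_fib hU (actU_sub hz) (mem_iv.2 (H576.root_pt hk hq hy)) h2 i (by omega)
    rwa [mem_iv.1 hy] at h3
  · left
    refine H816.kF_dead ?_
    by_contra h2
    exact ha ⟨y, hy, h2⟩
  · refine bS_off hB hK (mem_Icc.1 hk).2 x0 z (ix k y) (fun y' _ => Or.inr ?_) y (mem_iv.2 rfl)
    by_contra h2
    exact hzY (mem_filter.2 ⟨hz, y', h2⟩)

end pay

/-! ### The number -/

/-- `lam1 / lam ≤ (t / r) ^ (-10)` -/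
theorem lam1_lam (ht : 0 < p.t) (ht1 : p.t ≤ 1) (hs : 0 < s) (hr : 1 ≤ r) (he0 : 0 ≤ p.e0) :
    lam1 p s r / p.lam s r ≤ (p.t / r) ^ (-10 : ℝ) := by
  have hr0 : 0 < r := by linarith
  have hl := H401.Num.lam_pos (p := p) ht hs hr
  rw [div_le_iff₀ hl]
  unfold lam1 H401.Num.lam
  have h1 : p.t ^ (-8 : ℝ) = p.t ^ (-10 + p.e0) * p.t ^ (2 - p.e0) := by
    rw [← Real.rpow_add ht]; congr 1; ring
  have h2 : p.t ^ (-10 + p.e0) ≤ p.t ^ (-10 : ℝ) :=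
    Real.rpow_le_rpow_of_exponent_ge ht ht1 (by linarith)
  have h3 : r ^ (8 : ℝ) ≤ r ^ (10 : ℝ) * r ^ p.e0 := by
    rw [← Real.rpow_add hr0]
    exact Real.rpow_le_rpow_of_exponent_le hr (by linarith)
  have h4 : (p.t / r) ^ (-10 : ℝ) = p.t ^ (-10 : ℝ) * r ^ (10 : ℝ) := by
    rw [Real.div_rpow ht.le hr0.le, Real.rpow_neg hr0.le, div_inv_eq_mul]
  have n1 : 0 < p.t ^ (2 - p.e0) := Real.rpow_pos_of_pos ht _
  have n2 : 0 < p.t ^ (-10 : ℝ) := Real.rpow_pos_of_pos ht _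
  have n3 : 0 < √s := Real.sqrt_pos.2 hs
  rw [h1, h4]
  calc p.t ^ (-10 + p.e0) * p.t ^ (2 - p.e0) * √s * r ^ (8 : ℝ)
      ≤ p.t ^ (-10 : ℝ) * p.t ^ (2 - p.e0) * √s * (r ^ (10 : ℝ) * r ^ p.e0) := by
        gcongr
    _ = _ := by ring

/-- `min 1 (s / κ) * lam1 ≤ L * (t / r) ^ (-10) * s` -/
theorem act_lam1 (ht : 0 < p.t) (ht1 : p.t ≤ 1) (hs : 0 < s) (hr : 1 ≤ r) (ha : 0 ≤ p.a)
    (hL : 1 ≤ p.L) :
    min 1 (s / kapM p.L p.t p.a s r) * lam1 p s r ≤ p.L * (p.t / r) ^ (-10 : ℝ) * s := by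
  have hr0 : 0 < r := by linarith
  have hsq := Real.sqrt_pos.2 hs
  have hss := Real.mul_self_sqrt hs.le
  have hl1 : 0 < lam1 p s r := H401.lam1_pos ht hs hr
  have h4 : (p.t / r) ^ (-10 : ℝ) = p.t ^ (-10 : ℝ) * r ^ (10 : ℝ) := by
    rw [Real.div_rpow ht.le hr0.le, Real.rpow_neg hr0.le, div_inv_eq_mul]
  have m1 : p.t ^ (-8 : ℝ) ≤ p.t ^ (-10 : ℝ) :=
    Real.rpow_le_rpow_of_exponent_ge ht ht1 (by norm_num)
  have m2 : r ^ (8 : ℝ) ≤ r ^ (10 : ℝ) := Real.rpow_le_rpow_of_exponent_le hr (by norm_num)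
  have n2 : 0 < p.t ^ (-10 : ℝ) := Real.rpow_pos_of_pos ht _
  have n8 : 0 < p.t ^ (-8 : ℝ) := Real.rpow_pos_of_pos ht _
  have nr8 : 0 < r ^ (8 : ℝ) := Real.rpow_pos_of_pos hr0 _
  have nr : 0 < r ^ (10 : ℝ) := Real.rpow_pos_of_pos hr0 _
  have m3 : p.t ^ (-8 : ℝ) * r ^ (8 : ℝ) ≤ p.t ^ (-10 : ℝ) * r ^ (10 : ℝ) :=
    mul_le_mul m1 m2 nr8.le n2.le
  have hLL : (0 : ℝ) < p.L := by linarith
  rw [h4]
  rcases le_total 1 (√s) with h | h
  · -- `s ≥ 1`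
    have h1 : √s ≤ s := by nlinarith
    have h2 : lam1 p s r ≤ p.t ^ (-10 : ℝ) * r ^ (10 : ℝ) * s := by
      unfold lam1
      calc p.t ^ (-8 : ℝ) * √s * r ^ (8 : ℝ) = p.t ^ (-8 : ℝ) * r ^ (8 : ℝ) * √s := by ring
        _ ≤ p.t ^ (-10 : ℝ) * r ^ (10 : ℝ) * s := mul_le_mul m3 h1 hsq.le (by positivity)
    have h3 : min 1 (s / kapM p.L p.t p.a s r) * lam1 p s r ≤ 1 * lam1 p s r :=
      mul_le_mul_of_nonneg_right (min_le_left _ _) hl1.le
    have h5 : p.t ^ (-10 : ℝ) * r ^ (10 : ℝ) * s ≤ p.L * (p.t ^ (-10 : ℝ) * r ^ (10 : ℝ)) * s := by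
      have : 0 < p.t ^ (-10 : ℝ) * r ^ (10 : ℝ) * s := by positivity
      nlinarith
    linarith
  · -- `s ≤ 1`
    have h3 : min 1 (s / kapM p.L p.t p.a s r) * lam1 p s r ≤
        s / kapM p.L p.t p.a s r * lam1 p s r :=
      mul_le_mul_of_nonneg_right (min_le_right _ _) hl1.le
    refine h3.trans ?_
    have hta : 0 < p.t ^ (2 - p.a) := Real.rpow_pos_of_pos ht _
    have hm : 0 < min 1 (p.t ^ (2 - p.a) * √s * r) := lt_min one_pos (by positivity)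
    have hk : 0 < kapM p.L p.t p.a s r := by
      unfold kapM
      positivity
    rw [div_mul_eq_mul_div, div_le_iff₀ hk]
    unfold kapM
    -- `lam1 ≤ (t^-10 r^10) min`
    have h6 : lam1 p s r ≤ p.t ^ (-10 : ℝ) * r ^ (10 : ℝ) *
        min 1 (p.t ^ (2 - p.a) * √s * r) := by
      rcases le_total 1 (p.t ^ (2 - p.a) * √s * r) with h7 | h7
      · rw [min_eq_left h7, mul_one]
        unfold lam1
        calc p.t ^ (-8 : ℝ) * √s * r ^ (8 : ℝ) ≤ p.t ^ (-8 : ℝ) * 1 * r ^ (8 : ℝ) := by gcongr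
          _ = p.t ^ (-8 : ℝ) * r ^ (8 : ℝ) := by ring
          _ ≤ _ := m3
      · rw [min_eq_right h7]
        unfold lam1
        have h8 : p.t ^ (-8 : ℝ) ≤ p.t ^ (-10 : ℝ) * p.t ^ (2 - p.a) := by
          rw [← Real.rpow_add ht]
          exact Real.rpow_le_rpow_of_exponent_ge ht ht1 (by linarith)
        have h9 : r ^ (8 : ℝ) ≤ r ^ (10 : ℝ) * r := by
          have : r ^ (10 : ℝ) * 1 ≤ r ^ (10 : ℝ) * r := mul_le_mul_of_nonneg_left hr nr.le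
          linarith
        calc p.t ^ (-8 : ℝ) * √s * r ^ (8 : ℝ) ≤
            p.t ^ (-10 : ℝ) * p.t ^ (2 - p.a) * √s * (r ^ (10 : ℝ) * r) := by gcongr
          _ = _ := by ring
    have h7 := mul_le_mul_of_nonneg_left h6 hs.le
    refine h7.trans (le_of_eq ?_)
    field_simp

/-- **The number of the payers.** -/
theorem payN_le (ht : 0 < p.t) (ht1 : p.t ≤ 1) (hs : 0 < s) (hr : 1 ≤ r) (ha : 0 ≤ p.a)
    (he0 : 0 ≤ p.e0) (hL : 1 ≤ p.L) :
    ∃ A : ℕ, payN p K s r (p.lam s r) (kapM p.L p.t p.a s r) A ≤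
      (50 + 16 * p.L) * (1 + Real.log (r / p.t)) * (s * 8 ^ K) := by
  have hr0 : 0 < r := by linarith
  have hrt : 1 ≤ r / p.t := by rw [le_div_iff₀ ht]; linarith
  have hlog : 0 ≤ Real.log (r / p.t) := Real.log_nonneg hrt
  have hrt0 : 0 < r / p.t := by positivity
  have e10 : (p.t / r) ^ (-10 : ℝ) = (r / p.t) ^ (10 : ℝ) := by
    rw [Real.rpow_neg (by positivity), ← Real.inv_rpow (by positivity), inv_div]
  set Z := (r / p.t) ^ (10 : ℝ) with hZ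
  have hZ1 : 1 ≤ Z := Real.one_le_rpow hrt (by norm_num)
  have hlZ : Real.log Z = 10 * Real.log (r / p.t) := Real.log_rpow hrt0 10
  -- the number of scales
  obtain ⟨A, hA⟩ : ∃ A : ℕ, A = ⌈Real.log Z / Real.log 2⌉₊ := ⟨_, rfl⟩
  have hl2 : 0 < Real.log 2 := Real.log_pos (by norm_num)
  have hl2' : (1 / 2 : ℝ) ≤ Real.log 2 := by
    have := Real.log_two_gt_d9
    linarith
  have h1 : Z ≤ 2 ^ A := by
    have h2 : Real.log Z ≤ A * Real.log 2 := by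
      rw [← div_le_iff₀ hl2, hA]
      exact Nat.le_ceil _
    rw [← Real.log_pow] at h2
    exact (Real.log_le_log_iff (by linarith) (by positivity)).1 h2
  have h2 : (A : ℝ) ≤ 1 + 20 * Real.log (r / p.t) := by
    have h3 : (A : ℝ) < Real.log Z / Real.log 2 + 1 := by
      rw [hA]
      exact Nat.ceil_lt_add_one (div_nonneg (by rw [hlZ]; positivity) hl2.le)
    have h4 : Real.log Z / Real.log 2 ≤ 20 * Real.log (r / p.t) := by
      rw [div_le_iff₀ hl2, hlZ]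
      nlinarith
    linarith
  refine ⟨A, ?_⟩
  have hlam := H401.Num.lam_pos (p := p) ht hs hr
  have hl1 : 0 < lam1 p s r := H401.lam1_pos ht hs hr
  have h3 : Real.log (1 + 4 * lam1 p s r / p.lam s r) ≤ 2 + 10 * Real.log (r / p.t) := by
    have h4 := lam1_lam (p := p) (s := s) (r := r) ht ht1 hs hr he0
    rw [e10] at h4
    have h5 : 1 + 4 * lam1 p s r / p.lam s r ≤ 5 * Z := by
      rw [mul_div_assoc]
      linarith
    have h6 : 0 < 1 + 4 * lam1 p s r / p.lam s r := by positivity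
    have h7 := Real.log_le_log h6 h5
    rw [Real.log_mul (by norm_num) (by linarith), hlZ] at h7
    have h8 : Real.log 5 ≤ 2 := by
      have h9 : (5 : ℝ) ≤ Real.exp 2 := by
        have h10 := Real.add_one_le_exp (1 : ℝ)
        have h11 : Real.exp 2 = Real.exp 1 * Real.exp 1 := by rw [← Real.exp_add]; norm_num
        have h12 := Real.exp_one_gt_d9
        rw [h11]
        nlinarith
      exact (Real.log_le_iff_le_exp (by norm_num)).2 h9
    linarith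
  have h4 : min 1 (s / kapM p.L p.t p.a s r) * (16 * lam1 p s r / 2 ^ A) ≤ 16 * p.L * s := by
    have h5 := act_lam1 (p := p) (s := s) (r := r) ht ht1 hs hr ha hL
    rw [e10] at h5
    have h6 : (0 : ℝ) < 2 ^ A := by positivity
    have e : min 1 (s / kapM p.L p.t p.a s r) * (16 * lam1 p s r / 2 ^ A) =
        16 * (min 1 (s / kapM p.L p.t p.a s r) * lam1 p s r) / 2 ^ A := by ring
    rw [e, div_le_iff₀ h6]
    have h7 : p.L * Z * s ≤ p.L * 2 ^ A * s := by gcongr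
    linarith
  have h8 : s * (2 + Real.log (1 + 4 * lam1 p s r / p.lam s r) + 2 * A) ≤
      s * (6 + 50 * Real.log (r / p.t)) := mul_le_mul_of_nonneg_left (by linarith) hs.le
  unfold payN
  have h9 : s * (2 + Real.log (1 + 4 * lam1 p s r / p.lam s r) + 2 * A) +
      min 1 (s / kapM p.L p.t p.a s r) * (16 * lam1 p s r / 2 ^ A) ≤
      s * ((50 + 16 * p.L) * (1 + Real.log (r / p.t))) := by
    have h10 : 16 * p.L * s ≤ s * (16 * p.L * (1 + Real.log (r / p.t))) := by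
      have : 0 ≤ s * (16 * p.L * Real.log (r / p.t)) := by positivity
      nlinarith
    have h11 : s * (6 + 50 * Real.log (r / p.t)) ≤ s * (50 * (1 + Real.log (r / p.t))) := by
      nlinarith
    nlinarith
  have h12 := mul_le_mul_of_nonneg_left h9 (show (0 : ℝ) ≤ 8 ^ K by positivity)
  refine h12.trans (le_of_eq ?_)
  ring

end

end Vale.Agent.P141.H784
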