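import Vale.Agent.P141.H784.PayCls
import Vale.Agent.P141.H886.SumU

/-!
# P141, line (A), (TI): the payers of the moving pair on the slot `b`, summed over the `x0`

* `payA`, `payE` : the exact sums at one `x0`, half differences and losses;
* `sumU_payA`, `sumU_payE`, `sumU_pay` : `H886.SumU (-1)`.
-/

namespace Vale.Agent.P141.H784

set_option linter.unusedSectionVars false
set_option linter.unusedVariables false

open Matrix Finset
open Vale.Agent.P141.PL (Pt iv mem_iv card_iv ix ix_ix cx)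
open Vale.Agent.P141.PL.H315 (Tri A2 avg)
open Vale.Agent.P141.H103 (GW)
open Vale.Agent.P141.H48 (US ES BSl sst)
open Vale.Agent.P141.H305 (Cls ClsM kapM)
open Vale.Agent.P141.H677 (GT KT rt)
open Vale.Agent.P141.H401 (FibU FibP StQ)
open Vale.Agent.P141.H408 (beI PairU PairQ)
open Vale.Agent.P141.H652 (ah eb)
open Vale.Agent.P141.H886 (NumF SumU SumQ)

noncomputable section

open scoped Classical

/-- **the half differences on the slot `b`** at one `x0`, time `k` at scale `k` -/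
def payA : NumF := fun ι _ _ p n ez F1 F2 F3 o K x s r U g u v Q1 Q2 Q3 x0 =>
  ∑ k ∈ Icc 1 K, GW K (ix K x.2.1) (ix K x.1) (ix K x.2.2) k (o - 2 - ix k x0)
    (fun n n' m => av k n m fun x1 y => (beI p r)⁻¹ *
      ((ah (p.lam s r) K (ix K x.2.1) (KT (p.lam s r) u x1) (o - 2) x0 x1 (k - 1) n' *ᵥ
          H652.bS p s r U K u F3 Q3 x0 k x1 y) ⬝ᵥ
        (ah (p.lam s r) K (ix K x.2.1) (KT (p.lam s r) u x1) (o - 2) x0 x1 (k - 1) n' *ᵥ
          H652.bS p s r U K u F3 Q3 x0 k x1 y)))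

/-- **the losses on the slot `b`** at one `x0`, time `k` at scale `k` -/
def payE : NumF := fun ι _ _ p n ez F1 F2 F3 o K x s r U g u v Q1 Q2 Q3 x0 =>
  ∑ k ∈ Icc 1 K, GW K (ix K x.2.1) (ix K x.1) (ix K x.2.2) k (o - 2 - ix k x0)
    (fun n n' m => av k n m fun x1 y => H652.bS p s r U K u F3 Q3 x0 k x1 y ⬝ᵥ
      eb (p.lam s r) K (ix K x.2.1) (KT (p.lam s r) u x1) (o - 2) x0 x1 k n' *ᵥ
        H652.bS p s r U K u F3 Q3 x0 k x1 y)

theorem sum_roots (K : ℕ) (T : Finset ℤ) (f : ℤ → ℝ) :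
    ∑ t ∈ T, ∑ x0 ∈ iv K t, f x0 = ∑ x0 ∈ T.biUnion (fun t => iv K t), f x0 := by
  rw [sum_biUnion]
  intro a _ b _ hab
  simp only [Function.onFun]
  rw [disjoint_left]
  intro y h1 h2
  exact hab ((mem_iv.1 h1).symm.trans (mem_iv.1 h2))

theorem sq_form {ι : Type} [Fintype ι] [DecidableEq ι] (c : ℝ) (D : Matrix ι ι ℝ) (w : ι → ℝ) :
    w ⬝ᵥ (c • (Dᵀ * D)) *ᵥ w = c * ((D *ᵥ w) ⬝ᵥ (D *ᵥ w)) := by
  rw [smul_mulVec, dotProduct_smul, smul_eq_mul, ← mulVec_mulVec, dotProduct_mulVec,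
    vecMul_transpose]

theorem sq_form_psd {ι : Type} [Fintype ι] [DecidableEq ι] {c : ℝ} (hc : 0 ≤ c)
    (D : Matrix ι ι ℝ) : (c • (Dᵀ * D)).PosSemidef := by
  refine PosSemidef.smul ?_ hc
  have h := posSemidef_conjTranspose_mul_self D
  rwa [conjTranspose_eq_transpose_of_trivial] at h

/-- logarithms are small powers -/
theorem log_pow_le {t r δ : ℝ} (ht : 0 < t) (ht1 : t ≤ 1) (hr : 1 ≤ r) (hδ : 0 < δ) :
    1 + Real.log (r / t) ≤ (1 + δ⁻¹) * (t / r) ^ (-δ) := by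
  have hr0 : 0 < r := by linarith
  have hrt : 1 ≤ r / t := by rw [le_div_iff₀ ht]; linarith
  have h1 := Real.log_le_rpow_div (show 0 ≤ r / t by positivity) hδ
  have h2 : 1 ≤ (r / t) ^ δ := Real.one_le_rpow hrt hδ.le
  have e : (t / r) ^ (-δ) = (r / t) ^ δ := by
    rw [Real.rpow_neg (by positivity), ← Real.inv_rpow (by positivity), inv_div]
  rw [e]
  have h3 : (r / t) ^ δ / δ = (r / t) ^ δ * δ⁻¹ := div_eq_mul_inv _ _
  rw [h3] at h1
  linarith

/-- **The half differences, summed over the `x0`.** -/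
theorem sumU_payA : SumU (-1) payA := by
  unfold H886.SumU H408.PairU H408.PairQ
  intro a ha _
  refine ⟨1, one_pos, fun e0 he0 _ => ⟨1, one_pos, fun k8 _ _ => ⟨1, one_pos, fun k3 _ _ δ hδ =>
    ?_⟩⟩⟩
  refine ⟨1, 1, one_pos, one_pos, fun c _ _ d _ _ Kt e cP L _ he _ hL =>
    ⟨515625000 * e * (50 + 16 * L) * (1 + δ⁻¹), by positivity, ?_⟩⟩
  intro t ht ht1 n ez F1 F2 F3 _ _ _ o ho K hK x ι _ _ s r U g u v hs hr hcls Q1 Q2 Q3 _ _ q3 _
    hU _
  obtain ⟨p, hp⟩ : ∃ p : H401.Num, p = ⟨a, e0, k8, k3, c, d, Kt, e, cP, L, 1, t⟩ := ⟨_, rfl⟩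
  have pt : p.t = t := by rw [hp]
  have pe : p.e0 = e0 := by rw [hp]
  have pa : p.a = a := by rw [hp]
  have pL : p.L = L := by rw [hp]
  rw [← hp] at hU ⊢
  have hr0 : 0 < r := by linarith
  have hl := H401.Num.lam_pos (p := p) (by rw [pt]; exact ht) hs hr
  have hbe : 0 < beI p r := Real.rpow_pos_of_pos (by rw [pt]; positivity) _
  have hκ : 0 < kapM L t a s r := by
    unfold H305.kapM
    have := Real.rpow_pos_of_pos ht (2 - a)
    have := Real.sqrt_pos.2 hs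
    have h5 : 0 < min 1 (t ^ (2 - a) * √s * r) := lt_min one_pos (by positivity)
    have hL0 : (0 : ℝ) < L := by linarith
    positivity
  obtain ⟨A, hA⟩ := payN_le (p := p) (K := K) (s := s) (r := r) (by rw [pt]; exact ht)
    (by rw [pt]; exact ht1) hs hr (by rw [pa]; exact ha.le) (by rw [pe]; exact he0.le)
    (by rw [pL]; exact hL)
  rw [pL, pt, pa] at hA
  have h1 := pay_ah_cls (p := p) (r := r) q3 (by linarith : 0 ≤ e) hK (by rw [pt]; exact ht) hs hr
    hκ hcls hU hl ho ((rt (cx K x)).biUnion fun t => iv K t)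
    (F := fun x0 x1 k m => (beI p r)⁻¹ •
      ((ah (p.lam s r) K (ix K x.2.1) (KT (p.lam s r) u x1) (o - 2) x0 x1 (k - 1) m)ᵀ *
        ah (p.lam s r) K (ix K x.2.1) (KT (p.lam s r) u x1) (o - 2) x0 x1 (k - 1) m))
    (c := (beI p r)⁻¹) (by positivity) (fun _ _ _ _ _ _ _ => sq_form_psd (by positivity) _)
    (fun _ _ _ _ _ _ _ w => (sq_form _ _ w).le) A
  simp only [sq_form] at h1
  unfold H886.SumQ
  rw [sum_roots]
  refine h1.trans ?_
  have h2 := log_pow_le ht ht1 hr hδ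
  have hlog : 0 ≤ 1 + Real.log (r / t) := by
    have : 0 ≤ Real.log (r / t) := Real.log_nonneg (by rw [le_div_iff₀ ht]; linarith)
    linarith
  have ebe : (beI p r)⁻¹ = (t / r) ^ (-1 * (e0 / 2)) := by
    show ((p.t / r) ^ (p.e0 / 2))⁻¹ = _
    rw [pt, pe, neg_one_mul, Real.rpow_neg (by positivity)]
  rw [pt, pe, ebe]
  have h3 : 0 < (t / r) ^ (-1 * (e0 / 2)) := Real.rpow_pos_of_pos (by positivity) _
  have h4 : 0 < (t / r) ^ (-δ) := Real.rpow_pos_of_pos (by positivity) _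
  have he0' : (0 : ℝ) ≤ e := by linarith
  have hL0 : (0 : ℝ) ≤ L := by linarith
  calc (t / r) ^ (-1 * (e0 / 2)) * (e * (515625000 * payN p K s r (p.lam s r)
        (kapM L t a s r) A))
      ≤ (t / r) ^ (-1 * (e0 / 2)) * (e * (515625000 * ((50 + 16 * L) * ((1 + δ⁻¹) *
        (t / r) ^ (-δ)) * (s * 8 ^ K)))) := by
        refine mul_le_mul_of_nonneg_left (mul_le_mul_of_nonneg_left (mul_le_mul_of_nonneg_left
          (hA.trans ?_) (by norm_num)) he0') h3.le
        gcongr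
    _ = _ := by ring

/-- **The losses, summed over the `x0`.** -/
theorem sumU_payE : SumU (-1) payE := by
  unfold H886.SumU H408.PairU H408.PairQ
  intro a ha _
  refine ⟨1, one_pos, fun e0 he0 _ => ⟨1, one_pos, fun k8 _ _ => ⟨1, one_pos, fun k3 _ _ δ hδ =>
    ?_⟩⟩⟩
  refine ⟨1, 1, one_pos, one_pos, fun c _ _ d _ _ Kt e cP L _ he _ hL =>
    ⟨89180 * e * (50 + 16 * L) * (1 + δ⁻¹), by positivity, ?_⟩⟩
  intro t ht ht1 n ez F1 F2 F3 _ _ _ o ho K hK x ι _ _ s r U g u v hs hr hcls Q1 Q2 Q3 _ _ q3 _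
    hU _
  obtain ⟨p, hp⟩ : ∃ p : H401.Num, p = ⟨a, e0, k8, k3, c, d, Kt, e, cP, L, 1, t⟩ := ⟨_, rfl⟩
  have pt : p.t = t := by rw [hp]
  have pe : p.e0 = e0 := by rw [hp]
  have pa : p.a = a := by rw [hp]
  have pL : p.L = L := by rw [hp]
  rw [← hp] at hU ⊢
  have hr0 : 0 < r := by linarith
  have hl := H401.Num.lam_pos (p := p) (by rw [pt]; exact ht) hs hr
  have hκ : 0 < kapM L t a s r := by
    unfold H305.kapM
    have := Real.rpow_pos_of_pos ht (2 - a)
    have := Real.sqrt_pos.2 hs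
    have h5 : 0 < min 1 (t ^ (2 - a) * √s * r) := lt_min one_pos (by positivity)
    have hL0 : (0 : ℝ) < L := by linarith
    positivity
  obtain ⟨A, hA⟩ := payN_le (p := p) (K := K) (s := s) (r := r) (by rw [pt]; exact ht)
    (by rw [pt]; exact ht1) hs hr (by rw [pa]; exact ha.le) (by rw [pe]; exact he0.le)
    (by rw [pL]; exact hL)
  rw [pL, pt, pa] at hA
  have h1 := pay_eb_cls (p := p) (r := r) q3 (by linarith : 0 ≤ e) hK (by rw [pt]; exact ht) hs hr
    hκ hcls hU hl ho ((rt (cx K x)).biUnion fun t => iv K t)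
    (F := fun x0 x1 k m =>
      eb (p.lam s r) K (ix K x.2.1) (KT (p.lam s r) u x1) (o - 2) x0 x1 k m)
    (c := 1) zero_le_one (fun _ _ _ _ _ _ _ => H652.eb_psd (H677.tr_T hl K u _) _ _ _ _ _)
    (fun _ _ _ _ _ _ _ w => by rw [one_mul]) A
  unfold H886.SumQ
  rw [sum_roots]
  refine h1.trans ?_
  have h2 := log_pow_le ht ht1 hr hδ
  have hlog : 0 ≤ 1 + Real.log (r / t) := by
    have : 0 ≤ Real.log (r / t) := Real.log_nonneg (by rw [le_div_iff₀ ht]; linarith)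
    linarith
  rw [pt, pe]
  have h3 : 1 ≤ (t / r) ^ (-1 * (e0 / 2)) := by
    refine Real.one_le_rpow_of_pos_of_le_one_of_nonpos (by positivity) ?_ (by linarith)
    rw [div_le_one hr0]
    linarith
  have h4 : 0 < (t / r) ^ (-δ) := Real.rpow_pos_of_pos (by positivity) _
  have he0' : (0 : ℝ) ≤ e := by linarith
  have hL0 : (0 : ℝ) ≤ L := by linarith
  calc 1 * (e * (89180 * payN p K s r (p.lam s r) (kapM L t a s r) A))
      ≤ 1 * (e * (89180 * ((50 + 16 * L) * ((1 + δ⁻¹) *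
        (t / r) ^ (-δ)) * (s * 8 ^ K)))) := by
        refine mul_le_mul_of_nonneg_left (mul_le_mul_of_nonneg_left (mul_le_mul_of_nonneg_left
          (hA.trans ?_) (by norm_num)) he0') zero_le_one
        gcongr
    _ ≤ (t / r) ^ (-1 * (e0 / 2)) * (e * (89180 * ((50 + 16 * L) * ((1 + δ⁻¹) *
        (t / r) ^ (-δ)) * (s * 8 ^ K)))) := by
        refine mul_le_mul_of_nonneg_right h3 ?_
        positivity
    _ = _ := by ring

/-- **The payers on the slot `b`, summed over the `x0`.** -/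
theorem sumU_pay : SumU (-1) fun ι _ _ p n ez F1 F2 F3 o K x s r U g u v Q1 Q2 Q3 x0 =>
    payA ι p n ez F1 F2 F3 o K x s r U g u v Q1 Q2 Q3 x0 +
      payE ι p n ez F1 F2 F3 o K x s r U g u v Q1 Q2 Q3 x0 :=
  H886.SumU.add sumU_payA sumU_payE

end

end Vale.Agent.P141.H784
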