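import Mathlib

/-!
# P141, line W, engine: the sum over `x0` after the one-parameter path

For every `x0` the engine gives `T ≤ K G_A^(1/4) G_B^(1/4) D_C^(1/2) (1 + log⁺ (min(λ_A, λ_B)/λ_C))`
with `λ_F = D_F ^ 2 / G_F`.  The logarithm depends on `x0`; it is replaced by a small power, and
then Hölder's inequality with the exponents `4-, 4-, 2+` applies.
-/

namespace Vale.Agent.P141.H784

open Finset

noncomputable section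

/-- Weighted Hölder for finite sums and products. -/
theorem hol {ι κ : Type*} (s : Finset ι) (J : Finset κ) (p : κ → ℝ) (x : κ → ι → ℝ)
    (hp : ∀ j ∈ J, 0 < p j) (hp1 : ∑ j ∈ J, p j = 1) (hx : ∀ j ∈ J, ∀ i ∈ s, 0 ≤ x j i) :
    ∑ i ∈ s, ∏ j ∈ J, x j i ^ p j ≤ ∏ j ∈ J, (∑ i ∈ s, x j i) ^ p j := by
  by_cases h0 : ∃ j ∈ J, ∑ i ∈ s, x j i = 0
  · obtain ⟨j, hj, hj0⟩ := h0
    have hz : ∀ i ∈ s, x j i = 0 := (sum_eq_zero_iff_of_nonneg (hx j hj)).1 hj0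
    have h1 : ∀ i ∈ s, ∏ j ∈ J, x j i ^ p j = 0 := fun i hi =>
      prod_eq_zero hj (by rw [hz i hi, Real.zero_rpow (hp j hj).ne'])
    rw [sum_congr rfl h1, sum_const_zero]
    exact prod_nonneg fun j hj => Real.rpow_nonneg (sum_nonneg (hx j hj)) _
  · push Not at h0
    have hS : ∀ j ∈ J, 0 < ∑ i ∈ s, x j i := fun j hj =>
      lt_of_le_of_ne (sum_nonneg (hx j hj)) (Ne.symm (h0 j hj))
    have key : ∀ i ∈ s, ∏ j ∈ J, x j i ^ p j ≤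
        (∏ j ∈ J, (∑ i ∈ s, x j i) ^ p j) * ∑ j ∈ J, p j * (x j i / ∑ i ∈ s, x j i) := by
      intro i hi
      have h2 := Real.geom_mean_le_arith_mean_weighted J p (fun j => x j i / ∑ i ∈ s, x j i)
        (fun j hj => (hp j hj).le) hp1 (fun j hj => div_nonneg (hx j hj i hi) (hS j hj).le)
      have h3 : ∏ j ∈ J, x j i ^ p j = (∏ j ∈ J, (∑ i ∈ s, x j i) ^ p j) *
          ∏ j ∈ J, (x j i / ∑ i ∈ s, x j i) ^ p j := by
        rw [← prod_mul_distrib]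
        refine prod_congr rfl fun j hj => ?_
        rw [← Real.mul_rpow (hS j hj).le (div_nonneg (hx j hj i hi) (hS j hj).le),
          mul_div_cancel₀ _ (hS j hj).ne']
      rw [h3]
      exact mul_le_mul_of_nonneg_left h2
        (prod_nonneg fun j hj => Real.rpow_nonneg (hS j hj).le _)
    refine (sum_le_sum key).trans (le_of_eq ?_)
    rw [← mul_sum, sum_comm]
    have h4 : ∀ j ∈ J, ∑ i ∈ s, p j * (x j i / ∑ i ∈ s, x j i) = p j := fun j hj => by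
      rw [← mul_sum, ← sum_div, div_self (hS j hj).ne', mul_one]
    rw [sum_congr rfl h4, hp1, mul_one]

/-- Hölder for three sums. -/
theorem hol3 {ι : Type*} (s : Finset ι) {a b c : ι → ℝ} {p q r : ℝ} (hp : 0 < p) (hq : 0 < q)
    (hr : 0 < r) (h1 : p + q + r = 1) (ha : ∀ i ∈ s, 0 ≤ a i) (hb : ∀ i ∈ s, 0 ≤ b i)
    (hc : ∀ i ∈ s, 0 ≤ c i) :
    ∑ i ∈ s, a i ^ p * b i ^ q * c i ^ r ≤
      (∑ i ∈ s, a i) ^ p * (∑ i ∈ s, b i) ^ q * (∑ i ∈ s, c i) ^ r := by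
  have h := hol s (univ : Finset (Fin 3)) ![p, q, r] ![a, b, c]
    (by intro j _; fin_cases j <;> simpa) (by simpa [Fin.sum_univ_three] using h1)
    (by
      intro j _ i hi
      fin_cases j
      · exact ha i hi
      · exact hb i hi
      · exact hc i hi)
  simpa [Fin.prod_univ_three] using h

/-- Hölder for six sums. -/
theorem hol6 {ι : Type*} (s : Finset ι) {a b c d e f : ι → ℝ} {p q r p' q' r' : ℝ} (hp : 0 < p)
    (hq : 0 < q) (hr : 0 < r) (hp' : 0 < p') (hq' : 0 < q') (hr' : 0 < r')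
    (h1 : p + q + r + p' + q' + r' = 1) (ha : ∀ i ∈ s, 0 ≤ a i) (hb : ∀ i ∈ s, 0 ≤ b i)
    (hc : ∀ i ∈ s, 0 ≤ c i) (hd : ∀ i ∈ s, 0 ≤ d i) (he : ∀ i ∈ s, 0 ≤ e i)
    (hf : ∀ i ∈ s, 0 ≤ f i) :
    ∑ i ∈ s, a i ^ p * b i ^ q * c i ^ r * d i ^ p' * e i ^ q' * f i ^ r' ≤
      (∑ i ∈ s, a i) ^ p * (∑ i ∈ s, b i) ^ q * (∑ i ∈ s, c i) ^ r *
        (∑ i ∈ s, d i) ^ p' * (∑ i ∈ s, e i) ^ q' * (∑ i ∈ s, f i) ^ r' := by
  have h := hol s (univ : Finset (Fin 6)) ![p, q, r, p', q', r'] ![a, b, c, d, e, f]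
    (by intro j _; fin_cases j <;> simpa) (by simpa [Fin.sum_univ_six] using h1)
    (by
      intro j _ i hi
      fin_cases j
      · exact ha i hi
      · exact hb i hi
      · exact hc i hi
      · exact hd i hi
      · exact he i hi
      · exact hf i hi)
  simpa [Fin.prod_univ_six] using h

/-- The logarithm against a small power. -/
theorem one_add_posLog_le {x ep : ℝ} (hx : 0 ≤ x) (hep : 0 < ep) :
    1 + Real.posLog x ≤ 1 + x ^ ep / ep := by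
  have h0 : 0 ≤ x ^ ep / ep := div_nonneg (Real.rpow_nonneg hx _) hep.le
  have h1 : Real.log x ≤ x ^ ep / ep := Real.log_le_rpow_div hx hep
  unfold Real.posLog
  exact add_le_add_right (max_le h0 h1) _

/-- One `x0`: the ratio `min(λ_A, λ_B)/λ_C`. -/
def rat (GA GB GC DA DB DC : ℝ) : ℝ := min (DA ^ 2 / GA) (DB ^ 2 / GB) * GC / DC ^ 2

theorem rat_nonneg {GA GB GC DA DB DC : ℝ} (hA : 0 ≤ GA) (hB : 0 ≤ GB) (hC : 0 ≤ GC) :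
    0 ≤ rat GA GB GC DA DB DC := by
  unfold rat
  positivity

/-- The display of one `x0` with a small power instead of the logarithm. -/
theorem disp_le {GA GB GC DA DB DC ep : ℝ} (hA : 0 ≤ GA) (hB : 0 ≤ GB) (hC : 0 ≤ GC)
    (dA : 0 ≤ DA) (dB : 0 ≤ DB) (dC : 0 ≤ DC) (hep : 0 < ep) :
    GA ^ (1 / 4 : ℝ) * GB ^ (1 / 4 : ℝ) * DC ^ (1 / 2 : ℝ) * rat GA GB GC DA DB DC ^ ep ≤
      GA ^ (1 / 4 - ep / 2) * GB ^ (1 / 4 - ep / 2) * DC ^ (1 / 2 - 2 * ep) *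
        DA ^ ep * DB ^ ep * GC ^ ep := by
  have hR : 0 ≤ GA ^ (1 / 4 - ep / 2) * GB ^ (1 / 4 - ep / 2) * DC ^ (1 / 2 - 2 * ep) *
        DA ^ ep * DB ^ ep * GC ^ ep := by positivity
  rcases eq_or_lt_of_le hA with h | pA
  · rw [← h, Real.zero_rpow (by norm_num : (1 / 4 : ℝ) ≠ 0)]
    rw [← h] at hR
    simpa using hR
  rcases eq_or_lt_of_le hB with h | pB
  · rw [← h, Real.zero_rpow (by norm_num : (1 / 4 : ℝ) ≠ 0)]
    rw [← h] at hR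
    simpa using hR
  rcases eq_or_lt_of_le dC with h | pC
  · rw [← h, Real.zero_rpow (by norm_num : (1 / 2 : ℝ) ≠ 0)]
    rw [← h] at hR
    simpa using hR
  have hmin : min (DA ^ 2 / GA) (DB ^ 2 / GB) ≤ DA * DB / (GA ^ (1 / 2 : ℝ) * GB ^ (1 / 2 : ℝ)) := by
    have h1 : 0 ≤ DA * DB / (GA ^ (1 / 2 : ℝ) * GB ^ (1 / 2 : ℝ)) := by positivity
    have h2 : 0 ≤ min (DA ^ 2 / GA) (DB ^ 2 / GB) := by positivity
    refine (pow_le_pow_iff_left₀ h2 h1 two_ne_zero).1 ?_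
    have e2 : (DA * DB / (GA ^ (1 / 2 : ℝ) * GB ^ (1 / 2 : ℝ))) ^ 2 =
        (DA ^ 2 / GA) * (DB ^ 2 / GB) := by
      have e3 : ∀ y : ℝ, 0 < y → (y ^ (1 / 2 : ℝ)) ^ 2 = y := fun y hy => by
        rw [← Real.rpow_natCast, ← Real.rpow_mul hy.le]; norm_num
      rw [div_pow, mul_pow, mul_pow, e3 _ pA, e3 _ pB]
      field_simp
    rw [e2, pow_two]
    exact mul_le_mul (min_le_left _ _) (min_le_right _ _) h2 (by positivity)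
  have hrat : rat GA GB GC DA DB DC ≤ DA * DB * GC / (GA ^ (1 / 2 : ℝ) * GB ^ (1 / 2 : ℝ) * DC ^ 2) := by
    unfold rat
    rw [div_le_div_iff₀ (by positivity) (by positivity)]
    have h3 := mul_le_mul_of_nonneg_right hmin (by positivity :
      0 ≤ GC * (GA ^ (1 / 2 : ℝ) * GB ^ (1 / 2 : ℝ) * DC ^ 2))
    refine le_trans (le_of_eq ?_) (h3.trans (le_of_eq ?_))
    · ring
    · have : GA ^ (1 / 2 : ℝ) * GB ^ (1 / 2 : ℝ) ≠ 0 := by positivity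
      field_simp
  have hp := Real.rpow_le_rpow (rat_nonneg hA hB hC) hrat hep.le
  refine (mul_le_mul_of_nonneg_left hp (by positivity)).trans (le_of_eq ?_)
  rw [Real.div_rpow (by positivity) (by positivity), Real.mul_rpow (by positivity) hC,
    Real.mul_rpow dA dB, Real.mul_rpow (by positivity) (by positivity),
    Real.mul_rpow (by positivity) (by positivity), ← Real.rpow_mul hA, ← Real.rpow_mul hB,
    ← Real.rpow_natCast DC 2, ← Real.rpow_mul dC]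
  have eA : GA ^ (1 / 4 - ep / 2) = GA ^ (1 / 4 : ℝ) / GA ^ (1 / 2 * ep) := by
    rw [← Real.rpow_sub pA]; ring_nf
  have eB : GB ^ (1 / 4 - ep / 2) = GB ^ (1 / 4 : ℝ) / GB ^ (1 / 2 * ep) := by
    rw [← Real.rpow_sub pB]; ring_nf
  have eC : DC ^ (1 / 2 - 2 * ep) = DC ^ (1 / 2 : ℝ) / DC ^ (((2 : ℕ) : ℝ) * ep) := by
    rw [← Real.rpow_sub pC]; norm_num
  rw [eA, eB, eC]
  have n1 : GA ^ (1 / 2 * ep) ≠ 0 := by positivity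
  have n2 : GB ^ (1 / 2 * ep) ≠ 0 := by positivity
  have n3 : DC ^ (((2 : ℕ) : ℝ) * ep) ≠ 0 := by positivity
  field_simp

/-- **The sum over `x0`.** -/
theorem xsum {ι : Type*} (s : Finset ι) {T GA GB GC DA DB DC : ι → ℝ} {K ep : ℝ} (hK : 0 ≤ K)
    (hep : 0 < ep) (hep' : ep < 1 / 4)
    (hA : ∀ i ∈ s, 0 ≤ GA i) (hB : ∀ i ∈ s, 0 ≤ GB i) (hC : ∀ i ∈ s, 0 ≤ GC i)
    (dA : ∀ i ∈ s, 0 ≤ DA i) (dB : ∀ i ∈ s, 0 ≤ DB i) (dC : ∀ i ∈ s, 0 ≤ DC i)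
    (hT : ∀ i ∈ s, T i ≤ K * (GA i ^ (1 / 4 : ℝ) * GB i ^ (1 / 4 : ℝ) * DC i ^ (1 / 2 : ℝ)) *
      (1 + Real.posLog (rat (GA i) (GB i) (GC i) (DA i) (DB i) (DC i)))) :
    ∑ i ∈ s, T i ≤
      K * ((∑ i ∈ s, GA i) ^ (1 / 4 : ℝ) * (∑ i ∈ s, GB i) ^ (1 / 4 : ℝ) *
          (∑ i ∈ s, DC i) ^ (1 / 2 : ℝ)) +
        K / ep * ((∑ i ∈ s, GA i) ^ (1 / 4 - ep / 2) * (∑ i ∈ s, GB i) ^ (1 / 4 - ep / 2) *
          (∑ i ∈ s, DC i) ^ (1 / 2 - 2 * ep) * (∑ i ∈ s, DA i) ^ ep * (∑ i ∈ s, DB i) ^ ep *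
          (∑ i ∈ s, GC i) ^ ep) := by
  have h1 : ∀ i ∈ s, T i ≤
      K * (GA i ^ (1 / 4 : ℝ) * GB i ^ (1 / 4 : ℝ) * DC i ^ (1 / 2 : ℝ)) +
        K / ep * (GA i ^ (1 / 4 - ep / 2) * GB i ^ (1 / 4 - ep / 2) * DC i ^ (1 / 2 - 2 * ep) *
          DA i ^ ep * DB i ^ ep * GC i ^ ep) := by
    intro i hi
    have p0 : 0 ≤ GA i ^ (1 / 4 : ℝ) * GB i ^ (1 / 4 : ℝ) * DC i ^ (1 / 2 : ℝ) :=
      mul_nonneg (mul_nonneg (Real.rpow_nonneg (hA i hi) _) (Real.rpow_nonneg (hB i hi) _))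
        (Real.rpow_nonneg (dC i hi) _)
    refine (hT i hi).trans ?_
    refine (mul_le_mul_of_nonneg_left (one_add_posLog_le
      (rat_nonneg (hA i hi) (hB i hi) (hC i hi)) hep) (mul_nonneg hK p0)).trans ?_
    rw [mul_add, mul_one]
    refine add_le_add_right ?_ _
    have h2 := mul_le_mul_of_nonneg_left (disp_le (hA i hi) (hB i hi) (hC i hi) (dA i hi)
      (dB i hi) (dC i hi) hep) (div_nonneg hK hep.le)
    refine le_trans (le_of_eq ?_) h2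
    ring
  refine (sum_le_sum h1).trans ?_
  rw [sum_add_distrib, ← mul_sum, ← mul_sum]
  refine add_le_add (mul_le_mul_of_nonneg_left ?_ hK)
    (mul_le_mul_of_nonneg_left ?_ (div_nonneg hK hep.le))
  · exact hol3 s (by norm_num) (by norm_num) (by norm_num) (by norm_num) hA hB dC
  · exact hol6 s (by linarith) (by linarith) (by linarith) hep hep hep (by ring) hA hB dC dA dB hC

theorem sq_rpow {x : ℝ} (hx : 0 ≤ x) (p : ℝ) : (x ^ 2) ^ p = x ^ (2 * p) := by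
  rw [← Real.rpow_natCast x 2, ← Real.rpow_mul hx]
  norm_num

/-- The product of the pair terms with exponents `1 - 4 ep`, `2 ep`, `2 ep`. -/
theorem pair_gm {a2 a4 b2 b4 c2 c4 ep : ℝ} (a0 : 0 ≤ a2) (a0' : 0 ≤ a4) (b0 : 0 ≤ b2)
    (b0' : 0 ≤ b4) (c0 : 0 ≤ c2) (c0' : 0 ≤ c4) (hep : 0 < ep) (hep' : ep < 1 / 4) :
    (a2 * a4) ^ (1 / 2 - ep) * (b2 * b4) ^ (1 / 2 - ep) * c2 ^ (1 - 4 * ep) * a2 ^ (2 * ep) *
        b2 ^ (2 * ep) * (c2 * c4) ^ (2 * ep) ≤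
      √(a2 * a4) * √(b2 * b4) * c2 + √(a2 * a4) * √(c2 * c4) * b2 +
        √(b2 * b4) * √(c2 * c4) * a2 := by
  have A0 : 0 ≤ a2 * a4 := mul_nonneg a0 a0'
  have B0 : 0 ≤ b2 * b4 := mul_nonneg b0 b0'
  have C0 : 0 ≤ c2 * c4 := mul_nonneg c0 c0'
  have h := Real.geom_mean_le_arith_mean3_weighted (w₁ := 1 - 4 * ep) (w₂ := 2 * ep)
    (w₃ := 2 * ep) (by linarith) (by linarith) (by linarith)
    (p₁ := √(a2 * a4) * √(b2 * b4) * c2) (p₂ := √(a2 * a4) * √(c2 * c4) * b2)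
    (p₃ := √(b2 * b4) * √(c2 * c4) * a2) (by positivity) (by positivity) (by positivity)
    (by ring)
  have e1 : (√(a2 * a4) * √(b2 * b4) * c2) ^ (1 - 4 * ep) *
      (√(a2 * a4) * √(c2 * c4) * b2) ^ (2 * ep) * (√(b2 * b4) * √(c2 * c4) * a2) ^ (2 * ep) =
      (a2 * a4) ^ (1 / 2 - ep) * (b2 * b4) ^ (1 / 2 - ep) * c2 ^ (1 - 4 * ep) * a2 ^ (2 * ep) *
        b2 ^ (2 * ep) * (c2 * c4) ^ (2 * ep) := by
    have s1 : ∀ {y : ℝ} (_ : 0 ≤ y) (p : ℝ), √y ^ p = y ^ (1 / 2 * p) := fun hy p => by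
      rw [Real.sqrt_eq_rpow, ← Real.rpow_mul hy]
    rw [Real.mul_rpow (by positivity) c0, Real.mul_rpow (by positivity) (by positivity),
      Real.mul_rpow (by positivity) b0, Real.mul_rpow (by positivity) (by positivity),
      Real.mul_rpow (by positivity) a0, Real.mul_rpow (by positivity) (by positivity),
      s1 A0, s1 A0, s1 B0, s1 B0, s1 C0]
    have eA : (a2 * a4) ^ (1 / 2 - ep) =
        (a2 * a4) ^ (1 / 2 * (1 - 4 * ep)) * (a2 * a4) ^ (1 / 2 * (2 * ep)) := by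
      rw [← Real.rpow_add_of_nonneg A0 (by linarith) (by linarith)]
      congr 1; ring
    have eB : (b2 * b4) ^ (1 / 2 - ep) =
        (b2 * b4) ^ (1 / 2 * (1 - 4 * ep)) * (b2 * b4) ^ (1 / 2 * (2 * ep)) := by
      rw [← Real.rpow_add_of_nonneg B0 (by linarith) (by linarith)]
      congr 1; ring
    have eC : (c2 * c4) ^ (2 * ep) =
        (c2 * c4) ^ (1 / 2 * (2 * ep)) * (c2 * c4) ^ (1 / 2 * (2 * ep)) := by
      rw [← Real.rpow_add_of_nonneg C0 (by linarith) (by linarith)]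
      congr 1; ring
    rw [eA, eB, eC]
    ring
  rw [← e1]
  refine h.trans ?_
  have X0 : 0 ≤ √(a2 * a4) * √(b2 * b4) * c2 := by positivity
  have Y0 : 0 ≤ √(a2 * a4) * √(c2 * c4) * b2 := by positivity
  have Z0 : 0 ≤ √(b2 * b4) * √(c2 * c4) * a2 := by positivity
  nlinarith

/-- `t ^ (1/2) e ^ (1/4)` against `t ^ (1/2 - ep) e ^ (1/4 + ep/2)` for `t ^ 2 ≤ e`. -/
theorem lvl_le {t e ep : ℝ} (ht : 0 ≤ t) (he : 0 ≤ e) (hep : 0 < ep) (hep' : ep < 1 / 4)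
    (l : t ^ 2 ≤ e) :
    t ^ (2 * (1 / 4) : ℝ) * e ^ (1 / 4 : ℝ) ≤ t ^ (1 / 2 - ep) * e ^ (1 / 4 + ep / 2) := by
  have u1 : t ^ (2 * (1 / 4) : ℝ) = t ^ (1 / 2 - ep) * t ^ ep := by
    rw [← Real.rpow_add_of_nonneg ht (by linarith) hep.le]; congr 1; ring
  have u2 : e ^ (1 / 4 + ep / 2) = e ^ (1 / 4 : ℝ) * e ^ (ep / 2) :=
    Real.rpow_add_of_nonneg he (by norm_num) (by linarith)
  have u3 : t ^ ep ≤ e ^ (ep / 2) := by
    have := Real.rpow_le_rpow (by positivity) l (by linarith : 0 ≤ ep / 2)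
    rwa [sq_rpow ht, mul_div_cancel₀ _ (two_ne_zero)] at this
  rw [u1, u2]
  calc t ^ (1 / 2 - ep) * t ^ ep * e ^ (1 / 4 : ℝ)
      = t ^ (1 / 2 - ep) * e ^ (1 / 4 : ℝ) * t ^ ep := by ring
    _ ≤ t ^ (1 / 2 - ep) * e ^ (1 / 4 : ℝ) * e ^ (ep / 2) := by gcongr
    _ = _ := by ring

theorem ex_g {V κ t e x : ℝ} (hV : 0 ≤ V) (hκ : 0 ≤ κ) (ht : 0 ≤ t) (he : 0 ≤ e) (hx : 0 ≤ x)
    (p : ℝ) : (V * (κ * t ^ 2 * e * x ^ 2)) ^ p =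
      V ^ p * (κ ^ p * t ^ (2 * p) * e ^ p * x ^ (2 * p)) := by
  rw [Real.mul_rpow hV (by positivity), Real.mul_rpow (by positivity) (by positivity),
    Real.mul_rpow (by positivity) he, Real.mul_rpow hκ (by positivity), sq_rpow ht, sq_rpow hx]

theorem ex_c {V κ e x : ℝ} (hV : 0 ≤ V) (hκ : 0 ≤ κ) (he : 0 ≤ e) (hx : 0 ≤ x)
    (p : ℝ) : (V * (κ * e ^ 2 * x ^ 2)) ^ p =
      V ^ p * (κ ^ p * e ^ (2 * p) * x ^ (2 * p)) := by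
  rw [Real.mul_rpow hV (by positivity), Real.mul_rpow (by positivity) (by positivity),
    Real.mul_rpow hκ (by positivity), sq_rpow he, sq_rpow hx]

theorem ex_d {V e x : ℝ} (hV : 0 ≤ V) (he : 0 ≤ e) (hx : 0 ≤ x) (p : ℝ) :
    (V * (e * x ^ 2)) ^ p = V ^ p * (e ^ p * x ^ (2 * p)) := by
  rw [Real.mul_rpow hV (by positivity), Real.mul_rpow he (by positivity), sq_rpow hx]

/-- The first term. -/
theorem xs_first {SA SB RC K ep κ V tA tB eA eB eC A2 B2 c2 : ℝ}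
    (hep : 0 < ep) (hep' : ep < 1 / 4) (hκ : 0 ≤ κ) (hV : 0 ≤ V) (htA : 0 ≤ tA) (htB : 0 ≤ tB)
    (heA : 0 ≤ eA) (heB : 0 ≤ eB) (heC : 0 ≤ eC) (A0 : 0 ≤ A2) (B0 : 0 ≤ B2) (c0 : 0 ≤ c2)
    (sA : 0 ≤ SA) (sB : 0 ≤ SB) (rC : 0 ≤ RC)
    (gA : SA ≤ V * (κ * tA ^ 2 * eA * A2 ^ 2)) (gB : SB ≤ V * (κ * tB ^ 2 * eB * B2 ^ 2))
    (qC : RC ≤ V * (eC * c2 ^ 2)) (lA : tA ^ 2 ≤ eA) (lB : tB ^ 2 ≤ eB)
    (hK : √A2 * √B2 * c2 ≤ K) :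
    SA ^ (1 / 4 : ℝ) * SB ^ (1 / 4 : ℝ) * RC ^ (1 / 2 : ℝ) ≤
      V * (κ ^ (1 / 2 : ℝ) *
        ((tA * tB) ^ (1 / 2 - ep) * (eA * eB) ^ (1 / 4 + ep / 2) * eC ^ (1 / 2 : ℝ))) * K := by
  have m1 := Real.rpow_le_rpow sA gA (by norm_num : (0 : ℝ) ≤ 1 / 4)
  have m2 := Real.rpow_le_rpow sB gB (by norm_num : (0 : ℝ) ≤ 1 / 4)
  have m3 := Real.rpow_le_rpow rC qC (by norm_num : (0 : ℝ) ≤ 1 / 2)
  refine (mul_le_mul (mul_le_mul m1 m2 (by positivity) (by positivity)) m3 (by positivity)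
    (by positivity)).trans ?_
  rw [ex_g hV hκ htA heA A0, ex_g hV hκ htB heB B0, ex_d hV heC c0]
  have k1 : (κ : ℝ) ^ (1 / 4 : ℝ) * κ ^ (1 / 4 : ℝ) = κ ^ (1 / 2 : ℝ) := by
    rw [← Real.rpow_add_of_nonneg hκ (by norm_num) (by norm_num)]; norm_num
  have v1 : V ^ (1 / 4 : ℝ) * V ^ (1 / 4 : ℝ) * V ^ (1 / 2 : ℝ) = V := by
    rw [← Real.rpow_add_of_nonneg hV (by norm_num) (by norm_num),
      ← Real.rpow_add_of_nonneg hV (by norm_num) (by norm_num)]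
    norm_num
  have q1 := lvl_le htA heA hep hep' lA
  have q2 := lvl_le htB heB hep hep' lB
  have n1 : A2 ^ (2 * (1 / 4) : ℝ) = √A2 := by
    rw [Real.sqrt_eq_rpow]; norm_num
  have n2 : B2 ^ (2 * (1 / 4) : ℝ) = √B2 := by
    rw [Real.sqrt_eq_rpow]; norm_num
  have n3 : c2 ^ (2 * (1 / 2) : ℝ) = c2 := by norm_num
  rw [n1, n2, n3, Real.mul_rpow htA htB, Real.mul_rpow heA heB]
  have K0 : 0 ≤ √A2 * √B2 * c2 := by positivity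
  calc _ = (V ^ (1 / 4 : ℝ) * V ^ (1 / 4 : ℝ) * V ^ (1 / 2 : ℝ)) *
        (κ ^ (1 / 4 : ℝ) * κ ^ (1 / 4 : ℝ)) * eC ^ (1 / 2 : ℝ) *
        (√A2 * √B2 * c2) * ((tA ^ (2 * (1 / 4) : ℝ) * eA ^ (1 / 4 : ℝ)) *
          (tB ^ (2 * (1 / 4) : ℝ) * eB ^ (1 / 4 : ℝ))) := by ring
    _ = V * κ ^ (1 / 2 : ℝ) * eC ^ (1 / 2 : ℝ) *
        (√A2 * √B2 * c2) * ((tA ^ (2 * (1 / 4) : ℝ) * eA ^ (1 / 4 : ℝ)) *
          (tB ^ (2 * (1 / 4) : ℝ) * eB ^ (1 / 4 : ℝ))) := by rw [v1, k1]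
    _ ≤ V * κ ^ (1 / 2 : ℝ) * eC ^ (1 / 2 : ℝ) * K *
        ((tA ^ (1 / 2 - ep) * eA ^ (1 / 4 + ep / 2)) *
          (tB ^ (1 / 2 - ep) * eB ^ (1 / 4 + ep / 2))) :=
      mul_le_mul (mul_le_mul_of_nonneg_left hK (by positivity))
        (mul_le_mul q1 q2 (by positivity) (by positivity)) (by positivity)
        (mul_nonneg (by positivity) (K0.trans hK))
    _ = _ := by ring

theorem reord (v1 v2 v3 v4 v5 v6 k1 k2 k3 ta tb ea ea' eb eb' ec ec' x1 x2 x3 x4 x5 x6 : ℝ) :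
    v1 * (k1 * ta * ea * x1) * (v2 * (k2 * tb * eb * x2)) * (v3 * (ec * x3)) *
      (v4 * (ea' * x4)) * (v5 * (eb' * x5)) * (v6 * (k3 * ec' * x6)) =
    v1 * v2 * v3 * v4 * v5 * v6 * (k1 * k2 * k3) * (ta * tb) * (ea * ea' * (eb * eb')) *
      (ec * ec') * (x1 * x2 * x3 * x4 * x5 * x6) := by ring

theorem reord2 (v k ta tb ea eb ec y : ℝ) :
    v * k * (ta * tb) * (ea * eb) * ec * y = v * (k * (ta * tb * (ea * eb) * ec)) * y := by ring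

/-- The second term. -/
theorem xs_second {SA SB SC RA RB RC K ep κ V tA tB eA eB eC A2 B2 C2 a2 b2 c2 : ℝ}
    (hep : 0 < ep) (hep' : ep < 1 / 4) (hκ : 0 ≤ κ) (hV : 0 ≤ V) (htA : 0 ≤ tA) (htB : 0 ≤ tB)
    (heA : 0 ≤ eA) (heB : 0 ≤ eB) (heC : 0 ≤ eC) (A0 : 0 ≤ A2) (B0 : 0 ≤ B2) (C0 : 0 ≤ C2)
    (a0 : 0 ≤ a2) (b0 : 0 ≤ b2) (c0 : 0 ≤ c2)
    (sA : 0 ≤ SA) (sB : 0 ≤ SB) (sC : 0 ≤ SC) (rA : 0 ≤ RA) (rB : 0 ≤ RB) (rC : 0 ≤ RC)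
    (gA : SA ≤ V * (κ * tA ^ 2 * eA * A2 ^ 2)) (gB : SB ≤ V * (κ * tB ^ 2 * eB * B2 ^ 2))
    (gC : SC ≤ V * (κ * eC ^ 2 * C2 ^ 2))
    (qA : RA ≤ V * (eA * a2 ^ 2)) (qB : RB ≤ V * (eB * b2 ^ 2))
    (qC : RC ≤ V * (eC * c2 ^ 2))
    (hK : A2 ^ (1 / 2 - ep) * B2 ^ (1 / 2 - ep) * c2 ^ (1 - 4 * ep) * a2 ^ (2 * ep) *
        b2 ^ (2 * ep) * C2 ^ (2 * ep) ≤ K) :
    SA ^ (1 / 4 - ep / 2) * SB ^ (1 / 4 - ep / 2) * RC ^ (1 / 2 - 2 * ep) * RA ^ ep *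
      RB ^ ep * SC ^ ep ≤
      V * (κ ^ (1 / 2 : ℝ) *
        ((tA * tB) ^ (1 / 2 - ep) * (eA * eB) ^ (1 / 4 + ep / 2) * eC ^ (1 / 2 : ℝ))) * K := by
  have m1 := Real.rpow_le_rpow sA gA (by linarith : (0 : ℝ) ≤ 1 / 4 - ep / 2)
  have m2 := Real.rpow_le_rpow sB gB (by linarith : (0 : ℝ) ≤ 1 / 4 - ep / 2)
  have m3 := Real.rpow_le_rpow rC qC (by linarith : (0 : ℝ) ≤ 1 / 2 - 2 * ep)
  have m4 := Real.rpow_le_rpow rA qA hep.le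
  have m5 := Real.rpow_le_rpow rB qB hep.le
  have m6 := Real.rpow_le_rpow sC gC hep.le
  refine (mul_le_mul (mul_le_mul (mul_le_mul (mul_le_mul (mul_le_mul m1 m2 (by positivity)
    (by positivity)) m3 (by positivity) (by positivity)) m4 (by positivity) (by positivity))
    m5 (by positivity) (by positivity)) m6 (by positivity) (by positivity)).trans ?_
  rw [ex_g hV hκ htA heA A0, ex_g hV hκ htB heB B0, ex_c hV hκ heC C0, ex_d hV heC c0,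
    ex_d hV heA a0, ex_d hV heB b0, Real.mul_rpow htA htB, Real.mul_rpow heA heB]
  have v2 : V ^ (1 / 4 - ep / 2) * V ^ (1 / 4 - ep / 2) * V ^ (1 / 2 - 2 * ep) * V ^ ep *
      V ^ ep * V ^ ep = V := by
    rw [← Real.rpow_add_of_nonneg hV (by linarith) (by linarith),
      ← Real.rpow_add_of_nonneg hV (by linarith) (by linarith),
      ← Real.rpow_add_of_nonneg hV (by linarith) (by linarith),
      ← Real.rpow_add_of_nonneg hV (by linarith) (by linarith),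
      ← Real.rpow_add_of_nonneg hV (by linarith) (by linarith),
      show 1 / 4 - ep / 2 + (1 / 4 - ep / 2) + (1 / 2 - 2 * ep) + ep + ep + ep = (1 : ℝ) by ring,
      Real.rpow_one]
  have k2 : κ ^ (1 / 4 - ep / 2) * κ ^ (1 / 4 - ep / 2) * κ ^ ep = κ ^ (1 / 2 : ℝ) := by
    rw [← Real.rpow_add_of_nonneg hκ (by linarith) (by linarith),
      ← Real.rpow_add_of_nonneg hκ (by linarith) (by linarith)]
    congr 1; ring
  have tA2 : tA ^ (2 * (1 / 4 - ep / 2)) = tA ^ (1 / 2 - ep) := by congr 1; ring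
  have tB2 : tB ^ (2 * (1 / 4 - ep / 2)) = tB ^ (1 / 2 - ep) := by congr 1; ring
  have eA2 : eA ^ (1 / 4 - ep / 2) * eA ^ ep = eA ^ (1 / 4 + ep / 2) := by
    rw [← Real.rpow_add_of_nonneg heA (by linarith) (by linarith)]; congr 1; ring
  have eB2 : eB ^ (1 / 4 - ep / 2) * eB ^ ep = eB ^ (1 / 4 + ep / 2) := by
    rw [← Real.rpow_add_of_nonneg heB (by linarith) (by linarith)]; congr 1; ring
  have eC2 : eC ^ (1 / 2 - 2 * ep) * eC ^ (2 * ep) = eC ^ (1 / 2 : ℝ) := by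
    rw [← Real.rpow_add_of_nonneg heC (by linarith) (by linarith)]; congr 1; ring
  have hK0 : 0 ≤ V * κ ^ (1 / 2 : ℝ) * (tA ^ (1 / 2 - ep) * tB ^ (1 / 2 - ep)) *
      (eA ^ (1 / 4 + ep / 2) * eB ^ (1 / 4 + ep / 2)) * eC ^ (1 / 2 : ℝ) := by positivity
  have x1 : A2 ^ (2 * (1 / 4 - ep / 2)) = A2 ^ (1 / 2 - ep) := by congr 1; ring
  have x2 : B2 ^ (2 * (1 / 4 - ep / 2)) = B2 ^ (1 / 2 - ep) := by congr 1; ring
  have x3 : c2 ^ (2 * (1 / 2 - 2 * ep)) = c2 ^ (1 - 4 * ep) := by congr 1; ring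
  rw [tA2, tB2, x1, x2, x3]
  rw [reord, v2, k2, eA2, eB2, eC2]
  refine (mul_le_mul_of_nonneg_left hK hK0).trans (le_of_eq ?_)
  exact reord2 _ _ _ _ _ _ _ _

/-- **The sum over `x0` in the pair weight.**  `V` is the common normalisation (volume), `κ` the
constant of the moment lemma, `tA`, `tB` the levels, `eA`, `eB`, `eC` the energies. -/
theorem xsum_pair {ι : Type*} (s : Finset ι) {T GA GB GC DA DB DC : ι → ℝ}
    {K ep κ V tA tB eA eB eC a2 a4 b2 b4 c2 c4 : ℝ} (hK : 0 ≤ K)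
    (hep : 0 < ep) (hep' : ep < 1 / 4) (hκ : 0 ≤ κ) (hV : 0 ≤ V) (htA : 0 ≤ tA) (htB : 0 ≤ tB)
    (heA : 0 ≤ eA) (heB : 0 ≤ eB) (heC : 0 ≤ eC) (a0 : 0 ≤ a2) (a0' : 0 ≤ a4) (b0 : 0 ≤ b2)
    (b0' : 0 ≤ b4) (c0 : 0 ≤ c2) (c0' : 0 ≤ c4)
    (hA : ∀ i ∈ s, 0 ≤ GA i) (hB : ∀ i ∈ s, 0 ≤ GB i) (hC : ∀ i ∈ s, 0 ≤ GC i)
    (dA : ∀ i ∈ s, 0 ≤ DA i) (dB : ∀ i ∈ s, 0 ≤ DB i) (dC : ∀ i ∈ s, 0 ≤ DC i)
    (hT : ∀ i ∈ s, T i ≤ K * (GA i ^ (1 / 4 : ℝ) * GB i ^ (1 / 4 : ℝ) * DC i ^ (1 / 2 : ℝ)) *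
      (1 + Real.posLog (rat (GA i) (GB i) (GC i) (DA i) (DB i) (DC i))))
    (gA : ∑ i ∈ s, GA i ≤ V * (κ * tA ^ 2 * eA * (a2 * a4) ^ 2))
    (gB : ∑ i ∈ s, GB i ≤ V * (κ * tB ^ 2 * eB * (b2 * b4) ^ 2))
    (gC : ∑ i ∈ s, GC i ≤ V * (κ * eC ^ 2 * (c2 * c4) ^ 2))
    (qA : ∑ i ∈ s, DA i ≤ V * (eA * a2 ^ 2)) (qB : ∑ i ∈ s, DB i ≤ V * (eB * b2 ^ 2))
    (qC : ∑ i ∈ s, DC i ≤ V * (eC * c2 ^ 2)) (lA : tA ^ 2 ≤ eA) (lB : tB ^ 2 ≤ eB) :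
    ∑ i ∈ s, T i ≤ V * (K * (1 + 1 / ep) * κ ^ (1 / 2 : ℝ) *
        ((tA * tB) ^ (1 / 2 - ep) * (eA * eB) ^ (1 / 4 + ep / 2) * eC ^ (1 / 2 : ℝ))) *
      (√(a2 * a4) * √(b2 * b4) * c2 + √(a2 * a4) * √(c2 * c4) * b2 +
        √(b2 * b4) * √(c2 * c4) * a2) := by
  have A0 : 0 ≤ a2 * a4 := mul_nonneg a0 a0'
  have B0 : 0 ≤ b2 * b4 := mul_nonneg b0 b0'
  have C0 : 0 ≤ c2 * c4 := mul_nonneg c0 c0'
  have W1 : √(a2 * a4) * √(b2 * b4) * c2 ≤ √(a2 * a4) * √(b2 * b4) * c2 +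
      √(a2 * a4) * √(c2 * c4) * b2 + √(b2 * b4) * √(c2 * c4) * a2 := by
    have h1 : 0 ≤ √(a2 * a4) * √(c2 * c4) * b2 := by positivity
    have h2 : 0 ≤ √(b2 * b4) * √(c2 * c4) * a2 := by positivity
    linarith
  have h1 := xs_first (K := _) hep hep' hκ hV htA htB heA heB heC A0 B0 c0 (sum_nonneg hA)
    (sum_nonneg hB) (sum_nonneg dC) gA gB qC lA lB W1
  have h2 := xs_second (K := _) hep hep' hκ hV htA htB heA heB heC A0 B0 C0 a0 b0 c0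
    (sum_nonneg hA) (sum_nonneg hB) (sum_nonneg hC) (sum_nonneg dA) (sum_nonneg dB)
    (sum_nonneg dC) gA gB gC qA qB qC (pair_gm a0 a0' b0 b0' c0 c0' hep hep')
  refine (xsum s hK hep hep' hA hB hC dA dB dC hT).trans ?_
  refine (add_le_add (mul_le_mul_of_nonneg_left h1 hK)
    (mul_le_mul_of_nonneg_left h2 (div_nonneg hK hep.le))).trans (le_of_eq ?_)
  ring

end

end Vale.Agent.P141.H784
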